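/-
Row 324 (S0582), PDE core, module AP (architect helper263): DEFINITIONS of the approximate solution `bgA q w z`.      Blueprint: origin/helper232:docs/R324_blueprint.md, section 7.2.
(w, z) = Bohm profile (functions of Ξ, smooth on ℝ, z > 0 on ℝ: `bohm_exists_pos`);   th F = 2Ξ F'(Ξ);   J = bJ w = 2 - th w;   J_a = bJa z = -th z/z;   l = bl z (log z = Ξ l).
Λ = -t,  γ = gaF q = 8/α,  λ² = lam2 q t = Λ^(2γ),  X = Xf y = 1-y²,  Ξ = XiF q (t,y) = X/λ²,  Y = X/Λ,   m = q+1, z₀ = z0F q = (q-1)/(q+1),  κ_z = bKz q.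

ATOMS       atm q s F = Λ^(-s) F(Ξ).          ∂_y atm s F = -2y atm (s+2γ) F',         ∂_t atm s F = atm (s+1) (s F + γ th F).
HEAT POLYNOMIALS    A_w(Y) = Σ_{j=1}^8 a_j Y^j,  A_z(Y) = Σ_{j=1}^8 a^z_j Y^j,   a_j = aW q j, a^z_j = aZ q j,  a_0 = a^z_0 = 1/α,
        a_{j+1} = (j-8) a_j/(z₀ p_w(2j+2-α)),     a^z_{j+1} = ((j-8) a^z_j + (4 z₀²/κ_z)(2j+2-α) a_{j+1})/(z₀ p_z(2j+2-α)),      p_w(s) = s²+ms+2m,  p_z(s) = (s-2)(s+m)       (so a_9 = a^z_9 = 0).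
     homogeneous form:  HW = Σ_{j<8} a_{j+1} Λ^(7-j) X^j = Λ^8 A_w(Y)/X,    HZ the same with a^z.
ANSATZ (tip side)
        u  = J(Ξ) A_w(Y)   = X * uW1,    uW1 = atm 8 J * HW,
        v  = J_a(Ξ) A_z(Y) = X * uZ1,    uZ1 = atm 8 J_a * HZ,
        w_tip = 2γ log Λ + w(Ξ) + u,
        ζ_tip = log z_tip = log z(Ξ) + v = X * ze1,      ze1 = atm (2γ) l + uZ1,
        B_tip = (y² e^{-ζ} - 1)/X = -ze1 Φ₁(X ze1) - exp(-X ze1),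
        W_tip = (e^ζ/y) [ (q-1) uZ1 Φ₁(X uZ1)/z(Ξ) + ∂_X v + 2 ∂_X u ],   ∂_X = -(1/2y) ∂_y         (= the Angenent-Knopf field, which makes E₂ = 0, by Bohm's equation (Z1)).
     bgA:  B = ψ₁ B_tip,  w = ψ₁ w_tip,  W = ψ₁ W_tip.
-/
import Claimed.Agent.R324.Core.Bgd
import Claimed.Agent.R324.Bohm

set_option autoImplicit false

namespace Claimed.Agent.R324.Core

open Set Filter Topology
open scoped ContDiff

noncomputable section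

/-- `Ξ = X/λ²`. -/
def XiF (q : ℝ) : Fn := fun p => Xf p.2 / lam2 q p.1

/-- atoms `Λ^{-s} F(Ξ)`. -/
def atm (q s : ℝ) (F : ℝ → ℝ) : Fn := fun p => (-p.1) ^ (-s) * F (XiF q p)

/-- `p_w(s) = s² + m s + 2m`. -/
def pwF (q s : ℝ) : ℝ := s ^ 2 + (q + 1) * s + 2 * (q + 1)

/-- `p_z(s) = (s-2)(s+m)`. -/
def pzF (q s : ℝ) : ℝ := (s - 2) * (s + (q + 1))

/-- the coefficients `a_j` of `A_w` (`a_0 = 1/α`). -/
def aW (q : ℝ) (j : ℕ) : ℝ :=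
  Nat.rec (1 / alF q) (fun i a => ((i : ℝ) - 8) * a / (z0F q * pwF q (2 * i + 2 - alF q))) j

/-- the coefficients `a^z_j` of `A_z` (`a^z_0 = 1/α`). -/
def aZ (q : ℝ) (j : ℕ) : ℝ :=
  Nat.rec (1 / alF q) (fun i a => (((i : ℝ) - 8) * a
    + 4 * z0F q ^ 2 / bKz q * (2 * i + 2 - alF q) * aW q (i + 1)) / (z0F q * pzF q (2 * i + 2 - alF q))) j

/-- `Σ_{j<8} c_{j+1} Λ^{7-j} X^j`. -/
def hPol (c : ℕ → ℝ) : Fn := fun p =>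
  ∑ j ∈ Finset.range 8, c (j + 1) * (-p.1) ^ (7 - j) * (Xf p.2) ^ j

/-- `J_a = - th z / z`. -/
def bJa (z : ℝ → ℝ) (Ξ : ℝ) : ℝ := -th z Ξ / z Ξ

/-- `u/X`. -/
def uW1 (q : ℝ) (w : ℝ → ℝ) : Fn := fun p => atm q 8 (bJ w) p * hPol (aW q) p

/-- `v/X`. -/
def uZ1 (q : ℝ) (z : ℝ → ℝ) : Fn := fun p => atm q 8 (bJa z) p * hPol (aZ q) p

/-- `u = J(Ξ) A_w(Y)`. -/
def uWF (q : ℝ) (w : ℝ → ℝ) : Fn := fun p => Xf p.2 * uW1 q w p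

/-- `v = J_a(Ξ) A_z(Y)`. -/
def uZF (q : ℝ) (z : ℝ → ℝ) : Fn := fun p => Xf p.2 * uZ1 q z p

/-- `ζ_tip/X`. -/
def ze1 (q : ℝ) (z : ℝ → ℝ) : Fn := fun p => atm q (2 * gaF q) (bl z) p + uZ1 q z p

/-- `ζ_tip = log z_tip`. -/
def zeF (q : ℝ) (z : ℝ → ℝ) : Fn := fun p => Xf p.2 * ze1 q z p

def Btip (q : ℝ) (z : ℝ → ℝ) : Fn := fun p =>
  -ze1 q z p * Ph1 (zeF q z p) - Real.exp (-zeF q z p)

def wtip (q : ℝ) (w : ℝ → ℝ) : Fn := fun p =>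
  2 * gaF q * Real.log (-p.1) + w (XiF q p) + uWF q w p

/-- `ψ₁(y)/y`. -/
def psY1 (y : ℝ) : ℝ := psi1 y / y

/-- `ψ₁(y)/(2y²)`. -/
def psY2 (y : ℝ) : ℝ := psi1 y / (2 * y ^ 2)

/-- `ψ₁ W_tip`. -/
def WA (q : ℝ) (w z : ℝ → ℝ) : Fn := fun p =>
  Real.exp (zeF q z p) * (psY1 p.2 * ((q - 1) * (uZ1 q z p * Ph1 (uZF q z p) / z (XiF q p)))
    - psY2 p.2 * (dY (uZF q z) p + 2 * dY (uWF q w) p))

/-- **the approximate solution.** -/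
def bgA (q : ℝ) (w z : ℝ → ℝ) : Bg where
  B := fun p => psi1 p.2 * Btip q z p
  w := fun p => psi1 p.2 * wtip q w p
  W := WA q w z

/-- the profile weights `((1+Ξ)^{-α/2})^a (1+Ξ)^{-e}`. -/
def sb (q : ℝ) (a e : ℕ) (Ξ : ℝ) : ℝ := ((1 + Ξ) ^ (-(alF q) / 2)) ^ a / (1 + Ξ) ^ e

theorem aW_zero (q : ℝ) : aW q 0 = 1 / alF q := rfl

theorem aW_succ (q : ℝ) (j : ℕ) :
    aW q (j + 1) = ((j : ℝ) - 8) * aW q j / (z0F q * pwF q (2 * j + 2 - alF q)) := rfl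

theorem aZ_zero (q : ℝ) : aZ q 0 = 1 / alF q := rfl

theorem aZ_succ (q : ℝ) (j : ℕ) :
    aZ q (j + 1) = (((j : ℝ) - 8) * aZ q j
      + 4 * z0F q ^ 2 / bKz q * (2 * j + 2 - alF q) * aW q (j + 1)) / (z0F q * pzF q (2 * j + 2 - alF q)) := rfl

/-- hygiene. -/
theorem core_ap_defs_hygiene : True := by
  have := @XiF.eq_1
  have := @atm.eq_1
  have := @pwF.eq_1
  have := @pzF.eq_1
  have := @aW.eq_1
  have := @aZ.eq_1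
  have := @hPol.eq_1
  have := @bJa.eq_1
  have := @uW1.eq_1
  have := @uZ1.eq_1
  have := @uWF.eq_1
  have := @uZF.eq_1
  have := @ze1.eq_1
  have := @zeF.eq_1
  have := @Btip.eq_1
  have := @wtip.eq_1
  have := @psY1.eq_1
  have := @psY2.eq_1
  have := @WA.eq_1
  have := @bgA.eq_1
  have := @sb.eq_1
  trivial

end

end Claimed.Agent.R324.Core
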