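/-
Row 324 (S0582), PDE core, module AP (architect helper263), file AtmA: the atoms  atm q s F = Λ^(-s) F(Ξ),  Ξ = XiF q = X/λ²,  λ² = lam2 q t = Λ^(2γ), Λ = -t, γ = gaF q  (Core/AP/Defs.lean): smoothness and derivatives.
Tools: Core/PR/Sm.lean (`sm_of_t, sm_Xf, Sm.mul, Sm.div, Sm.comp, dY_of_hasDerivAt, dT_of_hasDerivAt, hasDerivAt_Xf`).

* `lam2_pos`: `Real.rpow_pos_of_pos`.
* `sm_Lam_rpow`:  t ↦ (-t)^s is smooth on Iio 0 (`ContDiffOn.rpow_const_of_ne`/`ContDiffAt.rpow_const_of_ne`, -t ≠ 0); `sm_of_t`.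
* `sm_XiF`: X * Λ^(-2γ)… or `Sm.div sm_Xf (sm_Lam_rpow _) (ne)`.        `sm_atm`: `Sm.mul`, `Sm.comp hF sm_XiF`.
* `dY_atm`:  for fixed t < 0:  z ↦ Λ^(-s) F((1-z²)/λ²) has derivative Λ^(-s) F'(Ξ) (-2z/λ²);    1/λ² = Λ^(-2γ) (`Real.rpow_neg`), Λ^(-s) Λ^(-2γ) = Λ^(-(s+2γ)) (`Real.rpow_add`).
* `dT_atm`:  for fixed y:  d/dt (-t)^(-s) = s (-t)^(-s-1)   (`Real.hasDerivAt_rpow_const` composed with t ↦ -t);     d/dt Ξ = X d/dt (-t)^(-2γ) = 2γ X (-t)^(-2γ-1) = 2γ Ξ/Λ;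
        d/dt [Λ^(-s) F(Ξ)] = s Λ^(-s-1) F(Ξ) + Λ^(-s) F'(Ξ) 2γ Ξ/Λ = Λ^(-(s+1)) (s F(Ξ) + γ (2 Ξ F'(Ξ))),     th F Ξ = 2 * Ξ * deriv F Ξ.
* `XiF_nonneg`: X = 1-y² ≥ 0 for |y| ≤ 1, λ² > 0.       `one_add_XiF`: field_simp.
* `rh2_le_lamX` (NORTHERN domains `DomN D`: -1/2 ≤ y):  rh2 = c λ² + X̃, c = (q-1)/100;   X̃ ≤ (4/3) X  (y ≥ 1/2: `Xt_eq`;  |y| ≤ 1/2: X̃ ≤ 1 (`Xt_mem`) and X = 1-y² ≥ 3/4).
* `atm_mul_Lam`:  Λ^k * Λ^(-(s+k)) = Λ^(-s)  (`Real.rpow_natCast`, `Real.rpow_add`).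
-/
import Claimed.Agent.R324.Core.AP.Defs
import Claimed.Agent.R324.Core.AP.Cal.Cls

set_option autoImplicit false

namespace Claimed.Agent.R324.Core

open Set Filter Topology
open scoped ContDiff

noncomputable section

variable {q s t y : ℝ} {D : Set (ℝ × ℝ)} {F : ℝ → ℝ} {p : ℝ × ℝ}

/-- NORTHERN domains: `-1/2 ≤ y`.   The atoms `Λ^(-s) F(X/λ²)` are symbols only there (at the south pole `X = 0` again). -/
def DomN (D : Set (ℝ × ℝ)) : Prop := ∀ p ∈ D, -1 / 2 ≤ p.2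

theorem DomN.subset {D' : Set (ℝ × ℝ)} (hN : DomN D) (h : D' ⊆ D) : DomN D' := fun p hp => hN p (h hp)

theorem domN_inter (D : Set (ℝ × ℝ)) {c : ℝ} (hc : -1 / 2 ≤ c) : DomN (D ∩ {p | c ≤ p.2}) :=
  fun _ hp => hc.trans hp.2

theorem domN_inter_lt (D : Set (ℝ × ℝ)) {c : ℝ} (hc : -1 / 2 ≤ c) : DomN (D ∩ {p | c < p.2}) :=
  fun _ hp => hc.trans (le_of_lt hp.2)

theorem domN_empty : DomN ∅ := fun _ hp => absurd hp (Set.notMem_empty _)

/-- hygiene. -/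
theorem core_ap_atmA_hygiene : True := by
  have := @DomN.eq_1
  trivial

theorem lam2_pos (q : ℝ) (ht : t < 0) : 0 < lam2 q t := by
  unfold lam2
  exact Real.rpow_pos_of_pos (by linarith) _

theorem sm_Lam_rpow (s : ℝ) : Sm (fun p => (-p.1) ^ s) := by
  apply sm_of_t (φ := fun t => (-t) ^ s)
  intro t ht
  have ht' : t < 0 := ht
  have h1 : ContDiffAt ℝ ∞ (fun t : ℝ => -t) t := contDiffAt_id.neg
  exact (h1.rpow_const_of_ne (by linarith : -t ≠ 0)).contDiffWithinAt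

theorem sm_XiF (q : ℝ) : Sm (XiF q) := by
  unfold XiF lam2
  exact Sm.div sm_Xf (sm_Lam_rpow _) (fun t ht y => (Real.rpow_pos_of_pos (by linarith : 0 < -t) _).ne')

theorem sm_cmp (q : ℝ) (hF : ContDiff ℝ ∞ F) : Sm (fun p => F (XiF q p)) := by
  exact Sm.comp hF (sm_XiF q)

theorem sm_atm (q s : ℝ) (hF : ContDiff ℝ ∞ F) : Sm (atm q s F) := by
  unfold atm
  exact (sm_Lam_rpow (-s)).mul (sm_cmp q hF)

theorem atm_zero (q : ℝ) (F : ℝ → ℝ) (ht : t < 0) (y : ℝ) : atm q 0 F (t, y) = F (XiF q (t, y)) := by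
  simp [atm]

theorem dY_atm (q s : ℝ) (hF : ContDiff ℝ ∞ F) (ht : t < 0) (y : ℝ) :
    dY (atm q s F) (t, y) = -2 * y * atm q (s + 2 * gaF q) (deriv F) (t, y) := by
  apply dY_of_hasDerivAt
  have hl : 0 < -t := by linarith
  have hF1 : HasDerivAt F (deriv F (XiF q (t, y))) (XiF q (t, y)) :=
    ((hF.differentiable (by simp)) _).hasDerivAt
  have hX : HasDerivAt (fun z => XiF q (t, z)) (-2 * y / lam2 q t) y := by
    unfold XiF
    exact (hasDerivAt_Xf y).div_const (lam2 q t)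
  have h1 := (hF1.comp y hX).const_mul ((-t) ^ (-s))
  refine h1.congr_deriv ?_
  unfold atm
  have e1 : (-t) ^ (-(s + 2 * gaF q)) = (-t) ^ (-s) / lam2 q t := by
    unfold lam2
    rw [neg_add, Real.rpow_add hl, Real.rpow_neg hl.le (2 * gaF q)]
    rfl
  simp only []
  rw [e1]
  ring

theorem dT_atm (q s : ℝ) (hF : ContDiff ℝ ∞ F) (ht : t < 0) (y : ℝ) :
    dT (atm q s F) (t, y) = atm q (s + 1) (fun Ξ => s * F Ξ + gaF q * th F Ξ) (t, y) := by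
  apply dT_of_hasDerivAt
  have hl : 0 < -t := by linarith
  have hF1 : HasDerivAt F (deriv F (XiF q (t, y))) (XiF q (t, y)) :=
    ((hF.differentiable (by simp)) _).hasDerivAt
  have hpow : ∀ a : ℝ, HasDerivAt (fun r : ℝ => (-r) ^ a) (-(a * (-t) ^ (a - 1))) t := by
    intro a
    have h0 : HasDerivAt (fun r : ℝ => -r) (-1) t := (hasDerivAt_id t).neg
    have h1 := h0.rpow_const (p := a) (Or.inl hl.ne')
    refine h1.congr_deriv ?_
    ring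
  have hX : HasDerivAt (fun r => XiF q (r, y)) (Xf y * (2 * gaF q * (-t) ^ (-(2 * gaF q) - 1))) t := by
    have h2 := (hpow (-(2 * gaF q))).const_mul (Xf y)
    have e : (fun r => XiF q (r, y)) =ᶠ[𝓝 t] fun r => Xf y * (-r) ^ (-(2 * gaF q)) := by
      filter_upwards [Iio_mem_nhds ht] with r hr
      have hr' : 0 ≤ -r := by
        have : r < 0 := hr
        linarith
      unfold XiF lam2
      rw [Real.rpow_neg hr']
      rfl
    refine (h2.congr_of_eventuallyEq e).congr_deriv ?_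
    ring
  have h1 := (hpow (-s)).mul (hF1.comp t hX)
  refine h1.congr_deriv ?_
  unfold atm th
  have e1 : (-t) ^ (-s - 1) = (-t) ^ (-(s + 1)) := by congr 1; ring
  have e2 : (-t) ^ (-(2 * gaF q) - 1) = (-t) ^ (-(2 * gaF q)) * (-t) ^ (-1 : ℝ) := by
    rw [sub_eq_add_neg, Real.rpow_add hl]
  have e3 : (-t) ^ (-(s + 1)) = (-t) ^ (-s) * (-t) ^ (-1 : ℝ) := by
    rw [neg_add, Real.rpow_add hl]
  have e4 : XiF q (t, y) = Xf y * (-t) ^ (-(2 * gaF q)) := by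
    unfold XiF lam2
    rw [Real.rpow_neg hl.le]
    rfl
  simp only [Function.comp_apply]
  rw [e1, e2, e3]
  generalize deriv F (XiF q (t, y)) = dF
  generalize F (XiF q (t, y)) = F0
  rw [e4]
  ring

theorem XiF_nonneg (q : ℝ) (hD : DomOK D) (hp : p ∈ D) : 0 ≤ XiF q p := by
  obtain ⟨h1, h2, h3, h4⟩ := hD p hp
  unfold XiF
  apply div_nonneg
  · unfold Xf
    nlinarith
  · exact (lam2_pos q h2).le

theorem one_add_XiF (q : ℝ) (ht : t < 0) (y : ℝ) :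
    1 + XiF q (t, y) = (lam2 q t + Xf y) / lam2 q t := by
  have h := (lam2_pos q ht).ne'
  unfold XiF
  field_simp

/-- corrected form of `rh2_le_lamX` (which is false for `y < -1/2`, e.g. at `y = -1`): extra hypothesis `-1/2 ≤ y`. -/
theorem ap_rh2_le_lamX (hq : 100 ≤ q) (hD : DomOK D) (hp : p ∈ D) (hy : -1 / 2 ≤ p.2) :
    rh2 q p.1 p.2 ≤ ((q - 1) / 100 + 4 / 3) * (lam2 q p.1 + Xf p.2) := by
  obtain ⟨h1, h2, h3, h4⟩ := hD p hp
  have hl := lam2_pos q h2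
  have hX0 : 0 ≤ Xf p.2 := by
    unfold Xf
    nlinarith
  have hXt : Xt p.2 ≤ 4 / 3 * Xf p.2 := by
    rcases le_total (1 / 2) p.2 with h | h
    · rw [Xt_eq h]
      linarith
    · have h5 := (Xt_mem h h3).2
      have h6 : 3 / 4 ≤ Xf p.2 := by
        unfold Xf
        nlinarith
      linarith
  have hc : 0 ≤ (q - 1) / 100 := by linarith
  unfold rh2 ell2
  nlinarith [mul_nonneg hc hX0]

theorem rh2_le_lamX (hq : 100 ≤ q) (hD : DomOK D) (hN : DomN D) (hp : p ∈ D) :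
    rh2 q p.1 p.2 ≤ ((q - 1) / 100 + 4 / 3) * (lam2 q p.1 + Xf p.2) :=
  ap_rh2_le_lamX hq hD hp (hN p hp)

theorem atm_mul_Lam (q s : ℝ) (k : ℕ) (F : ℝ → ℝ) (ht : t < 0) (y : ℝ) :
    (-t) ^ k * atm q (s + k) F (t, y) = atm q s F (t, y) := by
  have hl : 0 < -t := by linarith
  unfold atm
  simp only []
  rw [← mul_assoc, ← Real.rpow_natCast, ← Real.rpow_add hl]
  congr 2
  ring

theorem atm_add (q s : ℝ) (F G : ℝ → ℝ) (p : ℝ × ℝ) :
    atm q s (fun Ξ => F Ξ + G Ξ) p = atm q s F p + atm q s G p := by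
  unfold atm
  ring

theorem atm_const_mul (q s c : ℝ) (F : ℝ → ℝ) (p : ℝ × ℝ) :
    atm q s (fun Ξ => c * F Ξ) p = c * atm q s F p := by
  unfold atm
  ring

end

end Claimed.Agent.R324.Core
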