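/-
Row 324 (S0582), PDE core, module AP (architect helper263), file AtmB: the weight inequality of the atoms.
     Λ = -t ∈ (0,1],  γ = gaF q = 8/α,  α = alF q = bAl q ∈ (2,3) (`bAl_bounds`),  λ² = lam2 q t = Λ^(2γ),  Ξ = X/λ² ≥ 0,  R = rh2,  Θ = Th ≥ Λ.
     sb q a e Ξ = ((1+Ξ)^(-α/2))^a/(1+Ξ)^e,         wt q a b c = (R^(-α/2))^a Θ^b R^c   (Cal/WtA.lean).

* `sb_nonneg`: positivity.
* `sb_XiF`:   1+Ξ = (λ²+X)/λ² (`one_add_XiF`);    (1+Ξ)^(-α/2) = (λ²+X)^(-α/2) (λ²)^(α/2) (`Real.div_rpow`, `Real.rpow_neg`),   (λ²)^(α/2) = Λ^(2γ α/2) = Λ^8 (`Real.rpow_mul`, γ α = 8, `Real.rpow_natCast`);    1/(1+Ξ)^e = (λ²)^e/(λ²+X)^e.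
* `atm_wt_le`:  LHS = Λ^(-(2γe+k)) (Λ^8)^a ((λ²+X)^(-α/2))^a (Λ^(2γ))^e/(λ²+X)^e = Λ^(8a-k) ((λ²+X)^(-α/2))^a/(λ²+X)^e      (all powers of Λ: `Real.rpow_add`, `Real.rpow_natCast`, `Real.rpow_mul`; 8a - k ≥ 0 is a natural number N: 8a = N + k);
      R ≤ K₀ (λ²+X) (`rh2_le_lamX`)  ⟹  (λ²+X)^(-α/2) ≤ K₀^(α/2) R^(-α/2)  (`Real.rpow_le_rpow_of_nonpos`/`Real.rpow_le_rpow_of_exponent_nonpos`, `Real.mul_rpow`, `Real.div_rpow`),   1/(λ²+X)^e ≤ K₀^e/R^e;      Λ^N ≤ Θ^N (Θ = Λ + X̃ ≥ Λ).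
      wt q a (8a-k) (-e) = (R^(-α/2))^a Θ^N /R^e  (`zpow_natCast`, `zpow_neg`; (8*a - k : ℤ) = N).        C = (K₀^(α/2))^a K₀^e.
* `lamX_inv_le`: the case used for ∂_y:   Λ^(-2γ)/(1+Ξ) = 1/(λ²+X) ≤ K₀/R.
-/
import Claimed.Agent.R324.Core.AP.AtmA
import Claimed.Agent.R324.Core.AP.Cal.Wt

set_option autoImplicit false

namespace Claimed.Agent.R324.Core

open Set Filter Topology
open scoped ContDiff

noncomputable section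

variable {q : ℝ} {D : Set (ℝ × ℝ)} {p : ℝ × ℝ}

theorem sb_nonneg (q : ℝ) (a e : ℕ) {Ξ : ℝ} (h : 0 ≤ Ξ) : 0 ≤ sb q a e Ξ := by
  unfold sb
  have h1 : 0 ≤ 1 + Ξ := by linarith
  have h2 : 0 ≤ (1 + Ξ) ^ (-(alF q) / 2) := Real.rpow_nonneg h1 _
  positivity

theorem sb_XiF (hq : 100 ≤ q) (a e : ℕ) (hD : DomOK D) (hp : p ∈ D) :
    sb q a e (XiF q p) = ((-p.1) ^ 8 * (lam2 q p.1 + Xf p.2) ^ (-(alF q) / 2)) ^ a
      * ((lam2 q p.1) ^ e / (lam2 q p.1 + Xf p.2) ^ e) := by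
  obtain ⟨h1, h2, h3, h4⟩ := hD p hp
  have hα := bAl_bounds hq
  have hα0 : bAl q ≠ 0 := by linarith [hα.1]
  have hl := lam2_pos q h2
  have hΛ : 0 < -p.1 := by linarith
  have hX0 : 0 ≤ Xf p.2 := by
    unfold Xf
    nlinarith
  have hY : 0 < lam2 q p.1 + Xf p.2 := by linarith
  have e1 : 1 + XiF q p = (lam2 q p.1 + Xf p.2) / lam2 q p.1 := one_add_XiF q h2 p.2
  have e2 : (lam2 q p.1) ^ (-(alF q) / 2) = ((-p.1) ^ 8)⁻¹ := by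
    unfold lam2 alF gaF
    rw [← Real.rpow_mul hΛ.le, ← Real.rpow_natCast (-p.1) 8, ← Real.rpow_neg hΛ.le]
    congr 1
    field_simp
    norm_num
  unfold sb
  rw [e1, Real.div_rpow hY.le hl.le, e2, div_inv_eq_mul, mul_comm ((-p.1) ^ 8), div_pow,
    div_div_eq_mul_div, mul_div_assoc]

/-- corrected form of `lamX_inv_le` (false near `y = -1`): extra hypothesis `-1/2 ≤ y`. -/
theorem ap_lamX_inv_le (hq : 100 ≤ q) (hD : DomOK D) (hp : p ∈ D) (hy : -1 / 2 ≤ p.2) :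
    (-p.1) ^ (-(2 * gaF q)) / (1 + XiF q p) ≤ ((q - 1) / 100 + 4 / 3) / rh2 q p.1 p.2 := by
  obtain ⟨h1, h2, h3, h4⟩ := hD p hp
  have hl := lam2_pos q h2
  have hΛ : 0 < -p.1 := by linarith
  have hX0 : 0 ≤ Xf p.2 := by
    unfold Xf
    nlinarith
  have hY : 0 < lam2 q p.1 + Xf p.2 := by linarith
  have hR := rh2_pos_dom (by linarith : (1 : ℝ) < q) hD hp
  have hle := ap_rh2_le_lamX hq hD hp hy
  have e1 : 1 + XiF q p = (lam2 q p.1 + Xf p.2) / lam2 q p.1 := one_add_XiF q h2 p.2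
  have e2 : (-p.1) ^ (-(2 * gaF q)) = (lam2 q p.1)⁻¹ := by
    unfold lam2
    rw [Real.rpow_neg hΛ.le]
  rw [e1, e2]
  have e3 : (lam2 q p.1)⁻¹ / ((lam2 q p.1 + Xf p.2) / lam2 q p.1) = 1 / (lam2 q p.1 + Xf p.2) := by
    field_simp
  rw [e3, div_le_div_iff₀ hY hR]
  linarith

theorem lamX_inv_le (hq : 100 ≤ q) (hD : DomOK D) (hN : DomN D) (hp : p ∈ D) :
    (-p.1) ^ (-(2 * gaF q)) / (1 + XiF q p) ≤ ((q - 1) / 100 + 4 / 3) / rh2 q p.1 p.2 :=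
  ap_lamX_inv_le hq hD hp (hN p hp)

/-- corrected form of `atm_wt_le` (false near `y = -1`): only points with `-1/2 ≤ y`. -/
theorem ap_atm_wt_le (hq : 100 ≤ q) (a e k : ℕ) (hk : k ≤ 8 * a) :
    ∃ C : ℝ, 0 ≤ C ∧ ∀ D : Set (ℝ × ℝ), DomOK D → ∀ p ∈ D, -1 / 2 ≤ p.2 →
      (-p.1) ^ (-(2 * gaF q * e + k)) * sb q a e (XiF q p) ≤ C * wt q a (8 * a - k) (-e) p := by
  have hα := bAl_bounds hq
  have hK0 : 0 < (q - 1) / 100 + 4 / 3 := by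
    have : 0 ≤ q - 1 := by linarith
    positivity
  set K0 : ℝ := (q - 1) / 100 + 4 / 3 with hK0def
  have hC1 : 0 < K0 ^ (-(alF q) / 2) := Real.rpow_pos_of_pos hK0 _
  obtain ⟨N, hN⟩ := Nat.exists_eq_add_of_le hk
  refine ⟨((K0 ^ (-(alF q) / 2))⁻¹) ^ a * K0 ^ e, by positivity, fun D hD p hp hy => ?_⟩
  obtain ⟨h1, h2, h3, h4⟩ := hD p hp
  have hl := lam2_pos q h2
  have hΛ : 0 < -p.1 := by linarith
  have hX0 : 0 ≤ Xf p.2 := by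
    unfold Xf
    nlinarith
  have hY : 0 < lam2 q p.1 + Xf p.2 := by linarith
  have hR := rh2_pos_dom (by linarith : (1 : ℝ) < q) hD hp
  have hΘ := Th_pos_dom hD hp
  have hle := ap_rh2_le_lamX hq hD hp hy
  have hXt := (Xt_nonneg h3 h4).1
  have hΛΘ : -p.1 ≤ Th p.1 p.2 := by
    unfold Th
    linarith
  rw [sb_XiF hq a e hD hp]
  set Y := lam2 q p.1 + Xf p.2 with hYdef
  set Λ := -p.1 with hΛdef
  set R := rh2 q p.1 p.2 with hRdef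
  set Θ := Th p.1 p.2 with hΘdef
  -- powers of Λ
  have e1 : Λ ^ (-(2 * gaF q * e + k)) * (lam2 q p.1) ^ e = (Λ ^ k)⁻¹ := by
    have : (lam2 q p.1) ^ e = Λ ^ (2 * gaF q * e) := by
      unfold lam2
      rw [← Real.rpow_natCast, ← Real.rpow_mul hΛ.le]
    rw [this, ← Real.rpow_add hΛ, ← Real.rpow_natCast Λ k, ← Real.rpow_neg hΛ.le]
    congr 1
    ring
  have e2 : (Λ ^ 8) ^ a = Λ ^ N * Λ ^ k := by
    rw [← pow_mul, hN, pow_add, mul_comm]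
  have hLHS : Λ ^ (-(2 * gaF q * e + k)) * ((Λ ^ 8 * Y ^ (-(alF q) / 2)) ^ a * ((lam2 q p.1) ^ e / Y ^ e))
      = Λ ^ N * (Y ^ (-(alF q) / 2)) ^ a * (1 / Y ^ e) := by
    have hk0 : Λ ^ k ≠ 0 := (pow_pos hΛ k).ne'
    calc Λ ^ (-(2 * gaF q * e + k)) * ((Λ ^ 8 * Y ^ (-(alF q) / 2)) ^ a * ((lam2 q p.1) ^ e / Y ^ e))
        = (Λ ^ (-(2 * gaF q * e + k)) * (lam2 q p.1) ^ e) * (Λ ^ 8) ^ a * (Y ^ (-(alF q) / 2)) ^ a * (1 / Y ^ e) := by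
          rw [mul_pow]; ring
      _ = Λ ^ N * (Y ^ (-(alF q) / 2)) ^ a * (1 / Y ^ e) := by
          rw [e1, e2]
          field_simp
  rw [hLHS]
  have hwt : wt q a (8 * a - k) (-e) p = (R ^ (-(alF q) / 2)) ^ a * Θ ^ N * (1 / R ^ e) := by
    have hb : (8 * (a : ℤ) - (k : ℤ)) = (N : ℤ) := by
      have : (8 * a : ℤ) = ((k + N : ℕ) : ℤ) := by exact_mod_cast hN
      push_cast at this
      omega
    unfold wt
    rw [hb, zpow_natCast, zpow_neg, zpow_natCast, one_div]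
  rw [hwt]
  have hexp : -(alF q) / 2 ≤ 0 := by
    unfold alF
    linarith [hα.1]
  have b1 : Y ^ (-(alF q) / 2) ≤ (K0 ^ (-(alF q) / 2))⁻¹ * R ^ (-(alF q) / 2) := by
    have h5 : R / K0 ≤ Y := by
      rw [div_le_iff₀ hK0, mul_comm]
      exact hle
    have h6 := Real.rpow_le_rpow_of_nonpos (div_pos hR hK0) h5 hexp
    rw [Real.div_rpow hR.le hK0.le] at h6
    calc Y ^ (-(alF q) / 2) ≤ R ^ (-(alF q) / 2) / K0 ^ (-(alF q) / 2) := h6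
      _ = (K0 ^ (-(alF q) / 2))⁻¹ * R ^ (-(alF q) / 2) := by
          rw [div_eq_mul_inv, mul_comm]
  have hS0 : 0 ≤ Y ^ (-(alF q) / 2) := Real.rpow_nonneg hY.le _
  have hW0 : 0 < R ^ (-(alF q) / 2) := Real.rpow_pos_of_pos hR _
  have b1' : (Y ^ (-(alF q) / 2)) ^ a ≤ ((K0 ^ (-(alF q) / 2))⁻¹) ^ a * (R ^ (-(alF q) / 2)) ^ a := by
    rw [← mul_pow]
    exact pow_le_pow_left₀ hS0 b1 a
  have b2 : 1 / Y ^ e ≤ K0 ^ e * (1 / R ^ e) := by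
    rw [mul_one_div, div_le_div_iff₀ (pow_pos hY e) (pow_pos hR e), one_mul, ← mul_pow]
    exact pow_le_pow_left₀ hR.le hle e
  have b3 : Λ ^ N ≤ Θ ^ N := pow_le_pow_left₀ hΛ.le hΛΘ N
  calc Λ ^ N * (Y ^ (-(alF q) / 2)) ^ a * (1 / Y ^ e)
      ≤ Θ ^ N * (((K0 ^ (-(alF q) / 2))⁻¹) ^ a * (R ^ (-(alF q) / 2)) ^ a) * (K0 ^ e * (1 / R ^ e)) := by
        apply mul_le_mul (mul_le_mul b3 b1' (by positivity) (by positivity)) b2 (by positivity) (by positivity)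
    _ = ((K0 ^ (-(alF q) / 2))⁻¹) ^ a * K0 ^ e * ((R ^ (-(alF q) / 2)) ^ a * Θ ^ N * (1 / R ^ e)) := by ring

theorem atm_wt_le (hq : 100 ≤ q) (a e k : ℕ) (hk : k ≤ 8 * a) :
    ∃ C : ℝ, 0 ≤ C ∧ ∀ D : Set (ℝ × ℝ), DomOK D → DomN D → ∀ p ∈ D,
      (-p.1) ^ (-(2 * gaF q * e + k)) * sb q a e (XiF q p) ≤ C * wt q a (8 * a - k) (-e) p := by
  obtain ⟨C, hC, h⟩ := ap_atm_wt_le hq a e k hk
  exact ⟨C, hC, fun D hD hN p hp => h D hD p hp (hN p hp)⟩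

end

end Claimed.Agent.R324.Core
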