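/-
Row 324 (S0582), PDE core, module AP (architect helper263), file AtmC (atm_TY0): SYMBOL BOUNDS OF THE ATOMS  atm q s F = Λ^(-s) F(Ξ).
     IsSymb β F (Bohm/Symb.lean):  F smooth on ℝ, |F^(j)(Ξ)| ≤ C_j β(Ξ)/(1+Ξ)^j for Ξ ≥ 0;   algebra in Bohm/SymbA.lean (`IsSymb.add, const_mul, apply_deriv, apply_th, mono`).
     Classes TY, TS: Cal/Cls*.lean;  algebra Cal/Alg*.lean;  `TY.yfun` (Cal/CompC);  weights `wt` (Cal/Wt*.lean).

* `atm_TY0`  (y-derivatives only):  induction on n GENERALISING s, F, β.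
      n = 0 (`TY_zero_zero_iff`):  |Λ^(-s) F(Ξ)| ≤ Λ^(-s) C₀ β(Ξ)   (IsSymb at j = 0: iteratedDeriv 0 F = F, (1+Ξ)^0 = 1;  Ξ ≥ 0 by `XiF_nonneg`;  replace C₀ by |C₀| or max C₀ 0, β ≥ 0).
      n+1 (`TY_zero_succ_iff`):  dY (atm s F) = (-2y) * atm (s+2γ) F' on t < 0 (`dY_atm`; `TY.congr`);   F' = deriv F ∈ IsSymb (β/(1+Ξ)) (`IsSymb.apply_deriv`), so by the induction hypothesis atm (s+2γ) F' ∈ TY 0 n (Λ^(-(s+2γ)) β(Ξ)/(1+Ξ));
            -2y ∈ TY 0 n 1 (`TY.yfun` with φ y = -2y);   `TY.mul`;   weight:  1 * Λ^(-(s+2γ)) β/(1+Ξ) = Λ^(-s) β * (Λ^(-2γ)/(1+Ξ)) ≤ K₀ (Λ^(-s) β)/R  (`lamX_inv_le`, `Real.rpow_add`, β ≥ 0): `TY.mono_wt`.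
* `atm_TS`:  induction on m GENERALISING k, F.     s = 2γe + k.
      m = 0:  `atm_TY0` with β = sb q a e, then `TY.mono_wt` with `atm_wt_le` (k ≤ 8a).
      m+1 (`TY_succ_iff`):  first part as for m = 0;    dT (atm s F) = atm (s+1) G on t < 0, G = s F + γ th F (`dT_atm`) ∈ IsSymb (sb q a e) (`IsSymb.add`, `const_mul`, `apply_th`; sb ≥ 0: `sb_nonneg`);   s + 1 = 2γe + (k+1) (push_cast; ring);
            induction hypothesis with k+1 ((k+1) + m ≤ 8a):   TS m n (wt a (8a-(k+1)) (-e));     (wt a (8a-k) (-e))/Θ = wt a (8a-k-1) (-e) on D (`wt_div_Th`): `TY.congr_wt`.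
* `atm_TS_succ`  (one cancellation):   `TY_succ_iff`:  first part: `atm_TS` with m = 0;    dT (atm s F) = atm (s+1) G with G ∈ IsSymb (sb q (a+1) e) by hypothesis;   `atm_TS` for G with (a+1, e, k+1):  TS m n (wt (a+1) (8(a+1)-(k+1)) (-e));
            `TS.le_wt`:  wt (a+1) (8a+8-k-1) (-e) ≤ K wt a (8a-k-1) (-e)   (da = 1, db = 8, dc = 0);   then `wt_div_Th`.
-/
import Claimed.Agent.R324.Core.AP.AtmB

set_option autoImplicit false

namespace Claimed.Agent.R324.Core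

open Set Filter Topology
open scoped ContDiff

noncomputable section

variable {q : ℝ} {D : Set (ℝ × ℝ)} {F : ℝ → ℝ}

theorem atm_TY0 (hq : 100 ≤ q) (hD : DomOK D) (hN : DomN D) (n : ℕ) (s : ℝ) {β : ℝ → ℝ} (hF : IsSymb β F)
    (h0 : ∀ Ξ, 0 ≤ Ξ → 0 ≤ β Ξ) :
    TY q D 0 n (fun p => (-p.1) ^ (-s) * β (XiF q p)) (atm q s F) := by
  have hbd : ∀ (s : ℝ) (F β : ℝ → ℝ), IsSymb β F → (∀ Ξ, 0 ≤ Ξ → 0 ≤ β Ξ) →
      Bd D (fun p => (-p.1) ^ (-s) * β (XiF q p)) (atm q s F) := by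
    intro s F β hF h0
    obtain ⟨C, hC⟩ := hF.2 0
    refine ⟨|C|, abs_nonneg _, fun p hp => ?_⟩
    have hΞ := XiF_nonneg q hD hp
    have h1 := hC _ hΞ
    simp only [iteratedDeriv_zero, pow_zero, div_one] at h1
    have hL : 0 ≤ (-p.1) ^ (-s) := Real.rpow_nonneg (by have := (hD p hp).2.1; linarith) _
    show |(-p.1) ^ (-s) * F (XiF q p)| ≤ _
    rw [abs_mul, abs_of_nonneg hL]
    calc (-p.1) ^ (-s) * |F (XiF q p)| ≤ (-p.1) ^ (-s) * (|C| * β (XiF q p)) :=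
          mul_le_mul_of_nonneg_left
            (h1.trans (mul_le_mul_of_nonneg_right (le_abs_self C) (h0 _ hΞ))) hL
      _ = |C| * ((-p.1) ^ (-s) * β (XiF q p)) := by ring
  induction n generalizing s F β with
  | zero => exact TY_zero_zero_iff.2 (hbd s F β hF h0)
  | succ n ih =>
    refine TY_zero_succ_iff.2 ⟨hbd s F β hF h0, ?_⟩
    have hF' := hF.apply_deriv
    have h0' : ∀ Ξ, 0 ≤ Ξ → 0 ≤ β Ξ / (1 + Ξ) := fun Ξ h => div_nonneg (h0 Ξ h) (by linarith)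
    have i1 := ih (s + 2 * gaF q) hF' h0'
    have hφ : ContDiff ℝ ∞ (fun y : ℝ => -2 * y) := contDiff_const.mul contDiff_id
    have i2 : TY q D 0 n (fun _ => 1) (fun p => (fun y : ℝ => -2 * y) p.2) := TY.yfun hq hD hφ
    have i3 := TY.mul hD (sm_of_y hφ) (sm_atm q (s + 2 * gaF q) hF'.1) i2 i1
    refine TY.congr (g := fun p => (fun y : ℝ => -2 * y) p.2 * atm q (s + 2 * gaF q) (deriv F) p) hD
      (fun t ht y => dY_atm q s hF.1 ht y) ?_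
    refine TY.mono_wt (by linarith) hD (K := (q - 1) / 100 + 4 / 3) (by linarith)
      (fun p hp => ?_) i3
    have hl := lamX_inv_le hq hD hN hp
    have hΞ := XiF_nonneg q hD hp
    have hΛ : 0 < -p.1 := by have := (hD p hp).2.1; linarith
    have hL : 0 ≤ (-p.1) ^ (-s) := Real.rpow_nonneg hΛ.le _
    have e1 : (-p.1) ^ (-(s + 2 * gaF q)) = (-p.1) ^ (-s) * (-p.1) ^ (-(2 * gaF q)) := by
      rw [← Real.rpow_add hΛ]; congr 1; ring
    show 1 * ((-p.1) ^ (-(s + 2 * gaF q)) * (β (XiF q p) / (1 + XiF q p)))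
      ≤ ((q - 1) / 100 + 4 / 3) * ((-p.1) ^ (-s) * β (XiF q p) / rh2 q p.1 p.2)
    calc 1 * ((-p.1) ^ (-(s + 2 * gaF q)) * (β (XiF q p) / (1 + XiF q p)))
        = ((-p.1) ^ (-s) * β (XiF q p)) * ((-p.1) ^ (-(2 * gaF q)) / (1 + XiF q p)) := by
          rw [e1]; ring
      _ ≤ ((-p.1) ^ (-s) * β (XiF q p)) * (((q - 1) / 100 + 4 / 3) / rh2 q p.1 p.2) :=
          mul_le_mul_of_nonneg_left hl (mul_nonneg hL (h0 _ hΞ))
      _ = ((q - 1) / 100 + 4 / 3) * ((-p.1) ^ (-s) * β (XiF q p) / rh2 q p.1 p.2) := by ring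

end

end Claimed.Agent.R324.Core
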