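/-
Row 324 (S0582), PDE core, module AP (architect helper263), file AtmD (atm_TS, atm_TS_succ): SYMBOL BOUNDS OF THE ATOMS  atm q s F = Λ^(-s) F(Ξ).
     IsSymb β F (Bohm/Symb.lean):  F smooth on ℝ, |F^(j)(Ξ)| ≤ C_j β(Ξ)/(1+Ξ)^j for Ξ ≥ 0;   algebra in Bohm/SymbA.lean (`IsSymb.add, const_mul, apply_deriv, apply_th, mono`).
     Classes TY, TS: Cal/Cls*.lean;  algebra Cal/Alg*.lean;  `TY.yfun` (Cal/CompC);  weights `wt` (Cal/Wt*.lean).

* `atm_TY0`  (y-derivatives only):  induction on n GENERALISING s, F, β.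
      n = 0 (`TY_zero_zero_iff`):  |Λ^(-s) F(Ξ)| ≤ Λ^(-s) C₀ β(Ξ)   (IsSymb at j = 0: iteratedDeriv 0 F = F, (1+Ξ)^0 = 1;  Ξ ≥ 0 by `XiF_nonneg`;  replace C₀ by |C₀| or max C₀ 0, β ≥ 0).
      n+1 (`TY_zero_succ_iff`):  dY (atm s F) = (-2y) * atm (s+2γ) F' on t < 0 (`dY_atm`; `TY.congr`);   F' = deriv F ∈ IsSymb (β/(1+Ξ)) (`IsSymb.apply_deriv`), so by the induction hypothesis atm (s+2γ) F' ∈ TY 0 n (Λ^(-(s+2γ)) β(Ξ)/(1+Ξ));
            -2y ∈ TY 0 n 1 (`TY.yfun` with φ y = -2y);   `TY.mul`;   weight:  1 * Λ^(-(s+2γ)) β/(1+Ξ) = Λ^(-s) β * (Λ^(-2γ)/(1+Ξ)) ≤ K₀ (Λ^(-s) β)/R  (`lamX_inv_le`, `Real.rpow_add`, β ≥ 0): `TY.mono_wt`.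
* `atm_TS`:  induction on m GENERALISING k, F.     s = 2γe + k.
      m = 0:  `atm_TY0` with β = sb q a e, then `TY.mono_wt` with `atm_wt_le` (k ≤ 8a).
      m+1 (`TY_succ_iff`):  first part as for m = 0;    dT (atm s F) = atm (s+1) G on t < 0, G = s F + γ th F (`dT_atm`) ∈ IsSymb (sb q a e) (`IsSymb.add`, `const_mul`, `apply_th`; sb ≥ 0: `sb_nonneg`);   s + 1 = 2γe + (k+1) (push_cast; ring);
            induction hypothesis with k+1 ((k+1) + m ≤ 8a):   TS m n (wt a (8a-(k+1)) (-e));     (wt a (8a-k) (-e))/Θ = wt a (8a-k-1) (-e) on D (`wt_div_Th`): `TY.congr_wt`.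
* `atm_TS_succ`  (one cancellation):   `TY_succ_iff`:  first part: `atm_TS` with m = 0;    dT (atm s F) = atm (s+1) G with G ∈ IsSymb (sb q (a+1) e) by hypothesis;   `atm_TS` for G with (a+1, e, k+1):  TS m n (wt (a+1) (8(a+1)-(k+1)) (-e));
            `TS.le_wt`:  wt (a+1) (8a+8-k-1) (-e) ≤ K wt a (8a-k-1) (-e)   (da = 1, db = 8, dc = 0);   then `wt_div_Th`.
-/
import Claimed.Agent.R324.Core.AP.AtmC

set_option autoImplicit false

namespace Claimed.Agent.R324.Core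

open Set Filter Topology
open scoped ContDiff

noncomputable section

variable {q : ℝ} {D : Set (ℝ × ℝ)} {F : ℝ → ℝ}

theorem ap_atm_TY_base (hq : 100 ≤ q) (hD : DomOK D) (hN : DomN D) (n : ℕ) {a e k : ℕ}
    (hF : IsSymb (sb q a e) F) (hk : k ≤ 8 * a) :
    TY q D 0 n (wt q a (8 * a - k) (-e)) (atm q (2 * gaF q * e + k) F) := by
  obtain ⟨C, hC, hle⟩ := atm_wt_le hq a e k hk
  exact TY.mono_wt (by linarith) hD hC (hle D hD hN)
    (atm_TY0 hq hD hN n (2 * gaF q * e + k) hF (fun Ξ h => sb_nonneg q a e h))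

theorem atm_TS (hq : 100 ≤ q) (hD : DomOK D) (hN : DomN D) (m n : ℕ) {a e k : ℕ} (hF : IsSymb (sb q a e) F)
    (hk : k + m ≤ 8 * a) :
    TS q D m n (wt q a (8 * a - k) (-e)) (atm q (2 * gaF q * e + k) F) := by
  refine ⟨sm_atm q _ hF.1, ?_⟩
  induction m generalizing k F with
  | zero => exact ap_atm_TY_base hq hD hN n hF (by omega)
  | succ m ih =>
    rw [TY_succ_iff]
    refine ⟨ap_atm_TY_base hq hD hN n hF (by omega), ?_⟩
    have hG : IsSymb (sb q a e) (fun Ξ => (2 * gaF q * e + k) * F Ξ + gaF q * th F Ξ) :=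
      (hF.const_mul _).add ((hF.apply_th (fun Ξ h => sb_nonneg q a e h)).const_mul _)
    have h1 := ih (k := k + 1) hG (by omega)
    have hs : (2 * gaF q * e + ((k + 1 : ℕ) : ℝ)) = 2 * gaF q * e + k + 1 := by
      push_cast; ring
    rw [hs] at h1
    refine TY.congr hD (fun t ht y => dT_atm q _ hF.1 ht y) ?_
    refine TY.congr_wt (fun p hp => ?_) h1
    rw [wt_div_Th hq hD hp]
    congr 1
    push_cast; ring

theorem atm_TS_succ (hq : 100 ≤ q) (hD : DomOK D) (hN : DomN D) (m n : ℕ) {a e k : ℕ} (hF : IsSymb (sb q a e) F)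
    (hG : IsSymb (sb q (a + 1) e) (fun Ξ => (2 * gaF q * e + k) * F Ξ + gaF q * th F Ξ))
    (hk : k ≤ 8 * a) (hm : k + 1 + m ≤ 8 * (a + 1)) :
    TS q D (m + 1) n (wt q a (8 * a - k) (-e)) (atm q (2 * gaF q * e + k) F) := by
  refine ⟨sm_atm q _ hF.1, ?_⟩
  rw [TY_succ_iff]
  refine ⟨ap_atm_TY_base hq hD hN n hF hk, ?_⟩
  have h1 := atm_TS hq hD hN m n (k := k + 1) hG hm
  have hs : (2 * gaF q * e + ((k + 1 : ℕ) : ℝ)) = 2 * gaF q * e + k + 1 := by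
    push_cast; ring
  rw [hs] at h1
  have h2 : TS q D m n (wt q a (8 * a - k - 1) (-e))
      (atm q (2 * gaF q * e + k + 1) (fun Ξ => (2 * gaF q * e + k) * F Ξ + gaF q * th F Ξ)) :=
    TS.le_wt hq hD (Nat.le_succ a) le_rfl (by push_cast; ring_nf; exact le_rfl) h1
  refine TY.congr hD (fun t ht y => dT_atm q _ hF.1 ht y) ?_
  refine TY.congr_wt (fun p hp => ?_) h2.bd
  rw [wt_div_Th hq hD hp]

end

end Claimed.Agent.R324.Core
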