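/-
Row 324 (S0582), PDE core, module AP (architect helper263), file TipA: from the symbol bounds of Bohm's profile (module B) to the profile weights `sb q a e`.
     BP q w z :  q ≥ 100,  IsBohm q w z,  z > 0 on ℝ     (`bohm_exists_pos`).            J = bJ w,   sb q a e Ξ = ((1+Ξ)^(-α/2))^a/(1+Ξ)^e,  α = alF q = bAl q.

* `BP.sb_of`:  `IsBohm.sharp`:  J ≤ C (1+Ξ)^(-α/2) on Ξ ≥ 0 (C may be replaced by max C 0; J > 0 by `J_bounds`), so J^a/(1+Ξ)^e ≤ C^a sb q a e (`pow_le_pow_left₀`, `mul_pow`, `div_le_div_of_nonneg_right`);   β ≤ K J^a/(1+Ξ)^e ≤ K C^a sb;   `IsSymb.mono` (Bohm/Symb.lean).      alF q = bAl q by definition (`alF`), exponent -(alF q)/2 = -bAl q/2.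
* `sb00 … sb21`: instances of `sb_of` with K = 1 (simp: J^0 = 1, (1+Ξ)^0 = 1, x/1 = x, pow_one).
-/
import Claimed.Agent.R324.Core.AP.AtmD

set_option autoImplicit false

namespace Claimed.Agent.R324.Core

open Set Filter Topology
open scoped ContDiff

noncomputable section

/-- the standing assumptions on the profile. -/
structure BP (q : ℕ) (w z : ℝ → ℝ) : Prop where
  hq : 100 ≤ q
  bohm : IsBohm q w z
  pos : ∀ Ξ, 0 < z Ξ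

variable {q : ℕ} {w z F : ℝ → ℝ}

theorem BP.hqR (h : BP q w z) : (100 : ℝ) ≤ (q : ℝ) := by exact_mod_cast h.hq

theorem BP.sb_of (h : BP q w z) (a e : ℕ) {β : ℝ → ℝ} (h0 : ∀ Ξ, 0 ≤ Ξ → 0 ≤ β Ξ) {K : ℝ} (hK0 : 0 ≤ K)
    (hK : ∀ Ξ, 0 ≤ Ξ → β Ξ ≤ K * (bJ w Ξ ^ a / (1 + Ξ) ^ e)) (hF : IsSymb β F) : IsSymb (sb q a e) F := by
  obtain ⟨c, C, -, hC⟩ := h.bohm.sharp h.hq
  refine hF.mono h0 (K := K * C ^ a) fun Ξ hΞ => ?_
  have hJ := (h.bohm.J_bounds h.hq Ξ hΞ).1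
  have h1 : bJ w Ξ ≤ C * (1 + Ξ) ^ (-bAl q / 2) := (hC Ξ hΞ).2
  have h2 : bJ w Ξ ^ a ≤ (C * (1 + Ξ) ^ (-bAl q / 2)) ^ a := pow_le_pow_left₀ hJ.le h1 a
  have h3 : (0 : ℝ) ≤ (1 + Ξ) ^ e := pow_nonneg (by linarith) e
  have h4 : bJ w Ξ ^ a / (1 + Ξ) ^ e ≤ (C * (1 + Ξ) ^ (-bAl q / 2)) ^ a / (1 + Ξ) ^ e :=
    div_le_div_of_nonneg_right h2 h3
  calc β Ξ ≤ K * (bJ w Ξ ^ a / (1 + Ξ) ^ e) := hK Ξ hΞ
    _ ≤ K * ((C * (1 + Ξ) ^ (-bAl q / 2)) ^ a / (1 + Ξ) ^ e) := mul_le_mul_of_nonneg_left h4 hK0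
    _ = K * C ^ a * sb q a e Ξ := by
        unfold sb alF
        rw [mul_pow]
        ring

theorem BP.sb00 (h : BP q w z) (hF : IsSymb (fun _ => 1) F) : IsSymb (sb q 0 0) F :=
  h.sb_of 0 0 (fun _ _ => zero_le_one) zero_le_one (fun Ξ _ => by simp) hF

theorem BP.sb01 (h : BP q w z) (hF : IsSymb (fun x => 1 / (1 + x)) F) : IsSymb (sb q 0 1) F :=
  h.sb_of 0 1 (fun Ξ hΞ => by positivity) zero_le_one (fun Ξ _ => by simp) hF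

theorem BP.sb10 (h : BP q w z) (hF : IsSymb (bJ w) F) : IsSymb (sb q 1 0) F :=
  h.sb_of 1 0 (fun Ξ hΞ => (h.bohm.J_bounds h.hq Ξ hΞ).1.le) zero_le_one (fun Ξ _ => by simp) hF

theorem BP.sb11 (h : BP q w z) (hF : IsSymb (fun x => bJ w x / (1 + x)) F) : IsSymb (sb q 1 1) F :=
  h.sb_of 1 1 (fun Ξ hΞ => div_nonneg (h.bohm.J_bounds h.hq Ξ hΞ).1.le (by linarith)) zero_le_one
    (fun Ξ _ => by simp) hF

theorem BP.sb20 (h : BP q w z) (hF : IsSymb (fun x => bJ w x ^ 2) F) : IsSymb (sb q 2 0) F :=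
  h.sb_of 2 0 (fun Ξ _ => sq_nonneg _) zero_le_one (fun Ξ _ => by simp) hF

theorem BP.sb21 (h : BP q w z) (hF : IsSymb (fun x => bJ w x ^ 2 / (1 + x)) F) : IsSymb (sb q 2 1) F :=
  h.sb_of 2 1 (fun Ξ hΞ => div_nonneg (sq_nonneg _) (by linarith)) zero_le_one
    (fun Ξ _ => by simp) hF

end

end Claimed.Agent.R324.Core
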