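/-
Row 324 (S0582), PDE core, module AP (architect helper263), file TipB: PROFILE FACTS behind the structured atoms.      J = bJ w = 2 - th w,  J_a = bJa z = -th z/z,  l = bl z,  α = bAl q,  κ_z = bKz q,  z₀ = (q-1)/(q+1).
Everything is a statement `IsSymb β F` (Bohm/Symb.lean; algebra: Bohm/SymbA.lean `IsSymb.add, sub, mul, const_mul, apply_deriv, apply_th, mono`;   instances: Bohm/SymbCor1-3.lean, general: Bohm/SymbG.lean `symb_of_G1`).
IsSymb of pointwise equal functions / weights: rewrite with `funext` (the identities below hold on ALL of ℝ because w, z are smooth on ℝ and z > 0 on ℝ).     J ≥ 0 on Ξ ≥ 0: `IsBohm.J_bounds`.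

* `prof_invz1`:  1/z - 1/z₀ = G(P,Q) on Ξ ≥ 0, G p = 1/bz q p - (q+1)/(q-1), smooth on bU q (bz > 0 there), G(cone) = 0 (`bz_bC`): `symb_of_G1`;  global smoothness of 1/z from z > 0.
* `prof_Ja`:    J_a = (-1) * (th z * (1/z)):  `symb_thz` (weight J), `symb_invz` (weight 1), `IsSymb.mul`; weight J * 1 = J.
* `prof_Ja1`:   ε₁ := J_a - (κ_z/z₀) J = (-th z - κ_z J) * (1/z) + κ_z J * (1/z - 1/z₀):   `symb_Jz2` (J²) × `symb_invz` (1);   `symb_J` (J) × `prof_invz1` (J);   weights J² * 1 = J², J * J = J².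
* `prof_Ja2`:   th J_a + α J_a = (κ_z/z₀)(th J + α J) + th ε₁ + α ε₁:   `symb_thJ2`, `IsSymb.apply_th prof_Ja1`  (th is additive on smooth functions: unfold th, `deriv_add`, `deriv_const_mul`).
* `prof_l2`:    2 l + th l = 2 (log z)'  because log z = Ξ l (`bl_spec`, differentiate: (Ξ l)' = l + Ξ l');    (log z)' = deriv (log z - log z₀) ∈ IsSymb (J/(1+Ξ)):  `(symb_logz1).apply_deriv`.
* `prof_dw2`:   2 w' + th (w') = (th w)' = -J'  (th w = 2Ξ w');     J' ∈ IsSymb (J/(1+Ξ)):  `(symb_J).apply_deriv`.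
* `prof_ew2`:   2 e^{-w} + th (e^{-w}) = (2 - 2Ξ w') e^{-w} = J e^{-w}:   `symb_J` × `symb_expw`.
-/
import Claimed.Agent.R324.Core.AP.TipA

set_option autoImplicit false

namespace Claimed.Agent.R324.Core

open Set Filter Topology
open scoped ContDiff

noncomputable section

variable {q : ℕ} {w z : ℝ → ℝ}

/-- change of the weight / the function by pointwise equality. -/
theorem ap_isSymb_congr {β β' F F' : ℝ → ℝ} (hF : IsSymb β F) (hβ : ∀ x, β x = β' x) (hFF : ∀ x, F x = F' x) :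
    IsSymb β' F' := by
  have e1 : β = β' := funext hβ
  have e2 : F = F' := funext hFF
  rw [← e1, ← e2]
  exact hF

theorem BP.ap_J_nonneg (h : BP q w z) : ∀ Ξ, 0 ≤ Ξ → 0 ≤ bJ w Ξ :=
  fun Ξ hΞ => (h.bohm.J_bounds h.hq Ξ hΞ).1.le

theorem ap_th_add {f g : ℝ → ℝ} (hf : Differentiable ℝ f) (hg : Differentiable ℝ g) (x : ℝ) :
    th (fun x => f x + g x) x = th f x + th g x := by
  unfold th
  rw [deriv_fun_add (hf x) (hg x)]
  ring

theorem ap_th_const_mul {f : ℝ → ℝ} (c : ℝ) (hf : Differentiable ℝ f) (x : ℝ) :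
    th (fun x => c * f x) x = c * th f x := by
  unfold th
  rw [deriv_const_mul_field]
  ring

theorem BP.prof_invz1 (h : BP q w z) :
    IsSymb (bJ w) (fun x => 1 / z x - ((q : ℝ) + 1) / ((q : ℝ) - 1)) := by
  have hq1 : (1 : ℝ) < q := by
    have := h.hqR
    linarith
  refine h.bohm.symb_of_G1 h.hq (G := fun p => 1 / bz q p - ((q : ℝ) + 1) / ((q : ℝ) - 1)) ?_ ?_
    ((contDiff_const.div h.bohm.smz fun x => (h.pos x).ne').sub contDiff_const) (fun Ξ hΞ => ?_)
  · exact (contDiffOn_const.div (contDiffOn_bz q) fun p hp => (bz_pos_sc1 hp).ne').sub contDiffOn_const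
  · show 1 / bz q (bC q) - _ = 0
    rw [bz_bC hq1, one_div_div, sub_self]
  · show 1 / z Ξ - _ = 1 / bz q (bPQ w Ξ) - _
    rw [h.bohm.eqH Ξ hΞ]

theorem BP.prof_Ja (h : BP q w z) : IsSymb (bJ w) (bJa z) := by
  refine ap_isSymb_congr (((h.bohm.symb_thz h.hq).mul (h.bohm.symb_invz h.hq h.pos)).const_mul (-1))
    (fun x => mul_one _) (fun x => ?_)
  unfold bJa
  ring

theorem BP.prof_Ja1 (h : BP q w z) :
    IsSymb (fun x => bJ w x ^ 2) (fun x => bJa z x - bKz q / z0F q * bJ w x) := by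
  have hq1 : (1 : ℝ) < q := by
    have := h.hqR
    linarith
  have h1 := (h.bohm.symb_Jz2 h.hq).mul (h.bohm.symb_invz h.hq h.pos)
  have h2 := ((h.bohm.symb_J h.hq).mul h.prof_invz1).const_mul (bKz q)
  have h1' : IsSymb (fun x => bJ w x ^ 2) (fun x => (-th z x - bKz q * bJ w x) * (1 / z x)) :=
    ap_isSymb_congr h1 (fun x => mul_one _) (fun x => rfl)
  have h2' : IsSymb (fun x => bJ w x ^ 2)
      (fun x => bKz q * (bJ w x * (1 / z x - ((q : ℝ) + 1) / ((q : ℝ) - 1)))) :=
    ap_isSymb_congr h2 (fun x => (sq _).symm) (fun x => rfl)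
  refine ap_isSymb_congr (h1'.add h2') (fun x => rfl) (fun x => ?_)
  have hz := (h.pos x).ne'
  have ha : (q : ℝ) - 1 ≠ 0 := by linarith
  have hb : (q : ℝ) + 1 ≠ 0 := by linarith
  unfold bJa z0F
  field_simp
  ring

theorem BP.ap_contDiff_bJa (h : BP q w z) : ContDiff ℝ ∞ (bJa z) := h.prof_Ja.1

theorem BP.prof_Ja2 (h : BP q w z) :
    IsSymb (fun x => bJ w x ^ 2) (fun x => th (bJa z) x + bAl q * bJa z x) := by
  have h1 := (h.bohm.symb_thJ2 h.hq).const_mul (bKz q / z0F q)
  have h2 := h.prof_Ja1.apply_th (fun Ξ _ => sq_nonneg _)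
  have h3 := h.prof_Ja1.const_mul (bAl q)
  refine ap_isSymb_congr ((h1.add h2).add h3) (fun x => rfl) (fun x => ?_)
  have dJa : Differentiable ℝ (bJa z) := h.ap_contDiff_bJa.differentiable (by simp)
  have dJ : Differentiable ℝ (bJ w) := h.bohm.contDiff_bJ_sc1.differentiable (by simp)
  have e1 : th (fun x => bJa z x - bKz q / z0F q * bJ w x) x
      = th (bJa z) x - bKz q / z0F q * th (bJ w) x := by
    have e2 : (fun x => bJa z x - bKz q / z0F q * bJ w x)
        = fun x => bJa z x + (-(bKz q / z0F q)) * bJ w x := by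
      funext x
      ring
    rw [e2, ap_th_add dJa (dJ.const_mul _), ap_th_const_mul _ dJ]
    ring
  rw [e1]
  ring

theorem BP.prof_l2 (h : BP q w z) :
    IsSymb (fun x => bJ w x / (1 + x)) (fun x => 2 * bl z x + th (bl z) x) := by
  have h1 := ((h.bohm.symb_logz1 h.hq h.pos).apply_deriv).const_mul 2
  refine ap_isSymb_congr h1 (fun x => rfl) (fun x => ?_)
  have dl : Differentiable ℝ (bl z) := (h.bohm.bl_contDiff h.pos).differentiable (by simp)
  have e1 : (fun x => Real.log (z x) - Real.log (((q : ℝ) - 1) / ((q : ℝ) + 1)))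
      = fun x => x * bl z x - Real.log (((q : ℝ) - 1) / ((q : ℝ) + 1)) := by
    funext x
    rw [h.bohm.bl_spec h.pos x]
  have hd : HasDerivAt (fun x => x * bl z x) (1 * bl z x + x * deriv (bl z) x) x :=
    (hasDerivAt_id x).mul (dl x).hasDerivAt
  rw [e1, deriv_sub_const, hd.deriv]
  unfold th
  ring

theorem BP.prof_dw2 (h : BP q w z) :
    IsSymb (fun x => bJ w x / (1 + x)) (fun x => 2 * deriv w x + th (deriv w) x) := by
  have h1 := ((h.bohm.symb_J h.hq).apply_deriv).const_mul (-1)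
  refine ap_isSymb_congr h1 (fun x => rfl) (fun x => ?_)
  have dw : Differentiable ℝ (deriv w) :=
    ((contDiff_infty_iff_deriv.1 h.bohm.smw).2).differentiable (by simp)
  have e1 : bJ w = fun x => 2 - 2 * x * deriv w x := rfl
  have hd : HasDerivAt (fun x => 2 - 2 * x * deriv w x)
      (-(2 * 1 * deriv w x + 2 * x * deriv (deriv w) x)) x :=
    ((((hasDerivAt_id x).const_mul 2).mul (dw x).hasDerivAt)).const_sub 2
  rw [e1, hd.deriv]
  unfold th
  ring

theorem BP.prof_ew2 (h : BP q w z) :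
    IsSymb (fun x => bJ w x / (1 + x))
      (fun x => 2 * Real.exp (-w x) + th (fun x => Real.exp (-w x)) x) := by
  have h1 := (h.bohm.symb_J h.hq).mul (h.bohm.symb_expw h.hq)
  refine ap_isSymb_congr h1 (fun x => by ring) (fun x => ?_)
  have dw : Differentiable ℝ w := h.bohm.smw.differentiable (by simp)
  have hd : HasDerivAt (fun x => Real.exp (-w x)) (Real.exp (-w x) * (-deriv w x)) x :=
    ((dw x).hasDerivAt.neg).exp
  unfold bJ th
  rw [hd.deriv]
  ring

end

end Claimed.Agent.R324.Core
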