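/-
Row 324 (S0582), PDE core, module AP (architect helper263), file TipC (ts_atm … ts_ew): SYMBOL BOUNDS OF THE ATOMS OF THE ANSATZ.       D any admissible domain (`DomOK D`), n arbitrary, m ≤ 7.
   wt q a b c = (r̂^{-α})^a Θ^b (r̂²)^c;     γ = gaF q = 8/α (so γ α = 8; α = alF q = bAl q > 0).
Tools: `atm_TS`, `atm_TS_succ` (AtmD.lean), `BP.sb00 … sb21` (TipA.lean), profile facts (TipB.lean, Bohm/SymbCor1-3.lean).     The exponent 2γe + k of `atm_TS` appears with casts of the numerals e, k: use `by norm_num`/`by push_cast; ring` to rewrite (e.g. `have : (2 * gaF q * ((0:ℕ):ℝ) + ((8:ℕ):ℝ)) = 8 := by norm_num`), and the ℤ-exponents of wt similarly (8*1-8 = 0, -(1:ℕ) = -1).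
To pass from m+1 to a general m ≤ 7: apply the `_succ` lemma with m := 7 … simply prove the statement for m = 8 or 7+1 and use `TS.of_le`.

* `ts_atm`, generic, no cancellation:  `atm_TS` + `BP.sb_of`.
* `ts_jj`:   atm 8 J.     `atm_TS_succ` with a = 1, e = 0, k = 8:   F = J ∈ sb 1 0 (`symb_J`, `sb10`);   G = 8 J + γ th J = γ (th J + α J) ∈ sb 2 0 (`symb_thJ2`, `const_mul`, `sb20`).
* `ts_ja`:   atm 8 J_a:   the same with `prof_Ja`, `prof_Ja2`.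
* `ts_l`:    atm (2γ) l:       a = 0, e = 1, k = 0:   F = l ∈ sb 0 1 (`symb_bl`, `sb01`);   G = 2γ l + γ th l = γ (2 l + th l) ∈ sb 1 1 (`prof_l2`, `sb11`).
* `ts_dw`:   atm (2γ) w':      `symb_dw`, `prof_dw2`.              `ts_ew`:   atm (2γ) e^{-w}:  `symb_expw`, `prof_ew2`.
* `ts_cmp`:  F(Ξ) with F ∈ IsSymb 1, F - c ∈ IsSymb J:    a = e = k = 0:   G = 0 * F + γ th F,  th F = th (F - c) (`deriv_sub_const`) ∈ IsSymb J (`IsSymb.apply_th`);    atm 0 F = F∘Ξ on t < 0 (`atm_zero`, `TS.congr`).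
* `ts_cmp1`: (F - c)(Ξ) = atm 0 (F - c) ∈ TS (wt 1 8 0):  `ts_atm` with a = 1, e = 0, k = 0 (m ≤ 8).
* instances `ts_z, ts_invz, ts_P, ts_Q, ts_logz`:   (`symb_z`,`symb_z1`), (`symb_invz`,`prof_invz1`), (`symb_P`,`symb_P1`), (`symb_thw`; th w - 2 = -J), (`symb_logz`,`symb_logz1`).
-/
import Claimed.Agent.R324.Core.AP.TipB

set_option autoImplicit false

namespace Claimed.Agent.R324.Core

open Set Filter Topology
open scoped ContDiff

noncomputable section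

variable {q : ℕ} {w z F : ℝ → ℝ} {D : Set (ℝ × ℝ)} {m n : ℕ}

theorem BP.ts_atm (h : BP q w z) (hD : DomOK D) (hN : DomN D) {a e k : ℕ}
    (hF : IsSymb (fun x => bJ w x ^ a / (1 + x) ^ e) F) (hk : k + m ≤ 8 * a) :
    TS q D m n (wt q a (8 * a - k) (-e)) (atm q (2 * gaF q * e + k) F) := by
  have hs : IsSymb (sb q a e) F :=
    h.sb_of a e (β := fun x => bJ w x ^ a / (1 + x) ^ e) (fun Ξ hΞ => by
      have := (h.bohm.J_bounds h.hq Ξ hΞ).1
      positivity) (K := 1) zero_le_one (fun Ξ hΞ => by rw [one_mul]) hF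
  exact atm_TS h.hqR hD hN m n hs hk

theorem BP.ap_ga_mul_al (h : BP q w z) : gaF q * bAl q = 8 := by
  have := (bAl_bounds h.hqR).1
  unfold gaF
  field_simp

/-- the pattern of `ts_jj`, `ts_ja` -/
theorem BP.ap_ts_a1 (h : BP q w z) (hD : DomOK D) (hN : DomN D) (hm : m ≤ 7) (hF : IsSymb (bJ w) F)
    (hG : IsSymb (fun x => bJ w x ^ 2) (fun x => th F x + bAl q * F x)) :
    TS q D m n (wt q 1 0 0) (atm q 8 F) := by
  have hG' : IsSymb (sb q (1 + 1) 0)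
      (fun Ξ => (2 * gaF q * ((0 : ℕ) : ℝ) + ((8 : ℕ) : ℝ)) * F Ξ + gaF q * th F Ξ) := by
    have h1 := h.sb20 (hG.const_mul (gaF q))
    have e : (fun Ξ => (2 * gaF q * ((0 : ℕ) : ℝ) + ((8 : ℕ) : ℝ)) * F Ξ + gaF q * th F Ξ)
        = fun x => gaF q * (th F x + bAl q * F x) := by
      funext x
      have := h.ap_ga_mul_al
      push_cast
      linear_combination (-F x) * this
    rw [e]
    exact h1
  have key := atm_TS_succ h.hqR hD hN 7 n (a := 1) (e := 0) (k := 8) (h.sb10 hF) hG' (by norm_num) (by norm_num)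
  have e1 : (8 * ((1 : ℕ) : ℤ) - ((8 : ℕ) : ℤ)) = 0 := by norm_num
  have e2 : (-((0 : ℕ) : ℤ)) = 0 := by norm_num
  have e3 : (2 * gaF q * ((0 : ℕ) : ℝ) + ((8 : ℕ) : ℝ)) = 8 := by norm_num
  rw [e1, e2, e3] at key
  exact key.of_le (by omega) le_rfl

/-- the pattern of `ts_l`, `ts_dw`, `ts_ew` -/
theorem BP.ap_ts_e1 (h : BP q w z) (hD : DomOK D) (hN : DomN D) (hm : m ≤ 7) (hF : IsSymb (fun x => 1 / (1 + x)) F)
    (hG : IsSymb (fun x => bJ w x / (1 + x)) (fun x => 2 * F x + th F x)) :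
    TS q D m n (wt q 0 0 (-1)) (atm q (2 * gaF q) F) := by
  have hG' : IsSymb (sb q (0 + 1) 1)
      (fun Ξ => (2 * gaF q * ((1 : ℕ) : ℝ) + ((0 : ℕ) : ℝ)) * F Ξ + gaF q * th F Ξ) := by
    have h1 := h.sb11 (hG.const_mul (gaF q))
    have e : (fun Ξ => (2 * gaF q * ((1 : ℕ) : ℝ) + ((0 : ℕ) : ℝ)) * F Ξ + gaF q * th F Ξ)
        = fun x => gaF q * (2 * F x + th F x) := by
      funext x
      push_cast
      ring
    rw [e]
    exact h1
  have key := atm_TS_succ h.hqR hD hN 7 n (a := 0) (e := 1) (k := 0) (h.sb01 hF) hG' (by norm_num) (by norm_num)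
  have e1 : (8 * ((0 : ℕ) : ℤ) - ((0 : ℕ) : ℤ)) = 0 := by norm_num
  have e2 : (-((1 : ℕ) : ℤ)) = -1 := by norm_num
  have e3 : (2 * gaF q * ((1 : ℕ) : ℝ) + ((0 : ℕ) : ℝ)) = 2 * gaF q := by norm_num
  rw [e1, e2, e3] at key
  exact key.of_le (by omega) le_rfl

theorem BP.ts_jj (h : BP q w z) (hD : DomOK D) (hN : DomN D) (hm : m ≤ 7) :
    TS q D m n (wt q 1 0 0) (atm q 8 (bJ w)) :=
  h.ap_ts_a1 hD hN hm (h.bohm.symb_J h.hq) (h.bohm.symb_thJ2 h.hq)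

theorem BP.ts_ja (h : BP q w z) (hD : DomOK D) (hN : DomN D) (hm : m ≤ 7) :
    TS q D m n (wt q 1 0 0) (atm q 8 (bJa z)) :=
  h.ap_ts_a1 hD hN hm h.prof_Ja h.prof_Ja2

theorem BP.ts_l (h : BP q w z) (hD : DomOK D) (hN : DomN D) (hm : m ≤ 7) :
    TS q D m n (wt q 0 0 (-1)) (atm q (2 * gaF q) (bl z)) :=
  h.ap_ts_e1 hD hN hm (h.bohm.symb_bl h.hq h.pos) h.prof_l2

theorem BP.ts_dw (h : BP q w z) (hD : DomOK D) (hN : DomN D) (hm : m ≤ 7) :
    TS q D m n (wt q 0 0 (-1)) (atm q (2 * gaF q) (deriv w)) :=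
  h.ap_ts_e1 hD hN hm (h.bohm.symb_dw h.hq) h.prof_dw2

theorem BP.ts_ew (h : BP q w z) (hD : DomOK D) (hN : DomN D) (hm : m ≤ 7) :
    TS q D m n (wt q 0 0 (-1)) (atm q (2 * gaF q) (fun x => Real.exp (-w x))) :=
  h.ap_ts_e1 hD hN hm (h.bohm.symb_expw h.hq) h.prof_ew2

end

end Claimed.Agent.R324.Core
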