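/-
Row 324 (S0582), PDE core, module AP (architect helper263), file TipC2 (ts_cmp … ts_logz): SYMBOL BOUNDS OF THE ATOMS OF THE ANSATZ.       D any admissible domain (`DomOK D`), n arbitrary, m ≤ 7.
   wt q a b c = (r̂^{-α})^a Θ^b (r̂²)^c;     γ = gaF q = 8/α (so γ α = 8; α = alF q = bAl q > 0).
Tools: `atm_TS`, `atm_TS_succ` (AtmD.lean), `BP.sb00 … sb21` (TipA.lean), profile facts (TipB.lean, Bohm/SymbCor1-3.lean).     The exponent 2γe + k of `atm_TS` appears with casts of the numerals e, k: use `by norm_num`/`by push_cast; ring` to rewrite (e.g. `have : (2 * gaF q * ((0:ℕ):ℝ) + ((8:ℕ):ℝ)) = 8 := by norm_num`), and the ℤ-exponents of wt similarly (8*1-8 = 0, -(1:ℕ) = -1).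
To pass from m+1 to a general m ≤ 7: apply the `_succ` lemma with m := 7 … simply prove the statement for m = 8 or 7+1 and use `TS.of_le`.

* `ts_atm`, generic, no cancellation:  `atm_TS` + `BP.sb_of`.
* `ts_jj`:   atm 8 J.     `atm_TS_succ` with a = 1, e = 0, k = 8:   F = J ∈ sb 1 0 (`symb_J`, `sb10`);   G = 8 J + γ th J = γ (th J + α J) ∈ sb 2 0 (`symb_thJ2`, `const_mul`, `sb20`).
* `ts_ja`:   atm 8 J_a:   the same with `prof_Ja`, `prof_Ja2`.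
* `ts_l`:    atm (2γ) l:       a = 0, e = 1, k = 0:   F = l ∈ sb 0 1 (`symb_bl`, `sb01`);   G = 2γ l + γ th l = γ (2 l + th l) ∈ sb 1 1 (`prof_l2`, `sb11`).
* `ts_dw`:   atm (2γ) w':      `symb_dw`, `prof_dw2`.              `ts_ew`:   atm (2γ) e^{-w}:  `symb_expw`, `prof_ew2`.
* `ts_cmp`:  F(Ξ) with F ∈ IsSymb 1, F - c ∈ IsSymb J:    a = e = k = 0:   G = 0 * F + γ th F,  th F = th (F - c) (`deriv_sub_const`) ∈ IsSymb J (`IsSymb.apply_th`);    atm 0 F = F∘Ξ on t < 0 (`atm_zero`, `TS.congr`).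
* `ts_cmp1`: (F - c)(Ξ) = atm 0 (F - c) ∈ TS (wt 1 8 0):  `ts_atm` with a = 1, e = 0, k = 0 (m ≤ 8).
* instances `ts_z, ts_invz, ts_P, ts_Q, ts_logz`:   (`symb_z`,`symb_z1`), (`symb_invz`,`prof_invz1`), (`symb_P`,`symb_P1`), (`symb_thw`; th w - 2 = -J), (`symb_logz`,`symb_logz1`).
-/
import Claimed.Agent.R324.Core.AP.TipC

set_option autoImplicit false

namespace Claimed.Agent.R324.Core

open Set Filter Topology
open scoped ContDiff

noncomputable section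

variable {q : ℕ} {w z F : ℝ → ℝ} {D : Set (ℝ × ℝ)} {m n : ℕ}

theorem BP.ts_cmp (h : BP q w z) (hD : DomOK D) (hN : DomN D) (hm : m ≤ 7) (hF : IsSymb (fun _ => 1) F) (c : ℝ)
    (hF1 : IsSymb (bJ w) (fun x => F x - c)) :
    TS q D m n (wt q 0 0 0) (fun p => F (XiF q p)) := by
  have hJ0 : ∀ Ξ, 0 ≤ Ξ → 0 ≤ bJ w Ξ := fun Ξ hΞ => (h.bohm.J_bounds h.hq Ξ hΞ).1.le
  have hth : th (fun x => F x - c) = th F := by
    funext Ξ
    unfold th
    rw [deriv_sub_const]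
  have h1 : IsSymb (bJ w) (th F) := hth ▸ hF1.apply_th hJ0
  have hG : IsSymb (sb q (0 + 1) 0)
      (fun Ξ => (2 * gaF q * ((0 : ℕ) : ℝ) + ((0 : ℕ) : ℝ)) * F Ξ + gaF q * th F Ξ) := by
    have e : (fun Ξ => (2 * gaF q * ((0 : ℕ) : ℝ) + ((0 : ℕ) : ℝ)) * F Ξ + gaF q * th F Ξ)
        = fun Ξ => gaF q * th F Ξ := by
      funext Ξ
      simp
    rw [e]
    exact h.sb10 (h1.const_mul _)
  have h2 := atm_TS_succ (q := (q : ℝ)) (D := D) h.hqR hD hN 7 n (a := 0) (e := 0) (k := 0) (h.sb00 hF) hG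
    (by norm_num) (by norm_num)
  have e1 : (8 * ((0 : ℕ) : ℤ) - ((0 : ℕ) : ℤ)) = 0 := by norm_num
  have e2 : (-((0 : ℕ) : ℤ)) = 0 := by norm_num
  have e3 : (2 * gaF q * ((0 : ℕ) : ℝ) + ((0 : ℕ) : ℝ)) = 0 := by norm_num
  rw [e1, e2, e3] at h2
  exact TS.congr hD (fun t ht y => (atm_zero (q : ℝ) F ht y).symm) (h2.of_le (by omega) le_rfl)

theorem BP.ts_cmp1 (h : BP q w z) (hD : DomOK D) (hN : DomN D) (hm : m ≤ 7) (hF : IsSymb (bJ w) F) :
    TS q D m n (wt q 1 8 0) (fun p => F (XiF q p)) := by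
  have hF' : IsSymb (fun x => bJ w x ^ 1 / (1 + x) ^ 0) F := by
    have e : (fun x => bJ w x ^ 1 / (1 + x) ^ 0) = bJ w := by
      funext x
      simp
    rw [e]
    exact hF
  have h2 := h.ts_atm (D := D) (m := m) (n := n) hD hN (a := 1) (e := 0) (k := 0) hF' (by omega)
  have e1 : (8 * ((1 : ℕ) : ℤ) - ((0 : ℕ) : ℤ)) = 8 := by norm_num
  have e2 : (-((0 : ℕ) : ℤ)) = 0 := by norm_num
  have e3 : (2 * gaF q * ((0 : ℕ) : ℝ) + ((0 : ℕ) : ℝ)) = 0 := by norm_num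
  rw [e1, e2, e3] at h2
  exact TS.congr hD (fun t ht y => (atm_zero (q : ℝ) F ht y).symm) h2

theorem BP.ts_z (h : BP q w z) (hD : DomOK D) (hN : DomN D) (hm : m ≤ 7) :
    TS q D m n (wt q 0 0 0) (fun p => z (XiF q p)) :=
  h.ts_cmp hD hN hm (h.bohm.symb_z h.hq) _ (h.bohm.symb_z1 h.hq)

theorem BP.ts_invz (h : BP q w z) (hD : DomOK D) (hN : DomN D) (hm : m ≤ 7) :
    TS q D m n (wt q 0 0 0) (fun p => 1 / z (XiF q p)) :=
  h.ts_cmp (F := fun x => 1 / z x) hD hN hm (h.bohm.symb_invz h.hq h.pos) _ h.prof_invz1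

theorem BP.ts_P (h : BP q w z) (hD : DomOK D) (hN : DomN D) (hm : m ≤ 7) :
    TS q D m n (wt q 0 0 0) (fun p => bP w (XiF q p)) :=
  h.ts_cmp hD hN hm (h.bohm.symb_P h.hq) _ (h.bohm.symb_P1 h.hq)

theorem BP.ts_Q (h : BP q w z) (hD : DomOK D) (hN : DomN D) (hm : m ≤ 7) :
    TS q D m n (wt q 0 0 0) (fun p => th w (XiF q p)) := by
  refine h.ts_cmp hD hN hm (h.bohm.symb_thw h.hq) 2 ?_
  have e : (fun x => th w x - 2) = fun x => -1 * bJ w x := by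
    funext x
    unfold bJ
    ring
  rw [e]
  exact (h.bohm.symb_J h.hq).const_mul (-1)

theorem BP.ts_logz (h : BP q w z) (hD : DomOK D) (hN : DomN D) (hm : m ≤ 7) :
    TS q D m n (wt q 0 0 0) (fun p => Real.log (z (XiF q p))) :=
  h.ts_cmp (F := fun x => Real.log (z x)) hD hN hm (h.bohm.symb_logz h.hq h.pos) _
    (h.bohm.symb_logz1 h.hq h.pos)

end

end Claimed.Agent.R324.Core
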