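/-
Row 324 (S0582), PDE core, module AP (architect helper263), file TipD: heat polynomials and the perturbations u = uWF, v = uZF.      Definitions: Core/AP/Defs.lean.   D admissible, n arbitrary, m ≤ 7.
Tools: `TS.Lam, TS.X_Th, TS.X_rh, TS.mul_wt, TS.le_wt, TS.dY_wt, TS.one_wt` (Cal/WtC, WtD), `TS.const_mul, TS.sum, TS.const, TS.congr` (Cal/Alg), `BP.ts_jj, BP.ts_ja` (TipC).
NOTE: inside a theorem named `TS.foo` write `Core.dY`, `Core.dT`.

* `TS.Lam_pow`, `TS.X_pow`: induction on k;  k = 0: the constant 1 (`TS.const`, `TS.one_wt`; `pow_zero`);   k+1: `pow_succ`, `TS.mul_wt` with `TS.Lam` resp. `TS.X_Th`; exponents: ((k:ℤ) + 1 = ((k+1 : ℕ) : ℤ)) `push_cast`.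
* `ts_hPol`:  each term c * Λ^(7-j) * X^j ∈ TS (wt 0 ((7-j)+j) 0) = TS (wt 0 7 0) for j < 8 (`Finset.mem_range`; (7-j : ℕ) + j = 7 by omega, cast to ℤ);  `TS.sum`.
* `ts_uW1`, `ts_uZ1`:  wt 1 0 0 × wt 0 7 0.
* `ts_uWF`, `ts_uZF`:  X ∈ wt 0 1 0.        `ts_uWF'`, `ts_uZF'`:  X ∈ wt 0 0 1.
* `ts_dY_uWF`, `ts_dY_uZF`:  `TS.dY_wt` applied to `ts_uWF'` (order n+1):   wt 1 7 (1-1) = wt 1 7 0.
-/
import Claimed.Agent.R324.Core.AP.TipC2

set_option autoImplicit false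

namespace Claimed.Agent.R324.Core

open Set Filter Topology
open scoped ContDiff

noncomputable section

variable {D : Set (ℝ × ℝ)} {m n : ℕ}

theorem TS.Lam_pow {q : ℝ} (hq : 100 ≤ q) (hD : DomOK D) (k : ℕ) :
    TS q D m n (wt q 0 k 0) (fun p => (-p.1) ^ k) := by
  induction k with
  | zero =>
    have h1 : TS q D m n (wt q 0 0 0) (fun _ => (1 : ℝ)) := TS.one_wt.1 (TS.const 1)
    simpa using h1
  | succ k ih =>
    have h1 := TS.mul_wt hq hD ih (TS.Lam (m := m) (n := n) hq hD)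
    have e : ((k : ℤ) + 1) = ((k + 1 : ℕ) : ℤ) := by push_cast; ring
    simp only [add_zero, e] at h1
    simpa only [pow_succ] using h1

theorem TS.X_pow {q : ℝ} (hq : 100 ≤ q) (hD : DomOK D) (k : ℕ) :
    TS q D m n (wt q 0 k 0) (fun p => (Xf p.2) ^ k) := by
  induction k with
  | zero =>
    have h1 : TS q D m n (wt q 0 0 0) (fun _ => (1 : ℝ)) := TS.one_wt.1 (TS.const 1)
    simpa using h1
  | succ k ih =>
    have h1 := TS.mul_wt hq hD ih (TS.X_Th (m := m) (n := n) hq hD)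
    have e : ((k : ℤ) + 1) = ((k + 1 : ℕ) : ℤ) := by push_cast; ring
    simp only [add_zero, e] at h1
    simpa only [pow_succ] using h1

theorem ts_hPol {q : ℝ} (hq : 100 ≤ q) (hD : DomOK D) (c : ℕ → ℝ) :
    TS q D m n (wt q 0 7 0) (hPol c) := by
  refine TS.sum hD (Finset.range 8)
    (F := fun j p => c (j + 1) * (-p.1) ^ (7 - j) * (Xf p.2) ^ j) (fun j hj => ?_)
  have hj' : j < 8 := Finset.mem_range.1 hj
  have h1 := TS.mul_wt hq hD (TS.Lam_pow (m := m) (n := n) hq hD (7 - j))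
    (TS.X_pow (m := m) (n := n) hq hD j)
  have e : (((7 - j : ℕ) : ℤ) + (j : ℤ)) = 7 := by omega
  simp only [add_zero, e] at h1
  have h2 := TS.const_mul hD (c (j + 1)) h1
  simpa only [mul_assoc] using h2

variable {q : ℕ} {w z : ℝ → ℝ}

theorem BP.ts_uW1 (h : BP q w z) (hD : DomOK D) (hN : DomN D) (hm : m ≤ 7) : TS q D m n (wt q 1 7 0) (uW1 q w) := by
  have h1 := TS.mul_wt h.hqR hD (h.ts_jj (n := n) hD hN hm) (ts_hPol (m := m) (n := n) h.hqR hD (aW q))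
  norm_num at h1
  exact h1

theorem BP.ts_uZ1 (h : BP q w z) (hD : DomOK D) (hN : DomN D) (hm : m ≤ 7) : TS q D m n (wt q 1 7 0) (uZ1 q z) := by
  have h1 := TS.mul_wt h.hqR hD (h.ts_ja (n := n) hD hN hm) (ts_hPol (m := m) (n := n) h.hqR hD (aZ q))
  norm_num at h1
  exact h1

theorem BP.ts_uWF (h : BP q w z) (hD : DomOK D) (hN : DomN D) (hm : m ≤ 7) : TS q D m n (wt q 1 8 0) (uWF q w) := by
  have h1 := TS.mul_wt h.hqR hD (TS.X_Th (m := m) (n := n) h.hqR hD) (h.ts_uW1 (n := n) hD hN hm)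
  norm_num at h1
  exact h1

theorem BP.ts_uZF (h : BP q w z) (hD : DomOK D) (hN : DomN D) (hm : m ≤ 7) : TS q D m n (wt q 1 8 0) (uZF q z) := by
  have h1 := TS.mul_wt h.hqR hD (TS.X_Th (m := m) (n := n) h.hqR hD) (h.ts_uZ1 (n := n) hD hN hm)
  norm_num at h1
  exact h1

theorem BP.ts_uWF' (h : BP q w z) (hD : DomOK D) (hN : DomN D) (hm : m ≤ 7) : TS q D m n (wt q 1 7 1) (uWF q w) := by
  have h1 := TS.mul_wt h.hqR hD (TS.X_rh (m := m) (n := n) h.hqR hD) (h.ts_uW1 (n := n) hD hN hm)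
  norm_num at h1
  exact h1

theorem BP.ts_uZF' (h : BP q w z) (hD : DomOK D) (hN : DomN D) (hm : m ≤ 7) : TS q D m n (wt q 1 7 1) (uZF q z) := by
  have h1 := TS.mul_wt h.hqR hD (TS.X_rh (m := m) (n := n) h.hqR hD) (h.ts_uZ1 (n := n) hD hN hm)
  norm_num at h1
  exact h1

theorem BP.ts_dY_uWF (h : BP q w z) (hD : DomOK D) (hN : DomN D) (hm : m ≤ 7) :
    TS q D m n (wt q 1 7 0) (dY (uWF q w)) := by
  have h1 := TS.dY_wt h.hqR hD (h.ts_uWF' (n := n + 1) hD hN hm)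
  norm_num at h1
  exact h1

theorem BP.ts_dY_uZF (h : BP q w z) (hD : DomOK D) (hN : DomN D) (hm : m ≤ 7) :
    TS q D m n (wt q 1 7 0) (dY (uZF q z)) := by
  have h1 := TS.dY_wt h.hqR hD (h.ts_uZF' (n := n + 1) hD hN hm)
  norm_num at h1
  exact h1

end

end Claimed.Agent.R324.Core
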