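/-
Row 324 (S0582), PDE core, module AP (architect helper263), file TipE:  ζ₁ = ze1, ζ = zeF = X ζ₁,  B_tip,  the coefficient B of bgA and Z = 1/(1+XB).      Definitions: Core/AP/Defs.lean.   D admissible, n arbitrary, m ≤ 7.
Tools: TipC, TipD;  `TS.comp` (Cal/CompA), `TS.inv` (Cal/CompB), `TS.yfun` (Cal/CompC), `TS.one_wt, TS.le_wt, TS.mul_wt` (Cal/WtC);   `ph1_contDiff`, `ph1_mul : s * Ph1 s = 1 - exp (-s)` (Core/PR/Ph.lean);  `psi1_contDiff, psi1_nonneg, psi1_le_one, psi1_eq_zero` (Core/PR/SmR.lean).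

* `ts_ze1`:   atm (2γ) l ∈ wt 0 0 (-1) (`ts_l`);   uZ1 ∈ wt 1 7 0 ≤ K wt 0 0 (-1) (`TS.le_wt`: da = 1, db = 7, dc = 1, 8 ≤ 7+1);  `TS.add`.
* `ts_zeF`:   X ∈ wt 0 0 1 (`TS.X_rh`) × wt 0 0 (-1) = wt 0 0 0.
* `ts_Btip`:  Ph1(ζ), exp(-ζ) ∈ TS 1 (`TS.one_wt`, `TS.comp` with Ψ = Ph1 resp. Ψ s = exp (-s));    ζ₁ Φ₁(ζ) ∈ wt 0 0 (-1);    exp(-ζ) ∈ wt 0 0 0 ≤ K wt 0 0 (-1) (dc = 1).
* `X_Btip`:   X (-ζ₁ Φ₁(ζ) - e^{-ζ}) = -ζ Φ₁(ζ) - X e^{-ζ} = -(1 - e^{-ζ}) - X e^{-ζ} = (1-X) e^{-ζ} - 1,  1 - X = y²  (unfold Btip zeF Xf; `ph1_mul`; ring-type manipulation).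
* `bgA_den`:  (bgA).B = ψ₁ B_tip.
* `bgA_pos`:  ψ := ψ₁(y) ∈ [0,1];   if y ≤ 3/4: ψ = 0, value 1;   if y > 3/4: y² e^{-ζ} > 0, so (1-ψ) + ψ y² e^{-ζ} > 0 (if ψ < 1 the first term is positive, if ψ = 1 the second): nlinarith / cases.
* `bgA_den_lower`:  |ζ| ≤ C on D (`ts_zeF`, `TY.bd0`, wt 0 0 0 = 1);   y ≤ 3/4: value 1;  y ≥ 3/4:  y² e^{-ζ} ≥ (9/16) e^{-C} =: c₁ ≤ 1, convex combination ≥ c₁.
* `ts_bgA_B`: ψ₁(y) ∈ TS 1 (`TS.yfun`) × `ts_Btip`.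
* `ts_bgA_Z`: (bgA).Z = 1/(1 + X B) = (1 + X B)⁻¹ (`Bg.Z`, `one_div`);   1 + X B ∈ TS (wt 0 0 0) (X ∈ wt 0 0 1, B ∈ wt 0 0 (-1));  `TS.inv` with ϱ = 1 (convert wt 0 0 0 ↔ fun _ => 1 by `TS.one_wt`), c from `bgA_den_lower`, nonvanishing from `bgA_pos`.
-/
import Claimed.Agent.R324.Core.AP.TipD
import Claimed.Agent.R324.Core.PR.Ph
import Claimed.Agent.R324.Core.PR.SmR

set_option autoImplicit false

namespace Claimed.Agent.R324.Core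

open Set Filter Topology
open scoped ContDiff

noncomputable section

variable {D : Set (ℝ × ℝ)} {m n : ℕ} {q : ℕ} {w z : ℝ → ℝ}

theorem BP.ts_ze1 (h : BP q w z) (hD : DomOK D) (hN : DomN D) (hm : m ≤ 7) : TS q D m n (wt q 0 0 (-1)) (ze1 q z) := by
  have h1 : TS q D m n (wt q 0 0 (-1)) (atm q (2 * gaF q) (bl z)) := h.ts_l hD hN hm
  have h2 : TS q D m n (wt q 0 0 (-1)) (uZ1 q z) :=
    TS.le_wt h.hqR hD (a := 0) (a' := 1) (b := 0) (b' := 7) (c := -1) (c' := 0) (by norm_num)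
      (by norm_num) (by norm_num) (h.ts_uZ1 hD hN hm)
  exact TS.add hD h1 h2

theorem BP.ts_zeF (h : BP q w z) (hD : DomOK D) (hN : DomN D) (hm : m ≤ 7) : TS q D m n (wt q 0 0 0) (zeF q z) := by
  have h1 : TS q D m n (wt q (0 + 0) (0 + 0) (1 + (-1))) (fun p => Xf p.2 * ze1 q z p) :=
    TS.mul_wt h.hqR hD (TS.X_rh h.hqR hD) (h.ts_ze1 hD hN hm)
  exact h1

theorem BP.ts_Btip (h : BP q w z) (hD : DomOK D) (hN : DomN D) (hm : m ≤ 7) : TS q D m n (wt q 0 0 (-1)) (Btip q z) := by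
  have hz1 : TS q D m n (fun _ => 1) (zeF q z) := TS.one_wt.2 (h.ts_zeF hD hN hm)
  have hPh : TS q D m n (fun _ => 1) (fun p => Ph1 (zeF q z p)) := TS.comp hD ph1_contDiff hz1
  have hcd : ContDiff ℝ ∞ (fun s : ℝ => Real.exp (-s)) := Real.contDiff_exp.comp contDiff_neg
  have hE : TS q D m n (fun _ => 1) (fun p => Real.exp (-zeF q z p)) :=
    TS.comp hD (Ψ := fun s : ℝ => Real.exp (-s)) hcd hz1
  have t1 : TS q D m n (wt q (0 + 0) (0 + 0) (-1 + 0)) (fun p => -ze1 q z p * Ph1 (zeF q z p)) :=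
    TS.mul_wt h.hqR hD ((h.ts_ze1 hD hN hm).neg hD) (TS.one_wt.1 hPh)
  have t2 : TS q D m n (wt q 0 0 (-1)) (fun p => Real.exp (-zeF q z p)) :=
    TS.le_wt h.hqR hD (a := 0) (a' := 0) (b := 0) (b' := 0) (c := -1) (c' := 0) (by norm_num)
      (by norm_num) (by norm_num) (TS.one_wt.1 hE)
  have t1' : TS q D m n (wt q 0 0 (-1)) (fun p => -ze1 q z p * Ph1 (zeF q z p)) := t1
  exact TS.sub hD t1' t2

theorem X_Btip (q : ℝ) (z : ℝ → ℝ) (p : ℝ × ℝ) :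
    Xf p.2 * Btip q z p = p.2 ^ 2 * Real.exp (-zeF q z p) - 1 := by
  have h := ph1_mul (zeF q z p)
  have hz : zeF q z p = Xf p.2 * ze1 q z p := rfl
  have hX : Xf p.2 = 1 - p.2 ^ 2 := rfl
  unfold Btip
  generalize Ph1 (zeF q z p) = P at *
  generalize Real.exp (-zeF q z p) = E at *
  rw [hz] at h
  rw [hX] at h ⊢
  linear_combination -h

theorem bgA_den (q : ℝ) (w z : ℝ → ℝ) (p : ℝ × ℝ) :
    1 + Xf p.2 * (bgA q w z).B p = 1 - psi1 p.2 + psi1 p.2 * (p.2 ^ 2 * Real.exp (-zeF q z p)) := by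
  have h := X_Btip q z p
  show 1 + Xf p.2 * (psi1 p.2 * Btip q z p) = _
  linear_combination psi1 p.2 * h

theorem bgA_pos (q : ℝ) (w z : ℝ → ℝ) (p : ℝ × ℝ) : 0 < 1 + Xf p.2 * (bgA q w z).B p := by
  rw [bgA_den]
  have h0 := psi1_nonneg p.2
  have h1 := psi1_le_one p.2
  rcases le_or_gt p.2 (3 / 4) with hy | hy
  · rw [psi1_eq_zero hy]
    norm_num
  · have hE : 0 < p.2 ^ 2 * Real.exp (-zeF q z p) :=
      mul_pos (pow_pos (by linarith) 2) (Real.exp_pos _)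
    rcases eq_or_lt_of_le h1 with h2 | h2
    · rw [h2]
      linarith
    · have := mul_nonneg h0 hE.le
      linarith

theorem BP.bgA_den_lower (h : BP q w z) (hD : DomOK D) (hN : DomN D) :
    ∃ c : ℝ, 0 < c ∧ ∀ p ∈ D, c ≤ 1 + Xf p.2 * (bgA q w z).B p := by
  obtain ⟨C, hC0, hC⟩ := (h.ts_zeF hD hN (m := 0) (n := 0) (by norm_num)).bd.bd0
  have hc1 : Real.exp (-C) ≤ 1 := Real.exp_le_one_iff.2 (by linarith)
  have hc0 : 0 < Real.exp (-C) := Real.exp_pos _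
  refine ⟨9 / 16 * Real.exp (-C), by positivity, fun p hp => ?_⟩
  rw [bgA_den]
  have h0 := psi1_nonneg p.2
  have h1 := psi1_le_one p.2
  rcases le_or_gt p.2 (3 / 4) with hy | hy
  · rw [psi1_eq_zero hy]
    linarith
  · have hz : |zeF q z p| ≤ C := by
      have := hC p hp
      rwa [wt_zero, mul_one] at this
    have hE : Real.exp (-C) ≤ Real.exp (-zeF q z p) :=
      Real.exp_le_exp.2 (by linarith [le_abs_self (zeF q z p)])
    have hy2 : (9 : ℝ) / 16 ≤ p.2 ^ 2 := by nlinarith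
    have hlow : 9 / 16 * Real.exp (-C) ≤ p.2 ^ 2 * Real.exp (-zeF q z p) :=
      mul_le_mul hy2 hE hc0.le (by positivity)
    nlinarith

theorem BP.ts_bgA_B (h : BP q w z) (hD : DomOK D) (hN : DomN D) (hm : m ≤ 7) :
    TS q D m n (wt q 0 0 (-1)) (bgA q w z).B := by
  have h1 : TS q D m n (wt q (0 + 0) (0 + 0) (0 + (-1))) (fun p => psi1 p.2 * Btip q z p) :=
    TS.mul_wt h.hqR hD (TS.one_wt.1 (TS.yfun h.hqR hD psi1_contDiff)) (h.ts_Btip hD hN hm)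
  exact h1

theorem BP.ts_bgA_Z (h : BP q w z) (hD : DomOK D) (hN : DomN D) (hm : m ≤ 7) :
    TS q D m n (wt q 0 0 0) (bgA q w z).Z := by
  have h1 : TS q D m n (wt q (0 + 0) (0 + 0) (1 + (-1))) (fun p => Xf p.2 * (bgA q w z).B p) :=
    TS.mul_wt h.hqR hD (TS.X_rh h.hqR hD) (h.ts_bgA_B hD hN hm)
  have h1' : TS q D m n (wt q 0 0 0) (fun p => Xf p.2 * (bgA q w z).B p) := h1
  have hden : TS q D m n (wt q 0 0 0) (fun p => 1 + Xf p.2 * (bgA q w z).B p) :=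
    TS.add hD (TS.one_wt.1 (TS.const 1)) h1'
  obtain ⟨c, hc, hlow⟩ := h.bgA_den_lower hD hN
  have hinv := TS.inv hD (fun t _ y => (bgA_pos q w z (t, y)).ne') (TS.one_wt.2 hden) hc
    (fun _ _ => one_pos) (fun p hp => by rw [mul_one]; exact hlow p hp)
  have e : (bgA q w z).Z = fun p => (1 + Xf p.2 * (bgA q w z).B p)⁻¹ := by
    funext p
    simp [Bg.Z, one_div]
  rw [e]
  exact TS.congr_wt (fun p _ => by rw [wt_zero]; norm_num) hinv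

end

end Claimed.Agent.R324.Core
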