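/-
Row 324 (S0582), PDE core, module AP (architect helper263), file TipF:  the gauge field W = WA of bgA is O(𝔍/Θ) = wt 1 7 0 with all derivatives.      Definitions: Core/AP/Defs.lean.   D admissible, n arbitrary, m ≤ 7.

* `psY1_contDiff`, `psY2_contDiff`:  ψ₁(y)/y, ψ₁(y)/(2y²).   `contDiff_iff_contDiffAt`;   at y₀ > 1/2 (or y₀ ≠ 0): quotient of smooth functions, denominator ≠ 0 (`ContDiffAt.div`);   at y₀ < 3/4: ψ₁ = 0 on the neighbourhood Iio (3/4) (`psi1_eq_zero`), so the function is eventually 0 (`ContDiffAt.congr_of_eventuallyEq`, `contDiffAt_const`; 0/y = 0).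
* `ts_WA`:   WA = e^ζ * ( psY1(y) * ((q-1) * (uZ1 * Φ₁(v)/z(Ξ))) - psY2(y) * (∂_y v + 2 ∂_y u) ):
       e^ζ ∈ TS 1 (`ts_zeF`, `TS.one_wt`, `TS.comp` with exp);    psY1, psY2 ∈ TS 1 (`TS.yfun`);    uZ1 ∈ wt 1 7 0 (`ts_uZ1`);     v = uZF ∈ wt 1 8 0 ≤ K wt 0 0 0 (`TS.le_wt`: da = 1, db = 8), so Φ₁(v) ∈ TS 1 (`TS.comp`, `ph1_contDiff`);
       a/z(Ξ) = a * (1/z(Ξ)), `ts_invz`;      ∂_y v, ∂_y u ∈ wt 1 7 0 (`ts_dY_uZF`, `ts_dY_uWF`).        Combine with `TS.mul_wt`, `TS.const_mul`, `TS.add`, `TS.sub`, `TS.congr` (reshape the formula; it holds at every point).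
-/
import Claimed.Agent.R324.Core.AP.TipE

set_option autoImplicit false

namespace Claimed.Agent.R324.Core

open Set Filter Topology
open scoped ContDiff

noncomputable section

variable {D : Set (ℝ × ℝ)} {m n : ℕ} {q : ℕ} {w z : ℝ → ℝ}

theorem ap_psi1_div_contDiff {d : ℝ → ℝ} (hd : ContDiff ℝ ∞ d) (hd0 : ∀ y : ℝ, 1 / 2 < y → d y ≠ 0) :
    ContDiff ℝ ∞ (fun y => psi1 y / d y) := by
  rw [contDiff_iff_contDiffAt]
  intro y₀
  rcases lt_or_ge (1 / 2 : ℝ) y₀ with hy | hy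
  · exact psi1_contDiff.contDiffAt.div hd.contDiffAt (hd0 y₀ hy)
  · have hev : (fun y => psi1 y / d y) =ᶠ[𝓝 y₀] fun _ => (0 : ℝ) := by
      have hmem : Iio (3 / 4 : ℝ) ∈ 𝓝 y₀ := Iio_mem_nhds (by linarith)
      filter_upwards [hmem] with y hy'
      have hy'' : y ≤ 3 / 4 := le_of_lt hy'
      rw [psi1_eq_zero hy'', zero_div]
    exact contDiffAt_const.congr_of_eventuallyEq hev

theorem psY1_contDiff : ContDiff ℝ ∞ psY1 := by
  have h := ap_psi1_div_contDiff (d := fun y => y) contDiff_id (fun y hy => by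
    have : (0 : ℝ) < y := by linarith
    exact this.ne')
  exact h

theorem psY2_contDiff : ContDiff ℝ ∞ psY2 := by
  have h := ap_psi1_div_contDiff (d := fun y => 2 * y ^ 2)
    (contDiff_const.mul (contDiff_id.pow 2)) (fun y hy => by
    have : (0 : ℝ) < y := by linarith
    positivity)
  exact h

theorem BP.ts_WA (h : BP q w z) (hD : DomOK D) (hN : DomN D) (hm : m ≤ 7) : TS q D m n (wt q 1 7 0) (WA q w z) := by
  have hq : (100 : ℝ) ≤ (q : ℝ) := h.hqR
  -- the bounded factors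
  have hE : TS q D m n (wt q 0 0 0) (fun p => Real.exp (zeF q z p)) :=
    TS.one_wt.1 (TS.comp hD Real.contDiff_exp (TS.one_wt.2 (h.ts_zeF hD hN hm)))
  have hY1 : TS q D m n (wt q 0 0 0) (fun p => psY1 p.2) :=
    TS.one_wt.1 (TS.yfun hq hD psY1_contDiff)
  have hY2 : TS q D m n (wt q 0 0 0) (fun p => psY2 p.2) :=
    TS.one_wt.1 (TS.yfun hq hD psY2_contDiff)
  have hv0 : TS q D m n (wt q 0 0 0) (uZF q z) :=
    TS.le_wt hq hD (Nat.zero_le 1) le_rfl (by norm_num) (h.ts_uZF hD hN hm)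
  have hPh : TS q D m n (wt q 0 0 0) (fun p => Ph1 (uZF q z p)) :=
    TS.one_wt.1 (TS.comp hD ph1_contDiff (TS.one_wt.2 hv0))
  have hiz : TS q D m n (wt q 0 0 0) (fun p => 1 / z (XiF q p)) := h.ts_invz hD hN hm
  -- first term
  have h1 : TS q D m n (wt q 1 7 0) (fun p => uZ1 q z p * Ph1 (uZF q z p)) := by
    have := TS.mul_wt hq hD (h.ts_uZ1 (D := D) (m := m) (n := n) hD hN hm) hPh
    simpa using this
  have h2 : TS q D m n (wt q 1 7 0)
      (fun p => uZ1 q z p * Ph1 (uZF q z p) * (1 / z (XiF q p))) := by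
    have := TS.mul_wt hq hD h1 hiz
    simpa using this
  have h3 : TS q D m n (wt q 1 7 0)
      (fun p => ((q : ℝ) - 1) * (uZ1 q z p * Ph1 (uZF q z p) * (1 / z (XiF q p)))) :=
    TS.const_mul hD _ h2
  have h4 : TS q D m n (wt q 1 7 0)
      (fun p => psY1 p.2 *
        (((q : ℝ) - 1) * (uZ1 q z p * Ph1 (uZF q z p) * (1 / z (XiF q p))))) := by
    have := TS.mul_wt hq hD hY1 h3
    simpa using this
  -- second term
  have h5 : TS q D m n (wt q 1 7 0) (fun p => dY (uZF q z) p + 2 * dY (uWF q w) p) :=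
    TS.add hD (h.ts_dY_uZF hD hN hm) (TS.const_mul hD 2 (h.ts_dY_uWF hD hN hm))
  have h6 : TS q D m n (wt q 1 7 0)
      (fun p => psY2 p.2 * (dY (uZF q z) p + 2 * dY (uWF q w) p)) := by
    have := TS.mul_wt hq hD hY2 h5
    simpa using this
  have h7 := TS.sub hD h4 h6
  have h8 : TS q D m n (wt q 1 7 0)
      (fun p => Real.exp (zeF q z p) * (psY1 p.2 *
        (((q : ℝ) - 1) * (uZ1 q z p * Ph1 (uZF q z p) * (1 / z (XiF q p))))
        - psY2 p.2 * (dY (uZF q z) p + 2 * dY (uWF q w) p))) := by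
    have := TS.mul_wt hq hD hE h7
    simpa using this
  refine TS.congr hD (fun t _ y => ?_) h8
  simp only [WA, mul_one_div]

end

end Claimed.Agent.R324.Core
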