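/-
Row 324 (S0582), PDE core, module AP (architect helper263), file TipG:  w_tip = 2γ log Λ + w(Ξ) + u.      Definitions: Core/AP/Defs.lean.   D admissible, n arbitrary, m ≤ 6.     J = bJ w = 2 - th w,  P = bP w = Ξ e^{-w}.

* `sm_wtip`:   log(-t) is smooth on t < 0 (`sm_of_t`/`Sm.log sm_fst.neg`), `sm_cmp`, `(ts_uWF ..).sm` — or directly from the definitions (`sm_atm`, polynomial).
* `dT_wtip`:   d/dt (2γ log(-t)) = 2γ/t = -2γ Λ^(-1);     w(Ξ) = atm 0 w on t<0, `dT_atm`:  dT = atm 1 (0*w + γ th w) = γ Λ^(-1) (th w)(Ξ);    sum = -γ Λ^(-1) (2 - th w)(Ξ) = -γ atm 1 J.        (`dT_add`, `dT_of_hasDerivAt`, `Real.rpow_neg_one`.)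
* `dY_wtip`:   `dY_atm` with s = 0:  ∂_y w(Ξ) = -2y atm (2γ) w'.
* `exp_wtip`:  exp(-(2γ log Λ + w(Ξ) + u)) = Λ^(-2γ) e^{-w(Ξ)} e^{-u}   (`Real.exp_add`/`Real.exp_neg`, `Real.rpow_def_of_pos`: Λ^(-2γ) = exp(log Λ * (-2γ))).
* `ts_dT_wtip`:  atm 1 J ∈ wt 1 7 0  (`ts_atm` with a = 1, e = 0, k = 1: needs 1 + m ≤ 8; weight J^1/(1+Ξ)^0 = J: `symb_J` after rewriting the weight by funext/simp);    dT u ∈ wt 1 (8-1) 0 (`TS.dT_wt` applied to `ts_uWF` of order m+1 ≤ 7).      `TS.congr` with `dT_wtip` (Sm of dT wtip: `sm_wtip.dT`).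
* `ts_dY_wtip`:  -2y ∈ TS 1 (`TS.yfun`), `ts_dw` (wt 0 0 (-1)),   ∂_y u ∈ wt 1 7 0 ≤ K wt 0 0 (-1) (`ts_dY_uWF`, `TS.le_wt`).
* `ts_exp_wtip`: `ts_ew` × exp(-u), u ∈ wt 1 8 0 ≤ K wt 0 0 0, `TS.comp`.
* `P_lower`:   P > 0 on (0,∞), th P = P J > 0 (`th_bP`, `IsBohm.crude_pos`, `J_bounds`), so P is increasing on [a,∞) (`monotoneOn_of_deriv_nonneg`): P(Ξ) ≥ P(a) > 0.
* `bd_wtip`:   on 3/4 ≤ y ≤ 19/20:  X ∈ [39/400, 7/16];   λ² ≤ 1 so Ξ = X/λ² ≥ 39/400;    w(Ξ) = log Ξ - log P(Ξ)  (P = Ξ e^{-w}),   log Ξ = log X - 2γ log Λ  (`Real.log_div`, `Real.log_rpow`),   so 2γ log Λ + w(Ξ) = log X - log P(Ξ),   bounded because X ∈ [39/400,1], P(Ξ) ∈ [P(39/400), q-1] (`P_lower`, `P_bounds`);    |u| ≤ C (`ts_uWF`, wt 1 8 0 = 𝔍 ≤ K: `wt_JJ`, `JJ_le`).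
-/
import Claimed.Agent.R324.Core.AP.TipF

set_option autoImplicit false

namespace Claimed.Agent.R324.Core

open Set Filter Topology
open scoped ContDiff

noncomputable section

variable {D : Set (ℝ × ℝ)} {m n : ℕ} {q : ℕ} {w z : ℝ → ℝ} {t : ℝ}

theorem ap_ts_cast {q : ℝ} {a a' : ℕ} {b b' c c' : ℤ} {f : Fn} (ha : a = a') (hb : b = b')
    (hc : c = c') (h : TS q D m n (wt q a b c) f) : TS q D m n (wt q a' b' c') f := by
  subst ha hb hc
  exact h

theorem ap_sm_logLam : Sm (fun p : ℝ × ℝ => Real.log (-p.1)) :=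
  Sm.log sm_fst.neg (fun t ht _ => by
    have : 0 < -t := by linarith
    exact this.ne')

theorem BP.ap_sm_uWF (h : BP q w z) : Sm (uWF q w) :=
  (h.ts_uWF (D := ∅) (m := 0) (n := 0) (fun p hp => absurd hp (Set.notMem_empty p))
    domN_empty (by norm_num)).sm

theorem BP.sm_wtip (h : BP q w z) : Sm (wtip q w) := by
  exact ((ap_sm_logLam.const_mul (2 * gaF q)).add (sm_cmp q h.bohm.smw)).add h.ap_sm_uWF

theorem BP.dT_wtip (h : BP q w z) (ht : t < 0) (y : ℝ) :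
    dT (wtip q w) (t, y) = -gaF q * atm q 1 (bJ w) (t, y) + dT (uWF q w) (t, y) := by
  have hl : 0 < -t := by linarith
  have hA : Sm (fun p : ℝ × ℝ => 2 * gaF q * Real.log (-p.1)) :=
    ap_sm_logLam.const_mul (2 * gaF q)
  have hB : Sm (fun p : ℝ × ℝ => w (XiF q p)) := sm_cmp q h.bohm.smw
  have e0 : dT (wtip q w) (t, y) = dT (fun p : ℝ × ℝ => 2 * gaF q * Real.log (-p.1)) (t, y)
      + dT (fun p : ℝ × ℝ => w (XiF q p)) (t, y) + dT (uWF q w) (t, y) := by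
    rw [← dT_add hA hB ht y]
    exact dT_add (hA.add hB) h.ap_sm_uWF ht y
  have e1 : dT (fun p : ℝ × ℝ => 2 * gaF q * Real.log (-p.1)) (t, y)
      = 2 * gaF q * (-1 / -t) := by
    apply dT_of_hasDerivAt
    exact (((hasDerivAt_id t).neg).log hl.ne').const_mul (2 * gaF q)
  have e2 : dT (fun p : ℝ × ℝ => w (XiF q p)) (t, y)
      = atm q (0 + 1) (fun Ξ => 0 * w Ξ + gaF q * th w Ξ) (t, y) := by
    rw [← dT_atm q 0 h.bohm.smw ht y]
    exact dT_congr (fun s hs => (atm_zero q w hs y).symm) ht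
  rw [e0, e1, e2]
  unfold atm bJ
  simp only [zero_add, zero_mul]
  rw [Real.rpow_neg_one]
  field_simp
  ring

theorem BP.dY_wtip (h : BP q w z) (ht : t < 0) (y : ℝ) :
    dY (wtip q w) (t, y) = -2 * y * atm q (2 * gaF q) (deriv w) (t, y) + dY (uWF q w) (t, y) := by
  have hA : Sm (fun p : ℝ × ℝ => 2 * gaF q * Real.log (-p.1)) :=
    ap_sm_logLam.const_mul (2 * gaF q)
  have hB : Sm (fun p : ℝ × ℝ => w (XiF q p)) := sm_cmp q h.bohm.smw
  have e0 : dY (wtip q w) (t, y) = dY (fun p : ℝ × ℝ => 2 * gaF q * Real.log (-p.1)) (t, y)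
      + dY (fun p : ℝ × ℝ => w (XiF q p)) (t, y) + dY (uWF q w) (t, y) := by
    rw [← dY_add hA hB ht y]
    exact dY_add (hA.add hB) h.ap_sm_uWF ht y
  have e1 : dY (fun p : ℝ × ℝ => 2 * gaF q * Real.log (-p.1)) (t, y) = 0 :=
    dY_of_t (fun s => 2 * gaF q * Real.log (-s)) (t, y)
  have e2 : dY (fun p : ℝ × ℝ => w (XiF q p)) (t, y)
      = -2 * y * atm q (0 + 2 * gaF q) (deriv w) (t, y) := by
    rw [← dY_atm q 0 h.bohm.smw ht y]
    exact dY_congr (fun s => (atm_zero q w ht s).symm) y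
  rw [e0, e1, e2, zero_add, zero_add]

theorem BP.exp_wtip (h : BP q w z) (ht : t < 0) (y : ℝ) :
    Real.exp (-wtip q w (t, y))
      = atm q (2 * gaF q) (fun x => Real.exp (-w x)) (t, y) * Real.exp (-uWF q w (t, y)) := by
  have hl : 0 < -t := by linarith
  unfold wtip atm
  simp only []
  rw [Real.rpow_def_of_pos hl, ← Real.exp_add, ← Real.exp_add]
  congr 1
  ring

theorem BP.ts_dT_wtip (h : BP q w z) (hD : DomOK D) (hN : DomN D) (hm : m ≤ 6) :
    TS q D m n (wt q 1 7 0) (dT (wtip q w)) := by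
  have hqR := h.hqR
  have hF : IsSymb (fun x => bJ w x ^ 1 / (1 + x) ^ 0) (bJ w) := by
    have e : (fun x => bJ w x ^ 1 / (1 + x) ^ 0) = bJ w := by
      funext x
      simp
    rw [e]
    exact h.bohm.symb_J h.hq
  have h1 := h.ts_atm (m := m) (n := n) hD hN (a := 1) (e := 0) (k := 1) hF (by omega)
  have e1 : (2 * gaF (q : ℝ) * ((0 : ℕ) : ℝ) + ((1 : ℕ) : ℝ)) = 1 := by norm_num
  rw [e1] at h1
  have h1' : TS q D m n (wt q 1 7 0) (atm q 1 (bJ w)) :=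
    ap_ts_cast rfl (by norm_num) (by norm_num) h1
  have h2 : TS q D m n (wt q 1 7 0) (dT (uWF q w)) :=
    ap_ts_cast rfl (by norm_num) rfl
      (TS.dT_wt hqR hD (h.ts_uWF (m := m + 1) (n := n) hD hN (by omega)))
  exact TS.congr hD (fun t ht y => h.dT_wtip ht y) ((h1'.const_mul hD (-gaF q)).add hD h2)

theorem BP.ts_dY_wtip (h : BP q w z) (hD : DomOK D) (hN : DomN D) (hm : m ≤ 7) :
    TS q D m n (wt q 0 0 (-1)) (dY (wtip q w)) := by
  have hqR := h.hqR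
  have hφ : ContDiff ℝ ∞ (fun y : ℝ => -2 * y) := contDiff_const.mul contDiff_id
  have h1 : TS q D m n (wt q 0 0 0) (fun p => -2 * p.2) :=
    TS.one_wt.1 (TS.yfun hqR hD hφ)
  have h2 : TS q D m n (wt q 0 0 (-1)) (fun p => -2 * p.2 * atm q (2 * gaF q) (deriv w) p) :=
    ap_ts_cast rfl (by norm_num) (by norm_num) (TS.mul_wt hqR hD h1 (h.ts_dw hD hN hm))
  have h3 : TS q D m n (wt q 0 0 (-1)) (dY (uWF q w)) :=
    TS.le_wt hqR hD (Nat.zero_le 1) (by norm_num) (by norm_num) (h.ts_dY_uWF hD hN hm)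
  exact TS.congr hD (fun t ht y => h.dY_wtip ht y) (h2.add hD h3)

theorem BP.ts_exp_wtip (h : BP q w z) (hD : DomOK D) (hN : DomN D) (hm : m ≤ 7) :
    TS q D m n (wt q 0 0 (-1)) (fun p => Real.exp (-wtip q w p)) := by
  have hqR := h.hqR
  have hΨ : ContDiff ℝ ∞ (fun s : ℝ => Real.exp (-s)) := Real.contDiff_exp.comp contDiff_neg
  have h1 : TS q D m n (wt q 0 0 0) (uWF q w) :=
    TS.le_wt hqR hD (Nat.zero_le 1) le_rfl (by norm_num) (h.ts_uWF hD hN hm)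
  have h2 : TS q D m n (wt q 0 0 0) (fun p => Real.exp (-uWF q w p)) :=
    TS.one_wt.1 (TS.comp (Ψ := fun s : ℝ => Real.exp (-s)) hD hΨ (TS.one_wt.2 h1))
  have h3 : TS q D m n (wt q 0 0 (-1))
      (fun p => atm q (2 * gaF q) (fun x => Real.exp (-w x)) p * Real.exp (-uWF q w p)) :=
    ap_ts_cast rfl (by norm_num) (by norm_num) (TS.mul_wt hqR hD (h.ts_ew hD hN hm) h2)
  exact TS.congr hD (fun t ht y => h.exp_wtip ht y) h3

theorem BP.P_lower (h : BP q w z) {a : ℝ} (ha : 0 < a) : ∀ Ξ, a ≤ Ξ → bP w a ≤ bP w Ξ := by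
  have hdw : Differentiable ℝ w := h.bohm.smw.differentiable (by simp)
  have hdP : Differentiable ℝ (bP w) := fun Ξ => (th_bP (hdw Ξ)).1
  have hmono : MonotoneOn (bP w) (Ici a) := by
    apply monotoneOn_of_deriv_nonneg (convex_Ici a) hdP.continuous.continuousOn
      hdP.differentiableOn
    intro Ξ hΞ
    rw [interior_Ici] at hΞ
    have hpos : 0 < Ξ := ha.trans hΞ
    have h1 := (th_bP (hdw Ξ)).2
    obtain ⟨c1, c2, c3, c4, -⟩ := h.bohm.crude_pos h.hq hpos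
    have h2 : 0 < 2 * Ξ * deriv (bP w) Ξ := by
      rw [show 2 * Ξ * deriv (bP w) Ξ = th (bP w) Ξ from rfl, h1]
      exact mul_pos c1 (by linarith)
    by_contra hneg
    have hneg' : deriv (bP w) Ξ < 0 := not_le.1 hneg
    nlinarith
  intro Ξ hΞ
  exact hmono (mem_Ici.2 le_rfl) (mem_Ici.2 hΞ) hΞ

theorem BP.bd_wtip (h : BP q w z) (hD : DomOK D) (hN : DomN D) :
    Bd (D ∩ {p | 3 / 4 ≤ p.2 ∧ p.2 ≤ 19 / 20}) (fun _ => 1) (wtip q w) := by
  have hqR := h.hqR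
  obtain ⟨C, hC0, hC⟩ := (h.ts_uWF (m := 0) (n := 0) hD hN (by norm_num)).bd.bd0
  obtain ⟨K, hK0, hK⟩ := JJ_le hqR
  have ha : (0 : ℝ) < 39 / 400 := by norm_num
  have hPa : 0 < bP w (39 / 400) := (h.bohm.crude_pos h.hq ha).1
  refine ⟨-Real.log (39 / 400) + (|Real.log (bP w (39 / 400))| + |Real.log ((q : ℝ) - 1)|) + C * K,
    ?_, ?_⟩
  · have e1 : Real.log (39 / 400) ≤ 0 := Real.log_nonpos (by norm_num) (by norm_num)
    have e2 := abs_nonneg (Real.log (bP w (39 / 400)))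
    have e3 := abs_nonneg (Real.log ((q : ℝ) - 1))
    have e4 := mul_nonneg hC0 hK0
    linarith
  rintro p ⟨hp, hy1, hy2⟩
  obtain ⟨h1, h2, h3, h4⟩ := hD p hp
  have hl : 0 < -p.1 := by linarith
  have hX1 : 39 / 400 ≤ Xf p.2 := by
    unfold Xf
    nlinarith
  have hX2 : Xf p.2 ≤ 1 := by
    unfold Xf
    nlinarith [sq_nonneg p.2]
  have hX0 : 0 < Xf p.2 := by linarith
  have hlam0 : 0 < lam2 q p.1 := lam2_pos q h2
  have hα := bAl_bounds hqR
  have hα0 : 0 < bAl q := by linarith [hα.1]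
  have hlam1 : lam2 q p.1 ≤ 1 := by
    unfold lam2 gaF
    exact Real.rpow_le_one hl.le (by linarith) (by positivity)
  have hΞ : 39 / 400 ≤ XiF q p := by
    unfold XiF
    rw [le_div_iff₀ hlam0]
    nlinarith
  have hΞ0 : 0 < XiF q p := by linarith
  have hP1 : bP w (39 / 400) ≤ bP w (XiF q p) := h.P_lower ha _ hΞ
  have hP0 : 0 < bP w (XiF q p) := lt_of_lt_of_le hPa hP1
  have hP2 : bP w (XiF q p) ≤ (q : ℝ) - 1 := (h.bohm.P_bounds h.hq _ hΞ0.le).2.1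
  have elogP : Real.log (bP w (XiF q p)) = Real.log (XiF q p) - w (XiF q p) := by
    unfold bP
    rw [Real.log_mul hΞ0.ne' (Real.exp_pos _).ne', Real.log_exp]
    ring
  have elogΞ : Real.log (XiF q p) = Real.log (Xf p.2) - 2 * gaF q * Real.log (-p.1) := by
    unfold XiF lam2
    rw [Real.log_div hX0.ne' (Real.rpow_pos_of_pos hl _).ne', Real.log_rpow hl]
  have ew : wtip q w p = Real.log (Xf p.2) - Real.log (bP w (XiF q p)) + uWF q w p := by
    unfold wtip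
    rw [elogP, elogΞ]
    ring
  have b1 : |Real.log (Xf p.2)| ≤ -Real.log (39 / 400) := by
    rw [abs_le]
    constructor
    · rw [neg_neg]
      exact Real.log_le_log ha hX1
    · have e1 : Real.log (Xf p.2) ≤ 0 := Real.log_nonpos hX0.le hX2
      have e2 : Real.log (39 / 400) ≤ 0 := Real.log_nonpos (by norm_num) (by norm_num)
      linarith
  have b2 : |Real.log (bP w (XiF q p))|
      ≤ |Real.log (bP w (39 / 400))| + |Real.log ((q : ℝ) - 1)| := by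
    have e1 : Real.log (bP w (39 / 400)) ≤ Real.log (bP w (XiF q p)) := Real.log_le_log hPa hP1
    have e2 : Real.log (bP w (XiF q p)) ≤ Real.log ((q : ℝ) - 1) := Real.log_le_log hP0 hP2
    rw [abs_le]
    constructor
    · have := neg_abs_le (Real.log (bP w (39 / 400)))
      have := abs_nonneg (Real.log ((q : ℝ) - 1))
      linarith
    · have := le_abs_self (Real.log ((q : ℝ) - 1))
      have := abs_nonneg (Real.log (bP w (39 / 400)))
      linarith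
  have b3 : |uWF q w p| ≤ C * K := by
    refine (hC p hp).trans (mul_le_mul_of_nonneg_left ?_ hC0)
    rw [wt_JJ]
    exact hK D hD p hp
  rw [ew, mul_one]
  calc |Real.log (Xf p.2) - Real.log (bP w (XiF q p)) + uWF q w p|
      ≤ |Real.log (Xf p.2) - Real.log (bP w (XiF q p))| + |uWF q w p| := abs_add_le _ _
    _ ≤ |Real.log (Xf p.2)| + |Real.log (bP w (XiF q p))| + |uWF q w p| := by
        gcongr
        exact abs_sub _ _
    _ ≤ _ := by linarith

end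

end Claimed.Agent.R324.Core
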