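/-
Row 324 (S0582), PDE core, module AP (architect helper263), file BgA0:  FROM NORTHERN DOMAINS TO ALL DOMAINS.
The atoms and the tip functions (Atm*, Tip*) are symbols only on northern domains (`DomN D`: -1/2 ≤ y).   The coefficients of bgA carry the cut-off ψ₁(y) (= 0 for y ≤ 3/4), so they are symbols on every admissible domain.
Tools: `TY.union`, `TY.subset` (Cal/ClsB), `TY.of_ev_zero`, `TY.congr_ev` (Cal/ClsC), `TS.mul`, `TS.yfun` (Cal/Alg, CompC), `sm_of_y`, `Sm.mul` (PR/Sm.lean).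

* `ev_zero_south`:  the set {p | p.1 < 0 ∧ p.2 < 3/4} is open (`(isOpen_lt continuous_fst continuous_const).inter (isOpen_lt continuous_snd continuous_const)`) and contains p;  `Filter.eventually_of_mem (IsOpen.mem_nhds ..)`.
* `TS.of_north`:  D = (D ∩ {1/2 ≤ y}) ∪ (D ∩ {y < 1/2})  (`Set.ext`, `le_or_gt`);   rewrite D (e.g. `have e : D = … ; rw [e]` or prove `TY q (D₁ ∪ D₂)` and transport by `TY.subset`: D ⊆ D₁ ∪ D₂);   `TY.union` (DomOK (D₁ ∪ D₂) by `DomOK.subset`, D₁ ∪ D₂ ⊆ D);   on D₂: `TY.of_ev_zero` with `ev_zero_south` (t < 0 from hD, y < 1/2 < 3/4).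
* `TS.psi_mul`:  Sm: `(sm_of_y hφ).mul h.sm`;   vanishing: φ y = 0;   on D₁ = D ∩ {1/2 ≤ y} (`DomOK.subset hD inter_subset_left`):  φ(y) ∈ TS 1 (`TS.yfun`), `TS.mul` gives the weight 1 * ϱ: `TS.congr_wt` (one_mul).
-/
import Claimed.Agent.R324.Core.AP.TipG

set_option autoImplicit false

namespace Claimed.Agent.R324.Core

open Set Filter Topology
open scoped ContDiff

noncomputable section

variable {q : ℝ} {D : Set (ℝ × ℝ)} {m n : ℕ} {ϱ f : Fn}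

theorem ev_zero_south (hz : ∀ t < 0, ∀ y < (3 / 4 : ℝ), f (t, y) = 0) {p : ℝ × ℝ} (h1 : p.1 < 0)
    (h2 : p.2 < 3 / 4) : f =ᶠ[𝓝 p] fun _ => 0 := by
  have ho : IsOpen ({x : ℝ × ℝ | x.1 < 0} ∩ {x : ℝ × ℝ | x.2 < 3 / 4}) :=
    (isOpen_lt continuous_fst continuous_const).inter (isOpen_lt continuous_snd continuous_const)
  refine Filter.eventually_of_mem (ho.mem_nhds ⟨h1, h2⟩) ?_
  rintro ⟨t, y⟩ ⟨ht, hy⟩
  exact hz t ht y hy

theorem TS.of_north (hq : 100 ≤ q) (hD : DomOK D) (h0 : ∀ p ∈ D, 0 ≤ ϱ p) (hf : Sm f)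
    (hz : ∀ t < 0, ∀ y < (3 / 4 : ℝ), f (t, y) = 0)
    (h : TY q (D ∩ {p | 1 / 2 ≤ p.2}) m n ϱ f) : TS q D m n ϱ f := by
  refine ⟨hf, ?_⟩
  have hsub : (D ∩ {p | 1 / 2 ≤ p.2}) ∪ (D ∩ {p | p.2 < 1 / 2}) ⊆ D :=
    union_subset inter_subset_left inter_subset_left
  have hsup : D ⊆ (D ∩ {p | 1 / 2 ≤ p.2}) ∪ (D ∩ {p | p.2 < 1 / 2}) := by
    intro p hp
    rcases le_or_gt (1 / 2 : ℝ) p.2 with h' | h'
    · exact Or.inl ⟨hp, h'⟩
    · exact Or.inr ⟨hp, h'⟩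
  have h2 : TY q (D ∩ {p | p.2 < 1 / 2}) m n ϱ f := by
    refine TY.of_ev_zero (fun p hp => ?_)
    have hp2 : p.2 < 1 / 2 := hp.2
    exact ev_zero_south hz (hD p hp.1).2.1 (by linarith)
  exact (TY.union (by linarith) (hD.subset hsub) (fun p hp => h0 p (hsub hp)) h h2).subset hsup

theorem TS.psi_mul (hq : 100 ≤ q) (hD : DomOK D) (h0 : ∀ p ∈ D, 0 ≤ ϱ p) {φ : ℝ → ℝ}
    (hφ : ContDiff ℝ ∞ φ) (hφ0 : ∀ y < (3 / 4 : ℝ), φ y = 0)
    (h : TS q (D ∩ {p | 1 / 2 ≤ p.2}) m n ϱ f) : TS q D m n ϱ (fun p => φ p.2 * f p) := by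
  have hD1 : DomOK (D ∩ {p | 1 / 2 ≤ p.2}) := hD.subset inter_subset_left
  refine TS.of_north hq hD h0 ((sm_of_y hφ).mul h.sm) (fun t _ y hy => ?_) ?_
  · show φ y * f (t, y) = 0
    rw [hφ0 y hy, zero_mul]
  · exact (((TS.yfun hq hD1 hφ).mul hD1 h).congr_wt (fun p _ => one_mul _)).bd

end

end Claimed.Agent.R324.Core
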