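/-
Row 324 (S0582), PDE core, module AP (architect helper263), file BgA1:  (A1) smoothness, (A2) bgA is round for y ≤ 3/4, (A10) the tip;  GLOBAL symbol bounds of B and W.      g = bgA q w z (Core/AP/Defs.lean).
Northern part of D:  D₁ = D ∩ {p | 1/2 ≤ p.2};   `DomOK.subset hD inter_subset_left`,  `domN_inter D (by norm_num)` (AtmA).      Weights: `wt_pos`/`wt_nonneg` (Cal/WtA).

* `bgA_sm`:  smB: `(sm_of_y psi1_contDiff).mul (h.ts_Btip domOK_empty domN_empty (m := 0) (n := 0) (by norm_num)).sm`;   smw: ψ₁(y) * w_tip, `sm_wtip`;   smW: `(ts_WA ..).sm` with D = ∅;   pos: `bgA_pos`.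
* `bgA_out`: ψ₁(y) = 0 for y ≤ 3/4 (`psi1_eq_zero`);  psY1 y = 0/y = 0, psY2 y = 0;  unfold bgA WA; simp.
* `bgA_tip`: ψ₁(1) = 1 (`psi1_eq_one`), Xf 1 = 0, XiF q (t,1) = 0/λ² = 0, w 0 = 0 (`IsBohm.w0`), uWF (t,1) = 0 * _ = 0.
* `gts_B`:   `TS.psi_mul` (BgA0) with φ = psi1, f = Btip, `ts_Btip` on D₁.
* `gts_W`:   `TS.of_north` with `ts_WA` on D₁;  WA (t,y) = 0 for y < 3/4 (`bgA_out`).
* `g_den_lower`:  `bgA_den_lower` on D₁ gives c₁;  c = min c₁ 1;  for p ∈ D with p.2 < 1/2:  B = 0 (`bgA_out`), value 1.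
-/
import Claimed.Agent.R324.Core.AP.BgA0

set_option autoImplicit false

namespace Claimed.Agent.R324.Core

open Set Filter Topology
open scoped ContDiff

noncomputable section

variable {D : Set (ℝ × ℝ)} {m n : ℕ} {q : ℕ} {w z : ℝ → ℝ}

theorem domOK_empty : DomOK ∅ := fun _ hp => absurd hp (Set.notMem_empty _)

theorem BP.bgA_sm (h : BP q w z) : BgSm (bgA q w z) := by
  refine ⟨?_, ?_, ?_, fun t _ y => bgA_pos q w z (t, y)⟩
  · exact (sm_of_y psi1_contDiff).mul (h.ts_Btip domOK_empty domN_empty (m := 0) (n := 0) (by norm_num)).sm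
  · exact (sm_of_y psi1_contDiff).mul h.sm_wtip
  · exact (h.ts_WA domOK_empty domN_empty (m := 0) (n := 0) (by norm_num)).sm

theorem bgA_out (q : ℝ) (w z : ℝ → ℝ) : ∀ t < 0, ∀ y ≤ (3 / 4 : ℝ),
    (bgA q w z).B (t, y) = 0 ∧ (bgA q w z).w (t, y) = 0 ∧ (bgA q w z).W (t, y) = 0 := by
  intro t _ y hy
  have h0 : psi1 y = 0 := psi1_eq_zero hy
  refine ⟨?_, ?_, ?_⟩
  · show psi1 y * Btip q z (t, y) = 0
    rw [h0, zero_mul]
  · show psi1 y * wtip q w (t, y) = 0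
    rw [h0, zero_mul]
  · show WA q w z (t, y) = 0
    unfold WA psY1 psY2
    simp only [h0]
    simp

theorem BP.bgA_tip (h : BP q w z) : ∀ t < 0, (bgA q w z).w (t, 1) = 2 * gaF q * Real.log (-t) := by
  intro t _
  show psi1 1 * wtip q w (t, 1) = 2 * gaF q * Real.log (-t)
  have hX : Xf 1 = 0 := by unfold Xf; norm_num
  have hXi : XiF q (t, 1) = 0 := by
    unfold XiF
    simp only [hX, zero_div]
  rw [psi1_eq_one (by norm_num), one_mul]
  unfold wtip uWF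
  simp only [hXi, hX, h.bohm.w0, zero_mul, add_zero]

theorem BP.gts_B (h : BP q w z) (hD : DomOK D) (hm : m ≤ 7) :
    TS q D m n (wt q 0 0 (-1)) (bgA q w z).B := by
  exact TS.psi_mul h.hqR hD (fun p hp => (wt_pos h.hqR hD hp).le) psi1_contDiff
    (fun y hy => psi1_eq_zero hy.le)
    (h.ts_Btip (DomOK.subset hD Set.inter_subset_left) (domN_inter D (by norm_num)) hm)

theorem BP.gts_W (h : BP q w z) (hD : DomOK D) (hm : m ≤ 7) :
    TS q D m n (wt q 1 7 0) (bgA q w z).W := by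
  exact TS.of_north h.hqR hD (fun p hp => (wt_pos h.hqR hD hp).le) h.bgA_sm.smW
    (fun t ht y hy => (bgA_out q w z t ht y hy.le).2.2)
    (h.ts_WA (DomOK.subset hD Set.inter_subset_left) (domN_inter D (by norm_num)) hm).bd

theorem BP.g_den_lower (h : BP q w z) (hD : DomOK D) :
    ∃ c : ℝ, 0 < c ∧ ∀ p ∈ D, c ≤ 1 + Xf p.2 * (bgA q w z).B p := by
  obtain ⟨c₁, hc₁, hc⟩ := h.bgA_den_lower (D := D ∩ {p | 1 / 2 ≤ p.2}) (DomOK.subset hD Set.inter_subset_left)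
    (domN_inter D (by norm_num))
  refine ⟨min c₁ 1, lt_min hc₁ one_pos, fun p hp => ?_⟩
  rcases le_or_gt (1 / 2) p.2 with hy | hy
  · exact (min_le_left _ _).trans (hc p ⟨hp, hy⟩)
  · have hB : (bgA q w z).B p = 0 := (bgA_out q w z p.1 (hD p hp).2.1 p.2 (by linarith)).1
    rw [hB, mul_zero, add_zero]
    exact min_le_right _ _

end

end Claimed.Agent.R324.Core
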