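/-
Row 324 (S0582), PDE core, module AP (architect helper263), file BgA2:  GLOBAL symbol bounds of the coefficient  g.w = ψ₁(y) w_tip  of g = bgA q w z.     D admissible (`DomOK D`, no northern condition), n arbitrary, m ≤ 6.
w_tip is unbounded near the tip (log), only ∂_y w, ∂_t w, e^{-w} are symbols.     ψ₁ = 0 for y ≤ 3/4, ψ₁ = 1 for y ≥ 19/20.     mid := {3/4 ≤ y ≤ 19/20}.
The tip lemmas (TipC-TipG) need a NORTHERN domain (`DomN`): use them on D ∩ {1/2 ≤ y} (`domN_inter`), D ∩ mid, D ∩ {19/20 < y} (`domN_inter_lt`), all ⊆ D (`DomOK.subset`).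
Technique: D = (D ∩ mid) ∪ (D ∩ {y < 3/4}) ∪ (D ∩ {19/20 < y});   `TY.union` (weights wt ≥ 0: `wt_pos`);   on the two open pieces use `TY.congr_ev` (the function is eventually equal to a simpler one near every point: {p | p.2 < 3/4}, {p | 19/20 < p.2} are open: `isOpen_lt continuous_snd continuous_const`…).     `TS.psi_mul`, `TS.of_north` (BgA0).

* `ts_bgA_dTw`:  dT (ψ₁(y) w_tip) = ψ₁(y) dT w_tip on t < 0 (`dT_y_mul`, PR/Sm.lean);  `TS.psi_mul` with `ts_dT_wtip` on D ∩ {1/2 ≤ y};  `TS.congr`.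
* `ty_wtip_mid`:  TY on D ∩ mid (northern) with weight 1 = wt 0 0 0.    Recursion lemmas:  TY 0 (n+1): `bd_wtip` + `ts_dY_wtip` (restricted: `TY.subset`), wt 0 0 (-1) = (wt 0 0 0)/R (`wt_div_rh2`);  n = 0: `bd_wtip`.     TY (m+1) n: + `ts_dT_wtip` ∈ wt 1 7 0 ≤ K wt 0 (-1) 0 = (wt 0 0 0)/Θ  (`TS.le_wt`: da = 1, db = 8; `wt_div_Th`).     (Induct on nothing: `TY_succ_iff` once, since dT w_tip is already in TY m n.)     `bd_wtip` is stated for (D') ∩ mid with D' northern: take D' = D ∩ {1/2 ≤ y} and note D ∩ mid ⊆ D' ∩ mid.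
* `ty_dpsi_wtip`:  ψ₁'(y) w_tip ∈ TY (wt 0 0 0) on D:   on D ∩ mid: `TY.mul` (`TY.yfun` for deriv psi1, `ty_wtip_mid`);   for y < 3/4 or y > 19/20:  ψ₁ is constant near y, so deriv psi1 = 0 near y and the product is eventually 0 (`TY.of_ev_zero`).
* `ts_bgA_wp`:   dY (ψ₁ w_tip) = ψ₁' w_tip + ψ₁ dY w_tip on t < 0 (`dY_mul`; dY (fun p => psi1 p.2) = deriv psi1);   first term ∈ wt 0 0 0 ≤ K wt 0 0 (-1), second: `TS.psi_mul` with `ts_dY_wtip`.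
* `ts_bgA_ew`:   y < 3/4: g.w = 0 near p, e^{-g.w} = 1 (`TY.const`, 1 = wt 0 0 0 ≤ K wt 0 0 (-1));    y > 19/20: g.w = w_tip near p: `ts_exp_wtip` on D ∩ {19/20 < y};     mid: g.w = ψ₁ w_tip ∈ TY (wt 0 0 0) (`TY.mul`), `TY.comp` with Ψ s = exp (-s).     Sm: `Sm.exp`, `bgA_sm`.
-/
import Claimed.Agent.R324.Core.AP.BgA1

set_option autoImplicit false

namespace Claimed.Agent.R324.Core

open Set Filter Topology
open scoped ContDiff

noncomputable section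

variable {D : Set (ℝ × ℝ)} {m n : ℕ} {q : ℕ} {w z : ℝ → ℝ}

/-! ### helpers -/

theorem ap_dpsi1_contDiff : ContDiff ℝ ∞ (deriv psi1) :=
  (contDiff_infty_iff_deriv.1 psi1_contDiff).2

theorem ap_dpsi1_lo {y : ℝ} (hy : y < 3 / 4) : deriv psi1 y = 0 := by
  have h1 : psi1 =ᶠ[𝓝 y] fun _ => (0 : ℝ) :=
    Filter.eventually_of_mem (Iio_mem_nhds hy) fun x hx => psi1_eq_zero (le_of_lt hx)
  rw [h1.deriv_eq]
  exact deriv_const _ _

theorem ap_dpsi1_hi {y : ℝ} (hy : 19 / 20 < y) : deriv psi1 y = 0 := by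
  have h1 : psi1 =ᶠ[𝓝 y] fun _ => (1 : ℝ) :=
    Filter.eventually_of_mem (Ioi_mem_nhds hy) fun x hx => psi1_eq_one (le_of_lt hx)
  rw [h1.deriv_eq]
  exact deriv_const _ _

theorem ap_nhds_lo {p : ℝ × ℝ} (hp : p.2 < 3 / 4) : {x : ℝ × ℝ | x.2 < 3 / 4} ∈ 𝓝 p :=
  (isOpen_lt continuous_snd continuous_const).mem_nhds hp

theorem ap_nhds_hi {p : ℝ × ℝ} (hp : 19 / 20 < p.2) : {x : ℝ × ℝ | 19 / 20 < x.2} ∈ 𝓝 p :=
  (isOpen_lt continuous_const continuous_snd).mem_nhds hp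

/-- splitting of an admissible domain in `mid`, south and north. -/
theorem ap_ty_split {Q : ℝ} {ϱ f : Fn} (hq : 1 < Q) (hD : DomOK D) (h0 : ∀ p ∈ D, 0 ≤ ϱ p)
    (h1 : TY Q (D ∩ {p | 3 / 4 ≤ p.2 ∧ p.2 ≤ 19 / 20}) m n ϱ f)
    (h2 : TY Q (D ∩ {p | p.2 < 3 / 4}) m n ϱ f)
    (h3 : TY Q (D ∩ {p | 19 / 20 < p.2}) m n ϱ f) : TY Q D m n ϱ f := by
  have s12 : (D ∩ {p | 3 / 4 ≤ p.2 ∧ p.2 ≤ 19 / 20}) ∪ (D ∩ {p | p.2 < 3 / 4}) ⊆ D :=
    union_subset inter_subset_left inter_subset_left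
  have s123 : ((D ∩ {p | 3 / 4 ≤ p.2 ∧ p.2 ≤ 19 / 20}) ∪ (D ∩ {p | p.2 < 3 / 4}))
      ∪ (D ∩ {p | 19 / 20 < p.2}) ⊆ D := union_subset s12 inter_subset_left
  have u12 := TY.union hq (hD.subset s12) (fun p hp => h0 p (s12 hp)) h1 h2
  have u123 := TY.union hq (hD.subset s123) (fun p hp => h0 p (s123 hp)) u12 h3
  refine u123.subset fun p hp => ?_
  rcases lt_or_ge p.2 (3 / 4) with h | h
  · exact Or.inl (Or.inr ⟨hp, h⟩)
  · rcases le_or_gt p.2 (19 / 20) with h' | h'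
    · exact Or.inl (Or.inl ⟨hp, h, h'⟩)
    · exact Or.inr ⟨hp, h'⟩

theorem ap_domN_mid (D : Set (ℝ × ℝ)) : DomN (D ∩ {p | 3 / 4 ≤ p.2 ∧ p.2 ≤ 19 / 20}) := by
  intro p hp
  have h1 : (3 / 4 : ℝ) ≤ p.2 := hp.2.1
  linarith

theorem BP.ap_one_le_wt (h : BP q w z) :
    ∃ K : ℝ, 0 ≤ K ∧ ∀ D : Set (ℝ × ℝ), DomOK D → ∀ p ∈ D, (1 : ℝ) ≤ K * wt q 0 0 (-1) p := by
  obtain ⟨K, hK, hle⟩ := wt_le (q := (q : ℝ)) (a := 0) (a' := 0) (b := 0) (b' := 0) (c := -1) (c' := 0)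
    h.hqR le_rfl (by norm_num) (by norm_num)
  refine ⟨K, hK, fun D hD p hp => ?_⟩
  have := hle D hD p hp
  rwa [wt_zero] at this

theorem BP.ap_sm_gw (h : BP q w z) : Sm (bgA q w z).w :=
  (sm_of_y psi1_contDiff).mul h.sm_wtip

/-! ### the five lemmas -/

theorem BP.ts_bgA_dTw (h : BP q w z) (hD : DomOK D) (hm : m ≤ 6) :
    TS q D m n (wt q 1 7 0) (dT (bgA q w z).w) := by
  have h1 : TS q (D ∩ {p | 1 / 2 ≤ p.2}) m n (wt q 1 7 0) (dT (wtip q w)) :=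
    h.ts_dT_wtip (hD.subset inter_subset_left) (domN_inter D (by norm_num)) hm
  have h2 := TS.psi_mul h.hqR hD (fun p hp => (wt_pos h.hqR hD hp).le) psi1_contDiff
    (fun y hy => psi1_eq_zero hy.le) h1
  exact TS.congr (g := fun p => psi1 p.2 * dT (wtip q w) p) hD
    (fun t ht y => dT_y_mul psi1 h.sm_wtip ht y) h2

theorem BP.ty_wtip_mid (h : BP q w z) (hD : DomOK D) (hm : m ≤ 6) :
    TY q (D ∩ {p | 3 / 4 ≤ p.2 ∧ p.2 ≤ 19 / 20}) m n (wt q 0 0 0) (wtip q w) := by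
  have hDm : DomOK (D ∩ {p | 3 / 4 ≤ p.2 ∧ p.2 ≤ 19 / 20}) := hD.subset inter_subset_left
  have hNm := ap_domN_mid D
  have hbd : Bd (D ∩ {p | 3 / 4 ≤ p.2 ∧ p.2 ≤ 19 / 20}) (wt q 0 0 0) (wtip q w) := by
    have hsub : D ∩ {p | 3 / 4 ≤ p.2 ∧ p.2 ≤ 19 / 20} ⊆
        (D ∩ {p | 3 / 4 ≤ p.2 ∧ p.2 ≤ 19 / 20}) ∩ {p | 3 / 4 ≤ p.2 ∧ p.2 ≤ 19 / 20} :=
      fun p hp => ⟨hp, hp.2⟩
    have b1 := (h.bd_wtip hDm hNm).subset hsub
    exact b1.mono_wt (K := 1) zero_le_one (fun p _ => by rw [wt_zero, mul_one])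
  have hA : ∀ n : ℕ, TY q (D ∩ {p | 3 / 4 ≤ p.2 ∧ p.2 ≤ 19 / 20}) 0 n (wt q 0 0 0) (wtip q w) := by
    intro n
    cases n with
    | zero => exact TY_zero_zero_iff.2 hbd
    | succ n =>
      refine TY_zero_succ_iff.2 ⟨hbd, ?_⟩
      refine (h.ts_dY_wtip hDm hNm (m := 0) (n := n) (by norm_num)).bd.congr_wt fun p hp => ?_
      rw [wt_div_rh2 h.hqR hDm hp]
      norm_num
  cases m with
  | zero => exact hA n
  | succ m =>
    refine TY_succ_iff.2 ⟨hA n, ?_⟩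
    have h1 : TS q (D ∩ {p | 3 / 4 ≤ p.2 ∧ p.2 ≤ 19 / 20}) m n (wt q 0 (-1) 0) (dT (wtip q w)) :=
      TS.le_wt h.hqR hDm (Nat.zero_le 1) le_rfl (by norm_num)
        (h.ts_dT_wtip hDm hNm (m := m) (n := n) (by omega))
    refine h1.bd.congr_wt fun p hp => ?_
    rw [wt_div_Th h.hqR hDm hp]
    norm_num

theorem BP.ty_dpsi_wtip (h : BP q w z) (hD : DomOK D) (hm : m ≤ 6) :
    TY q D m n (wt q 0 0 0) (fun p => deriv psi1 p.2 * wtip q w p) := by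
  have hq1 : (1 : ℝ) < q := by linarith [h.hqR]
  refine ap_ty_split hq1 hD (fun p hp => (wt_pos h.hqR hD hp).le) ?_ ?_ ?_
  · have hDm : DomOK (D ∩ {p | 3 / 4 ≤ p.2 ∧ p.2 ≤ 19 / 20}) := hD.subset inter_subset_left
    have h1 := TY.mul hDm (sm_of_y ap_dpsi1_contDiff) h.sm_wtip
      (TY.yfun (m := m) (n := n) h.hqR hDm ap_dpsi1_contDiff) (h.ty_wtip_mid (n := n) hD hm)
    exact h1.congr_wt fun p _ => one_mul _
  · refine TY.of_ev_zero fun p hp => ?_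
    refine Filter.eventually_of_mem (ap_nhds_lo hp.2) fun x hx => ?_
    show deriv psi1 x.2 * wtip q w x = 0
    rw [ap_dpsi1_lo hx, zero_mul]
  · refine TY.of_ev_zero fun p hp => ?_
    refine Filter.eventually_of_mem (ap_nhds_hi hp.2) fun x hx => ?_
    show deriv psi1 x.2 * wtip q w x = 0
    rw [ap_dpsi1_hi hx, zero_mul]

theorem BP.ts_bgA_wp (h : BP q w z) (hD : DomOK D) (hm : m ≤ 6) :
    TS q D m n (wt q 0 0 (-1)) (dY (bgA q w z).w) := by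
  have h1 : TS q D m n (wt q 0 0 (-1)) (fun p => deriv psi1 p.2 * wtip q w p) :=
    TS.le_wt h.hqR hD le_rfl (by norm_num) (by norm_num)
      ⟨(sm_of_y ap_dpsi1_contDiff).mul h.sm_wtip, h.ty_dpsi_wtip hD hm⟩
  have h2 : TS q (D ∩ {p | 1 / 2 ≤ p.2}) m n (wt q 0 0 (-1)) (dY (wtip q w)) :=
    h.ts_dY_wtip (hD.subset inter_subset_left) (domN_inter D (by norm_num)) (by omega)
  have h3 := TS.psi_mul h.hqR hD (fun p hp => (wt_pos h.hqR hD hp).le) psi1_contDiff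
    (fun y hy => psi1_eq_zero hy.le) h2
  refine TS.congr (g := fun p => deriv psi1 p.2 * wtip q w p + psi1 p.2 * dY (wtip q w) p) hD
    (fun t ht y => ?_) (h1.add hD h3)
  exact dY_mul (sm_of_y psi1_contDiff) h.sm_wtip ht y

theorem BP.ts_bgA_ew (h : BP q w z) (hD : DomOK D) (hm : m ≤ 6) :
    TS q D m n (wt q 0 0 (-1)) (fun p => Real.exp (-(bgA q w z).w p)) := by
  have hq1 : (1 : ℝ) < q := by linarith [h.hqR]
  obtain ⟨K, hK, hle⟩ := h.ap_one_le_wt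
  refine ⟨h.ap_sm_gw.neg.exp, ?_⟩
  refine ap_ty_split hq1 hD (fun p hp => (wt_pos h.hqR hD hp).le) ?_ ?_ ?_
  · have hDm : DomOK (D ∩ {p | 3 / 4 ≤ p.2 ∧ p.2 ≤ 19 / 20}) := hD.subset inter_subset_left
    have h1 := TY.mul hDm (sm_of_y psi1_contDiff) h.sm_wtip
      (TY.yfun (m := m) (n := n) h.hqR hDm psi1_contDiff) (h.ty_wtip_mid (n := n) hD hm)
    have h2 : TY q (D ∩ {p | 3 / 4 ≤ p.2 ∧ p.2 ≤ 19 / 20}) m n (fun _ => 1) (bgA q w z).w :=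
      h1.congr_wt fun p _ => by rw [wt_zero, one_mul]
    have hΨ : ContDiff ℝ ∞ (fun s : ℝ => Real.exp (-s)) := Real.contDiff_exp.comp contDiff_neg
    exact (TY.comp hDm hΨ h.ap_sm_gw h2).mono_wt hq1 hDm hK (fun p hp => hle _ hDm p hp)
  · have hDs : DomOK (D ∩ {p | p.2 < 3 / 4}) := hD.subset inter_subset_left
    have h1 : TY q (D ∩ {p | p.2 < 3 / 4}) m n (fun _ => 1)
        (fun p => Real.exp (-(bgA q w z).w p)) := by
      refine TY.congr_ev (g := fun _ => (1 : ℝ)) (fun p hp => ?_) (TY.const 1)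
      refine Filter.eventually_of_mem (ap_nhds_lo hp.2) fun x hx => ?_
      show Real.exp (-(psi1 x.2 * wtip q w x)) = 1
      rw [psi1_eq_zero (le_of_lt hx), zero_mul, neg_zero, Real.exp_zero]
    exact h1.mono_wt hq1 hDs hK (fun p hp => hle _ hDs p hp)
  · have hDn : DomOK (D ∩ {p | 19 / 20 < p.2}) := hD.subset inter_subset_left
    refine TY.congr_ev (g := fun p => Real.exp (-wtip q w p)) (fun p hp => ?_)
      (h.ts_exp_wtip hDn (domN_inter_lt D (by norm_num)) (by omega)).bd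
    refine Filter.eventually_of_mem (ap_nhds_hi hp.2) fun x hx => ?_
    show Real.exp (-(psi1 x.2 * wtip q w x)) = Real.exp (-wtip q w x)
    rw [psi1_eq_one (le_of_lt hx), one_mul]

end

end Claimed.Agent.R324.Core
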