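/-
Row 324 (S0582), PDE core, module AP (architect helper263), file BgA3:  the sharper bound  ∂_t B = O(𝔍/(r̂² Θ)) = wt 1 7 (-1).      g = bgA q w z.     D admissible and NORTHERN (`DomOK D`, `DomN D`; pass both to the Tip lemmas), n arbitrary, m ≤ 5.

* `ts_dT_ze1`:   ze1 = atm (2γ) l + uZ1.     dT (atm (2γ) l) = atm (2γ+1) (2γ l + γ th l) on t < 0 (`dT_atm`),   2γ l + γ th l = γ (2 l + th l) ∈ IsSymb (J/(1+Ξ)) (`prof_l2`, `IsSymb.const_mul`);   `ts_atm` with a = 1, e = 1, k = 1:  wt 1 (8-1) (-1)   (2γ*1+1 = 2γ+1; needs 1 + m ≤ 8; the weight J^1/(1+Ξ)^1: rewrite by funext/simp);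
                 dT uZ1 ∈ wt 1 (7-1) 0 (`TS.dT_wt`, `ts_uZ1` of order m+1) ≤ K wt 1 7 (-1)  (`TS.le_wt`: da = 0, db = -1, dc = 1).        `dT_add`, `TS.congr`.
* `dT_Btip`:     chain rule on t < 0  (X does not depend on t):   ζ = X ζ₁,  dT ζ = X dT ζ₁ (`dT_y_mul`);    dT (Φ₁(ζ)) = Φ₁'(ζ) dT ζ (`dT_comp`),  dT (exp(-ζ)) = -exp(-ζ) dT ζ;
                 dT B_tip = -(dT ζ₁) Φ₁(ζ) - ζ₁ Φ₁'(ζ) X dT ζ₁ + exp(-ζ) X dT ζ₁ = ( -Φ₁(ζ) - ζ Φ₁'(ζ) + X exp(-ζ) ) dT ζ₁.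
* `ts_dT_Btip`:  the bracket is in TS (wt 0 0 0):  `ts_zeF`, `TS.comp` with Ψ = Ph1, deriv Ph1 (smooth: `contDiff_infty_iff_deriv`), exp∘neg;  X ∈ wt 0 1 0 ≤ K wt 0 0 0.     Times `ts_dT_ze1`.
* `ts_dT_bgA_B` (GLOBAL, no northern condition): dT (ψ₁(y) B_tip) = ψ₁(y) dT B_tip (`dT_y_mul`; `TS.congr`);   `TS.psi_mul` (BgA0) with `ts_dT_Btip` on D ∩ {1/2 ≤ y} (`DomOK.subset hD inter_subset_left`, `domN_inter D (by norm_num)`).
-/
import Claimed.Agent.R324.Core.AP.BgA1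

set_option autoImplicit false

namespace Claimed.Agent.R324.Core

open Set Filter Topology
open scoped ContDiff

noncomputable section

variable {D : Set (ℝ × ℝ)} {m n : ℕ} {q : ℕ} {w z : ℝ → ℝ} {t : ℝ}

theorem BP.ap_contDiff_bl (h : BP q w z) : ContDiff ℝ ∞ (bl z) := (h.bohm.symb_bl h.hq h.pos).1

theorem BP.ap_sm_uZ1 (h : BP q w z) : Sm (uZ1 q z) :=
  (h.ts_uZ1 (D := ∅) (m := 0) (n := 0) domOK_empty domN_empty (by norm_num)).sm

theorem BP.ap_sm_ze1 (h : BP q w z) : Sm (ze1 q z) :=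
  (sm_atm q (2 * gaF q) h.ap_contDiff_bl).add h.ap_sm_uZ1

theorem BP.ap_sm_Btip (h : BP q w z) : Sm (Btip q z) :=
  (h.ts_Btip (D := ∅) (m := 0) (n := 0) domOK_empty domN_empty (by norm_num)).sm

theorem BP.ts_dT_ze1 (h : BP q w z) (hD : DomOK D) (hN : DomN D) (hm : m ≤ 5) :
    TS q D m n (wt q 1 7 (-1)) (dT (ze1 q z)) := by
  have hqR := h.hqR
  have hl : ContDiff ℝ ∞ (bl z) := h.ap_contDiff_bl
  have hF : IsSymb (fun x => bJ w x ^ 1 / (1 + x) ^ 1)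
      (fun Ξ => 2 * gaF q * bl z Ξ + gaF q * th (bl z) Ξ) :=
    ap_isSymb_congr (h.prof_l2.const_mul (gaF q)) (fun x => by simp) (fun x => by ring)
  have h1 := h.ts_atm (m := m) (n := n) hD hN (a := 1) (e := 1) (k := 1) hF (by omega)
  have e1 : (2 * gaF (q : ℝ) * ((1 : ℕ) : ℝ) + ((1 : ℕ) : ℝ)) = 2 * gaF q + 1 := by norm_num
  rw [e1] at h1
  have h1' : TS q D m n (wt q 1 7 (-1))
      (atm q (2 * gaF q + 1) (fun Ξ => 2 * gaF q * bl z Ξ + gaF q * th (bl z) Ξ)) :=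
    ap_ts_cast rfl (by norm_num) (by norm_num) h1
  have h2 : TS q D m n (wt q 1 6 0) (dT (uZ1 q z)) :=
    ap_ts_cast rfl (by norm_num) rfl
      (TS.dT_wt hqR hD (h.ts_uZ1 (m := m + 1) (n := n) hD hN (by omega)))
  have h2' : TS q D m n (wt q 1 7 (-1)) (dT (uZ1 q z)) :=
    TS.le_wt hqR hD le_rfl (by norm_num) (by norm_num) h2
  refine TS.congr hD (fun t ht y => ?_) (h1'.add hD h2')
  rw [← dT_atm q (2 * gaF q) hl ht y]
  exact dT_add (sm_atm q (2 * gaF q) hl) h.ap_sm_uZ1 ht y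

theorem BP.dT_Btip (h : BP q w z) (ht : t < 0) (y : ℝ) :
    dT (Btip q z) (t, y) = (-Ph1 (zeF q z (t, y)) - zeF q z (t, y) * deriv Ph1 (zeF q z (t, y))
      + Xf y * Real.exp (-zeF q z (t, y))) * dT (ze1 q z) (t, y) := by
  have hz1 : HasDerivAt (fun s => ze1 q z (s, y)) (dT (ze1 q z) (t, y)) t :=
    h.ap_sm_ze1.hasDerivAt_t ht y
  have hzF : HasDerivAt (fun s => zeF q z (s, y)) (Xf y * dT (ze1 q z) (t, y)) t :=
    hz1.const_mul (Xf y)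
  have hdP : Differentiable ℝ Ph1 := ph1_contDiff.differentiable (by simp)
  have hPh : HasDerivAt (fun s => Ph1 (zeF q z (s, y)))
      (deriv Ph1 (zeF q z (t, y)) * (Xf y * dT (ze1 q z) (t, y))) t :=
    HasDerivAt.comp (h₂ := Ph1) (h := fun s => zeF q z (s, y)) t (hdP (zeF q z (t, y))).hasDerivAt hzF
  have hE : HasDerivAt (fun s => Real.exp (-zeF q z (s, y)))
      (Real.exp (-zeF q z (t, y)) * -(Xf y * dT (ze1 q z) (t, y))) t := hzF.neg.exp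
  have H : HasDerivAt (fun s => Btip q z (s, y))
      (-dT (ze1 q z) (t, y) * Ph1 (zeF q z (t, y))
        + -ze1 q z (t, y) * (deriv Ph1 (zeF q z (t, y)) * (Xf y * dT (ze1 q z) (t, y)))
        - Real.exp (-zeF q z (t, y)) * -(Xf y * dT (ze1 q z) (t, y))) t :=
    (hz1.neg.mul hPh).sub hE
  rw [dT_of_hasDerivAt H]
  have hz : zeF q z (t, y) = Xf y * ze1 q z (t, y) := rfl
  generalize deriv Ph1 (zeF q z (t, y)) = P'
  generalize Ph1 (zeF q z (t, y)) = P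
  generalize Real.exp (-zeF q z (t, y)) = E
  rw [hz]
  ring

theorem BP.ts_dT_Btip (h : BP q w z) (hD : DomOK D) (hN : DomN D) (hm : m ≤ 5) :
    TS q D m n (wt q 1 7 (-1)) (dT (Btip q z)) := by
  have hqR := h.hqR
  have hm7 : m ≤ 7 := by omega
  have hz0 : TS q D m n (wt q 0 0 0) (zeF q z) := h.ts_zeF hD hN hm7
  have hz1 : TS q D m n (fun _ => 1) (zeF q z) := TS.one_wt.2 hz0
  have hPh : TS q D m n (wt q 0 0 0) (fun p => Ph1 (zeF q z p)) :=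
    TS.one_wt.1 (TS.comp hD ph1_contDiff hz1)
  have hcd' : ContDiff ℝ ∞ (deriv Ph1) := (contDiff_infty_iff_deriv.1 ph1_contDiff).2
  have hPh' : TS q D m n (wt q 0 0 0) (fun p => deriv Ph1 (zeF q z p)) :=
    TS.one_wt.1 (TS.comp hD hcd' hz1)
  have hcd : ContDiff ℝ ∞ (fun s : ℝ => Real.exp (-s)) := Real.contDiff_exp.comp contDiff_neg
  have hE : TS q D m n (wt q 0 0 0) (fun p => Real.exp (-zeF q z p)) :=
    TS.one_wt.1 (TS.comp hD (Ψ := fun s : ℝ => Real.exp (-s)) hcd hz1)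
  have hX : TS q D m n (wt q 0 0 0) (fun p => Xf p.2) :=
    TS.le_wt hqR hD le_rfl le_rfl (by norm_num) (TS.X_Th hqR hD)
  have t2 : TS q D m n (wt q 0 0 0) (fun p => zeF q z p * deriv Ph1 (zeF q z p)) :=
    ap_ts_cast rfl (by norm_num) (by norm_num) (TS.mul_wt hqR hD hz0 hPh')
  have t3 : TS q D m n (wt q 0 0 0) (fun p => Xf p.2 * Real.exp (-zeF q z p)) :=
    ap_ts_cast rfl (by norm_num) (by norm_num) (TS.mul_wt hqR hD hX hE)
  have t4 : TS q D m n (wt q 0 0 0) (fun p => -Ph1 (zeF q z p) - zeF q z p * deriv Ph1 (zeF q z p)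
      + Xf p.2 * Real.exp (-zeF q z p)) := ((hPh.neg hD).sub hD t2).add hD t3
  have t5 : TS q D m n (wt q 1 7 (-1)) (fun p => (-Ph1 (zeF q z p)
      - zeF q z p * deriv Ph1 (zeF q z p) + Xf p.2 * Real.exp (-zeF q z p)) * dT (ze1 q z) p) :=
    ap_ts_cast (by norm_num) (by norm_num) (by norm_num)
      (TS.mul_wt hqR hD t4 (h.ts_dT_ze1 hD hN hm))
  exact TS.congr hD (fun t ht y => h.dT_Btip ht y) t5

theorem BP.ts_dT_bgA_B (h : BP q w z) (hD : DomOK D) (hm : m ≤ 5) :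
    TS q D m n (wt q 1 7 (-1)) (dT (bgA q w z).B) := by
  have hqR := h.hqR
  have h1 : TS q D m n (wt q 1 7 (-1)) (fun p => psi1 p.2 * dT (Btip q z) p) :=
    TS.psi_mul hqR hD (fun p hp => (wt_pos hqR hD hp).le) psi1_contDiff
      (fun y hy => psi1_eq_zero hy.le)
      (h.ts_dT_Btip (DomOK.subset hD inter_subset_left) (domN_inter D (by norm_num)) hm)
  refine TS.congr (g := fun p => psi1 p.2 * dT (Btip q z) p) hD (fun t ht y => ?_) h1
  exact dT_y_mul psi1 h.ap_sm_Btip ht y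

end

end Claimed.Agent.R324.Core
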