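/-
Row 324 (S0582), PDE core, module AP (architect helper263), file BgA4:  ASSEMBLY of (A3) `BgSym`, (A4) `BgSymT` and the field `symJ` for g = bgA q w z.        Λ₀ = 1,  D₁ = Dm 1 (Icc (-1) 1)  (`domOK_Dm`).
Statements: Core/Bgd.lean.     Conversion TS → SymC: `TY.symC`, `SymC.mono_C`, `SymC.mono_N` (Cal/Conv.lean);   `TY.symC` gives the weight  fun t y => ϱ (t,y)/(Th t y)^i  and the function dT^[i] f.

* `symC_of_ts`:   general bridge:  TS q D₁ m n (wt a b c) f, i ≤ m, and  wt q a b c (t,y)/Θ^i ≤ K σ t y on D₁  ⟹  ∃ C ≥ 0, SymC q 1 C n σ (dT^[i] f).       (`TY.symC`; then enlarge: |..| ≤ C (wt/Θ^i)/R^j ≤ C K σ/R^j, R > 0.)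
* weights needed (on D₁; all by `wt_le`-type comparisons or by unfolding wt: zpow_neg, zpow_one, `wt_JJ`):
       wt 0 0 (-1) = 1/R;      wt 1 7 0 = 𝔍/Θ ≤ K/Θ;      wt 0 0 (-1)/Θ^i = 1/(R Θ^i);      wt 1 7 0/Θ^i = 𝔍/Θ^(i+1) ≤ K/Θ^(i+1);     wt 1 7 (-1) = 𝔍/(R Θ).
* `bgA_sym`:   B: `gts_B`;  dY w: `ts_bgA_wp`;  e^{-w}: `ts_bgA_ew`;  W: `gts_W`;  lower bound: `g_den_lower` (1/C ≤ c ⟸ C ≥ 1/c).     Common constant: C = max of the five (SymC.mono_C; weights ≥ 0).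
* `bgA_symT`:  i ∈ {1,2} (`interval_cases i`):   dT^[i] B from `gts_B` (m = 2);    dT^[i] w = dT^[i-1] (dT w) (`Function.iterate_succ_apply`) from `ts_bgA_dTw` (m = 1): weight (𝔍/Θ)/Θ^(i-1) ≤ K/Θ^i;     dT^[i] W from `gts_W` (m = 2): (𝔍/Θ)/Θ^i ≤ K/Θ^(i+1).        The constant C must not depend on i: take the max over i = 1, 2.
* `bgA_symJ`:  `ts_bgA_dTw`, `ts_dT_bgA_B`, `gts_W` with i = 0 (dT^[0] f = f).
-/
import Claimed.Agent.R324.Core.AP.BgA2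
import Claimed.Agent.R324.Core.AP.BgA3
import Claimed.Agent.R324.Core.AP.Cal.Conv

set_option autoImplicit false

namespace Claimed.Agent.R324.Core

open Set Filter Topology
open scoped ContDiff

noncomputable section

variable {q : ℕ} {w z : ℝ → ℝ}

theorem symC_of_ts {q : ℝ} (hq : 100 ≤ q) {m n : ℕ} {a : ℕ} {b c : ℤ} {f : Fn}
    (h : TS q (Dm 1 (Icc (-1 : ℝ) 1)) m n (wt q a b c) f) {i : ℕ} (hi : i ≤ m) {σ : ℝ → ℝ → ℝ} {K : ℝ}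
    (hK : 0 ≤ K)
    (hσ : ∀ t ∈ Ico (-1 : ℝ) 0, ∀ y ∈ Icc (-1 : ℝ) 1, wt q a b c (t, y) / (Th t y) ^ i ≤ K * σ t y) :
    ∃ C : ℝ, 0 ≤ C ∧ SymC q 1 C n σ (dT^[i] f) := by
  have hD := domOK_Dm (le_refl (1 : ℝ)) (subset_refl (Icc (-1 : ℝ) 1))
  obtain ⟨C, hC, hS⟩ := TY.symC hq (le_refl 1) (fun p hp => (wt_pos hq hD hp).le) h.bd hi
  refine ⟨C * K, mul_nonneg hC hK, ?_⟩
  intro t ht y hy j hj
  refine (hS t ht y hy j hj).trans ?_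
  have hR : 0 < rh2 q t y := rh2_pos_dom (by linarith) hD (p := (t, y)) ⟨ht, hy⟩
  refine div_le_div_of_nonneg_right ?_ (pow_pos hR j).le
  rw [mul_assoc]
  exact mul_le_mul_of_nonneg_left (hσ t ht y hy) hC

theorem ap_D1 : DomOK (Dm 1 (Icc (-1 : ℝ) 1)) := domOK_Dm le_rfl (subset_refl _)

theorem ap_pos3 {q : ℝ} (hq : 100 ≤ q) {t y : ℝ} (ht : t ∈ Ico (-1 : ℝ) 0) (hy : y ∈ Icc (-1 : ℝ) 1) :
    0 < rh2 q t y ∧ 0 < Th t y ∧ 0 < JJ q t y := by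
  have hp : ((t, y) : ℝ × ℝ) ∈ Dm 1 (Icc (-1 : ℝ) 1) := ⟨ht, hy⟩
  refine ⟨rh2_pos_dom (by linarith) ap_D1 hp, Th_pos_dom ap_D1 hp, ?_⟩
  have := wt_pos (a := 1) (b := 8) (c := 0) hq ap_D1 hp
  rwa [wt_JJ] at this

theorem ap_wt_R (q t y : ℝ) : wt q 0 0 (-1) (t, y) = 1 / rh2 q t y := by
  simp [wt]

theorem ap_wt_T (q t y : ℝ) : wt q 0 (-1) 0 (t, y) = 1 / Th t y := by
  simp [wt]

theorem ap_wt_J {q : ℝ} (hq : 100 ≤ q) {t y : ℝ} (ht : t ∈ Ico (-1 : ℝ) 0) (hy : y ∈ Icc (-1 : ℝ) 1) :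
    wt q 1 7 0 (t, y) = JJ q t y / Th t y := by
  have hp : ((t, y) : ℝ × ℝ) ∈ Dm 1 (Icc (-1 : ℝ) 1) := ⟨ht, hy⟩
  have := wt_div_Th (a := 1) (b := 8) (c := 0) hq ap_D1 hp
  rw [wt_JJ] at this
  rw [this]
  norm_num

theorem ap_wt_JR {q : ℝ} (hq : 100 ≤ q) {t y : ℝ} (ht : t ∈ Ico (-1 : ℝ) 0) (hy : y ∈ Icc (-1 : ℝ) 1) :
    wt q 1 7 (-1) (t, y) = JJ q t y / (rh2 q t y * Th t y) := by
  have hp : ((t, y) : ℝ × ℝ) ∈ Dm 1 (Icc (-1 : ℝ) 1) := ⟨ht, hy⟩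
  have := wt_div_rh2 (a := 1) (b := 7) (c := 0) hq ap_D1 hp
  rw [ap_wt_J hq ht hy, div_div, mul_comm (Th t y)] at this
  rw [this]
  norm_num

theorem ap_wt_J_le {q : ℝ} (hq : 100 ≤ q) : ∃ K : ℝ, 0 ≤ K ∧ ∀ t ∈ Ico (-1 : ℝ) 0, ∀ y ∈ Icc (-1 : ℝ) 1,
    wt q 1 7 0 (t, y) ≤ K * (1 / Th t y) := by
  obtain ⟨K, hK, hle⟩ := wt_le (q := q) (a := 0) (a' := 1) (b := -1) (b' := 7) (c := 0) (c' := 0) hq
    (by norm_num) le_rfl (by norm_num)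
  refine ⟨K, hK, fun t ht y hy => ?_⟩
  have := hle _ ap_D1 (t, y) ⟨ht, hy⟩
  rwa [ap_wt_T] at this

theorem BP.bgA_sym (h : BP q w z) : BgSym q (bgA q w z) := by
  have hq := h.hqR
  obtain ⟨K, hK, hKle⟩ := ap_wt_J_le hq
  obtain ⟨C1, hC1, hS1⟩ := symC_of_ts hq (h.gts_B (m := 0) (n := 8) ap_D1 (by norm_num)) (i := 0) le_rfl
    (σ := fun t y => 1 / rh2 q t y) (K := 1) zero_le_one
    (fun t _ y _ => by rw [ap_wt_R, pow_zero, div_one, one_mul])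
  obtain ⟨C2, hC2, hS2⟩ := symC_of_ts hq (h.ts_bgA_wp (m := 0) (n := 8) ap_D1 (by norm_num)) (i := 0) le_rfl
    (σ := fun t y => 1 / rh2 q t y) (K := 1) zero_le_one
    (fun t _ y _ => by rw [ap_wt_R, pow_zero, div_one, one_mul])
  obtain ⟨C3, hC3, hS3⟩ := symC_of_ts hq (h.ts_bgA_ew (m := 0) (n := 8) ap_D1 (by norm_num)) (i := 0) le_rfl
    (σ := fun t y => 1 / rh2 q t y) (K := 1) zero_le_one
    (fun t _ y _ => by rw [ap_wt_R, pow_zero, div_one, one_mul])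
  obtain ⟨C4, hC4, hS4⟩ := symC_of_ts hq (h.gts_W (m := 0) (n := 8) ap_D1 (by norm_num)) (i := 0) le_rfl
    (σ := fun t y => 1 / Th t y) (K := K) hK
    (fun t ht y hy => by rw [pow_zero, div_one]; exact hKle t ht y hy)
  obtain ⟨c, hc, hlow⟩ := h.g_den_lower ap_D1
  have hc' : 0 < 1 / c := by positivity
  have hR0 : ∀ t ∈ Ico (-(1 : ℝ)) 0, ∀ y ∈ Icc (-1 : ℝ) 1, 0 ≤ 1 / rh2 (q : ℝ) t y :=
    fun t ht y hy => (one_div_pos.2 (ap_pos3 hq ht hy).1).le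
  have hT0 : ∀ t ∈ Ico (-(1 : ℝ)) 0, ∀ y ∈ Icc (-1 : ℝ) 1, 0 ≤ 1 / Th t y :=
    fun t ht y hy => (one_div_pos.2 (ap_pos3 hq ht hy).2.1).le
  refine ⟨1, C1 + C2 + C3 + C4 + 1 / c, one_pos, ?_, ?_, ?_, ?_, ?_⟩
  · exact SymC.mono_C hq le_rfl hR0 (by linarith) hS1
  · exact SymC.mono_C hq le_rfl hR0 (by linarith) hS2
  · exact SymC.mono_C hq le_rfl hR0 (by linarith) hS3
  · exact SymC.mono_C hq le_rfl hT0 (by linarith) hS4
  · intro t ht y hy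
    refine le_trans ?_ (hlow (t, y) ⟨ht, hy⟩)
    have h1 : 1 / c ≤ C1 + C2 + C3 + C4 + 1 / c := by linarith
    have h2 := one_div_le_one_div_of_le hc' h1
    rwa [one_div_one_div] at h2

theorem BP.bgA_symT (h : BP q w z) : BgSymT q (bgA q w z) := by
  have hq := h.hqR
  obtain ⟨K, hK, hKle⟩ := ap_wt_J_le hq
  have key : ∀ i : ℕ, 1 ≤ i → i ≤ 2 → ∃ C : ℝ, 0 ≤ C ∧
      SymC q 1 C 6 (fun t y => 1 / (rh2 q t y * (Th t y) ^ i)) (dT^[i] (bgA q w z).B) ∧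
      SymC q 1 C 6 (fun t y => 1 / (Th t y) ^ i) (dT^[i] (bgA q w z).w) ∧
      SymC q 1 C 6 (fun t y => 1 / (Th t y) ^ (i + 1)) (dT^[i] (bgA q w z).W) := by
    intro i hi1 hi2
    obtain ⟨k, rfl⟩ : ∃ k, i = k + 1 := ⟨i - 1, by omega⟩
    obtain ⟨C1, hC1, hS1⟩ := symC_of_ts hq (h.gts_B (m := 2) (n := 6) ap_D1 (by norm_num)) (i := k + 1) hi2
      (σ := fun t y => 1 / (rh2 q t y * (Th t y) ^ (k + 1))) (K := 1) zero_le_one
      (fun t _ y _ => by rw [ap_wt_R, div_div, one_mul])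
    obtain ⟨C2, hC2, hS2⟩ := symC_of_ts hq (h.ts_bgA_dTw (m := 1) (n := 6) ap_D1 (by norm_num)) (i := k)
      (by omega) (σ := fun t y => 1 / (Th t y) ^ (k + 1)) (K := K) hK
      (fun t ht y hy => by
        have hT := (ap_pos3 hq ht hy).2.1
        have := div_le_div_of_nonneg_right (hKle t ht y hy) (pow_pos hT k).le
        refine this.trans (le_of_eq ?_)
        rw [pow_succ']
        field_simp)
    obtain ⟨C3, hC3, hS3⟩ := symC_of_ts hq (h.gts_W (m := 2) (n := 6) ap_D1 (by norm_num)) (i := k + 1) hi2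
      (σ := fun t y => 1 / (Th t y) ^ (k + 1 + 1)) (K := K) hK
      (fun t ht y hy => by
        have hT := (ap_pos3 hq ht hy).2.1
        have := div_le_div_of_nonneg_right (hKle t ht y hy) (pow_pos hT (k + 1)).le
        refine this.trans (le_of_eq ?_)
        rw [pow_succ' _ (k + 1)]
        field_simp)
    rw [← Function.iterate_succ_apply] at hS2
    refine ⟨C1 + C2 + C3, by positivity, ?_, ?_, ?_⟩
    · exact SymC.mono_C hq le_rfl (fun t ht y hy => by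
        have := ap_pos3 hq ht hy
        have h1 := this.1
        have h2 := this.2.1
        positivity) (by linarith) hS1
    · exact SymC.mono_C hq le_rfl (fun t ht y hy => by
        have h2 := (ap_pos3 hq ht hy).2.1
        positivity) (by linarith) hS2
    · exact SymC.mono_C hq le_rfl (fun t ht y hy => by
        have h2 := (ap_pos3 hq ht hy).2.1
        positivity) (by linarith) hS3
  obtain ⟨Ca, hCa, a1, a2, a3⟩ := key 1 le_rfl (by norm_num)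
  obtain ⟨Cb, hCb, b1, b2, b3⟩ := key 2 (by norm_num) le_rfl
  refine ⟨1, Ca + Cb, one_pos, fun i hi1 hi2 => ?_⟩
  have hpos1 : ∀ i : ℕ, ∀ t ∈ Ico (-(1 : ℝ)) 0, ∀ y ∈ Icc (-1 : ℝ) 1,
      0 ≤ 1 / (rh2 (q : ℝ) t y * (Th t y) ^ i) := fun i t ht y hy => by
    have := ap_pos3 hq ht hy
    have h1 := this.1
    have h2 := this.2.1
    positivity
  have hpos2 : ∀ i : ℕ, ∀ t ∈ Ico (-(1 : ℝ)) 0, ∀ y ∈ Icc (-1 : ℝ) 1, 0 ≤ 1 / (Th t y) ^ i :=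
    fun i t ht y hy => by
    have h2 := (ap_pos3 hq ht hy).2.1
    positivity
  interval_cases i
  · exact ⟨SymC.mono_C hq le_rfl (hpos1 1) (by linarith) a1, SymC.mono_C hq le_rfl (hpos2 1) (by linarith) a2,
      SymC.mono_C hq le_rfl (hpos2 (1 + 1)) (by linarith) a3⟩
  · exact ⟨SymC.mono_C hq le_rfl (hpos1 2) (by linarith) b1, SymC.mono_C hq le_rfl (hpos2 2) (by linarith) b2,
      SymC.mono_C hq le_rfl (hpos2 (2 + 1)) (by linarith) b3⟩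

theorem BP.bgA_symJ (h : BP q w z) : ∃ Λ₀ C : ℝ, 0 < Λ₀ ∧
    SymC q Λ₀ C 6 (fun t y => JJ q t y / Th t y) (dT (bgA q w z).w) ∧
    SymC q Λ₀ C 6 (fun t y => JJ q t y / (rh2 q t y * Th t y)) (dT (bgA q w z).B) ∧
    SymC q Λ₀ C 6 (fun t y => JJ q t y / Th t y) (bgA q w z).W := by
  have hq := h.hqR
  obtain ⟨C1, hC1, hS1⟩ := symC_of_ts hq (h.ts_bgA_dTw (m := 0) (n := 6) ap_D1 (by norm_num)) (i := 0) le_rfl
    (σ := fun t y => JJ q t y / Th t y) (K := 1) zero_le_one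
    (fun t ht y hy => by rw [ap_wt_J hq ht hy, pow_zero, div_one, one_mul])
  obtain ⟨C2, hC2, hS2⟩ := symC_of_ts hq (h.ts_dT_bgA_B (m := 0) (n := 6) ap_D1 (by norm_num)) (i := 0) le_rfl
    (σ := fun t y => JJ q t y / (rh2 q t y * Th t y)) (K := 1) zero_le_one
    (fun t ht y hy => by rw [ap_wt_JR hq ht hy, pow_zero, div_one, one_mul])
  obtain ⟨C3, hC3, hS3⟩ := symC_of_ts hq (h.gts_W (m := 0) (n := 6) ap_D1 (by norm_num)) (i := 0) le_rfl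
    (σ := fun t y => JJ q t y / Th t y) (K := 1) zero_le_one
    (fun t ht y hy => by rw [ap_wt_J hq ht hy, pow_zero, div_one, one_mul])
  have hJ0 : ∀ t ∈ Ico (-(1 : ℝ)) 0, ∀ y ∈ Icc (-1 : ℝ) 1, 0 ≤ JJ (q : ℝ) t y / Th t y :=
    fun t ht y hy => by
    have := ap_pos3 hq ht hy
    exact (div_pos this.2.2 this.2.1).le
  have hJ1 : ∀ t ∈ Ico (-(1 : ℝ)) 0, ∀ y ∈ Icc (-1 : ℝ) 1, 0 ≤ JJ (q : ℝ) t y / (rh2 (q : ℝ) t y * Th t y) :=
    fun t ht y hy => by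
    have := ap_pos3 hq ht hy
    exact (div_pos this.2.2 (mul_pos this.1 this.2.1)).le
  refine ⟨1, C1 + C2 + C3, one_pos, ?_, ?_, ?_⟩
  · exact SymC.mono_C hq le_rfl hJ0 (by linarith) hS1
  · exact SymC.mono_C hq le_rfl hJ1 (by linarith) hS2
  · exact SymC.mono_C hq le_rfl hJ0 (by linarith) hS3

end

end Claimed.Agent.R324.Core
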