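/-
Row 324 (S0582), PDE core, module AP, sub-module AP-R (reference background `bgR q (bgA q w z)`; sub-architect helper390, plan of helper263: Core/AP/PlanR.lean).
File RDefs: ALL definitions of AP-R and the trivial facts about the domains.          Λ = -t,  X = Xf y = 1 - y²,  γ = gaF q,  Ξ = XiF q = X/Λ^(2γ),  χ = chiC = ψ₁(y) χ_a χ_b.

DOMAINS (sets of points, as in Cal/ClsA)
   DomL D :  -1/1000 ≤ t < 0,  |y| ≤ 1                  ("late")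
   DomR D :  -1/1000 ≤ t < 0,  1/2 ≤ y ≤ 1              (late and northern; there X̃ = Xt y = X)
   DomTR D :  -1/1000 ≤ t < 0,  19/20 ≤ y ≤ 1            (there ψ₁ = 1)
   RBox a c d = (a,0) × [c,d]:   identities which hold only for -1/500 < t < 0 (and only on a closed y-interval) are transported by `TY.congr_box` (RBox.lean).
FUNCTIONS
   ctm κ s φ = Λ^(-s) φ(X/Λ^κ)                      (atm q s F = ctm (2γ) s F)
   chiA = sT(X/(Λ√Λ) - 1),   chiB = sT(2 - X/√Λ),     chiC p = psi1 p.2 * chiA p * chiB p   (rfl)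
   rgE f a s = sT(2s/a - 1) f(s):    smooth on ℝ if f is smooth on (0,∞) and a > 0;   = f(s) for s ≥ a
   rF0 q w Ξ = log(q-1) - (regularised log)(P(Ξ))    = -log(P(Ξ)/(q-1)) for Ξ ≥ 1,        P = bP w = Ξ e^{-w}
   rOm  = rF0(Ξ) + u                                  = w_tip - log(X/(q-1))   where Ξ ≥ 1
   rEta = ζ_tip - log z₀
   rInvX = atm (2γ) e^{-w} * (regularised 1/s)(P(Ξ))  = 1/X                    where Ξ ≥ 1
   rDB  = -(y²/z₀) η Φ₁(η) rInvX                      = B_tip - B_cone         where Ξ ≥ 1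
PAIRS     TP q D n f fc :   f, fc ∈ TS 0 n 1   and   f - fc ∈ TS 0 n 𝔍  (𝔍 = wt 1 8 0).
-/
import Claimed.Agent.R324.Core.AP.BgA4
import Claimed.Agent.R324.Core.AP.Cal.Strip
import Claimed.Agent.R324.Core.PR.Germ

set_option autoImplicit false

namespace Claimed.Agent.R324.Core

open Set Filter Topology
open scoped ContDiff

noncomputable section

/-- late domains: `-1/1000 ≤ t < 0`, `|y| ≤ 1`. -/
def DomL (D : Set (ℝ × ℝ)) : Prop := ∀ p ∈ D, -1 / 1000 ≤ p.1 ∧ p.1 < 0 ∧ -1 ≤ p.2 ∧ p.2 ≤ 1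

/-- late northern domains: `-1/1000 ≤ t < 0`, `1/2 ≤ y ≤ 1`. -/
def DomR (D : Set (ℝ × ℝ)) : Prop := ∀ p ∈ D, -1 / 1000 ≤ p.1 ∧ p.1 < 0 ∧ 1 / 2 ≤ p.2 ∧ p.2 ≤ 1

/-- late domains near the north pole: `-1/1000 ≤ t < 0`, `19/20 ≤ y ≤ 1`. -/
def DomTR (D : Set (ℝ × ℝ)) : Prop := ∀ p ∈ D, -1 / 1000 ≤ p.1 ∧ p.1 < 0 ∧ 19 / 20 ≤ p.2 ∧ p.2 ≤ 1

/-- boxes `(a,0) × [c,d]`. -/
def RBox (a c d : ℝ) : Set (ℝ × ℝ) := Ioo a 0 ×ˢ Icc c d

/-- `Λ^(-s) φ(X/Λ^κ)`. -/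
def ctm (κ s : ℝ) (φ : ℝ → ℝ) : Fn := fun p => (-p.1) ^ (-s) * φ (Xf p.2 / (-p.1) ^ κ)

/-- inner cut-off of the cone zone: `= 0` for `X ≤ Λ√Λ`, `= 1` for `X ≥ 2Λ√Λ`. -/
def chiA : Fn := fun p => Real.smoothTransition (Xf p.2 / ((-p.1) * Real.sqrt (-p.1)) - 1)

/-- outer cut-off of the cone zone: `= 1` for `X ≤ √Λ`, `= 0` for `X ≥ 2√Λ`. -/
def chiB : Fn := fun p => Real.smoothTransition (2 - Xf p.2 / Real.sqrt (-p.1))

/-- regularisation at `0` of a function which is smooth on `(0,∞)`. -/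
def rgE (f : ℝ → ℝ) (a s : ℝ) : ℝ := Real.smoothTransition (2 * s / a - 1) * f s

/-- `= -log(P(Ξ)/(q-1))` for `Ξ ≥ 1`. -/
def rF0 (q : ℝ) (w : ℝ → ℝ) (Ξ : ℝ) : ℝ := Real.log (q - 1) - rgE Real.log (bP w 1) (bP w Ξ)

/-- `ω = w_tip - w_cone` (where `Ξ ≥ 1`). -/
def rOm (q : ℝ) (w : ℝ → ℝ) : Fn := fun p => rF0 q w (XiF q p) + uWF q w p

/-- `η = ζ_tip - log z₀`. -/
def rEta (q : ℝ) (z : ℝ → ℝ) : Fn := fun p => zeF q z p - Real.log (z0F q)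

/-- `= 1/X` where `Ξ ≥ 1`. -/
def rInvX (q : ℝ) (w : ℝ → ℝ) : Fn := fun p =>
  atm q (2 * gaF q) (fun x => Real.exp (-w x)) p * rgE (fun s => s⁻¹) (bP w 1) (bP w (XiF q p))

/-- `= B_tip - B_cone` where `Ξ ≥ 1`. -/
def rDB (q : ℝ) (w z : ℝ → ℝ) : Fn := fun p =>
  -(p.2 ^ 2 / z0F q) * (rEta q z p * Ph1 (rEta q z p)) * rInvX q w p

/-- pairs (function, its value on the cone): both are symbols of order `0`, the difference is `O(𝔍)`; only `y`-derivatives. -/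
structure TP (q : ℝ) (D : Set (ℝ × ℝ)) (n : ℕ) (f fc : Fn) : Prop where
  l : TS q D 0 n (wt q 0 0 0) f
  r : TS q D 0 n (wt q 0 0 0) fc
  d : TS q D 0 n (wt q 1 8 0) (fun p => f p - fc p)

/-- hygiene. -/
theorem core_ap_rdefs_hygiene : True := by
  have := @DomL.eq_1
  have := @DomR.eq_1
  have := @DomTR.eq_1
  have := @RBox.eq_1
  have := @ctm.eq_1
  have := @chiA.eq_1
  have := @chiB.eq_1
  have := @rgE.eq_1
  have := @rF0.eq_1
  have := @rOm.eq_1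
  have := @rEta.eq_1
  have := @rInvX.eq_1
  have := @rDB.eq_1
  trivial

variable {D D' : Set (ℝ × ℝ)}

theorem chiC_eq_mul (p : ℝ × ℝ) : chiC p = psi1 p.2 * chiA p * chiB p := rfl

theorem DomL.ok (h : DomL D) : DomOK D := fun p hp => by
  obtain ⟨h1, h2, h3, h4⟩ := h p hp
  exact ⟨by linarith, h2, h3, h4⟩

theorem DomL.subset (h : DomL D) (hs : D' ⊆ D) : DomL D' := fun p hp => h p (hs hp)

theorem DomL.box (h : DomL D) : D ⊆ RBox (-1 / 500) (-1) 1 := fun p hp => by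
  obtain ⟨h1, h2, h3, h4⟩ := h p hp
  exact ⟨⟨by linarith, h2⟩, ⟨h3, h4⟩⟩

theorem DomL.north (h : DomL D) : DomR (D ∩ {p | 1 / 2 ≤ p.2}) := fun p hp => by
  obtain ⟨h1, h2, _, h4⟩ := h p hp.1
  exact ⟨h1, h2, hp.2, h4⟩

theorem DomR.late (h : DomR D) : DomL D := fun p hp => by
  obtain ⟨h1, h2, h3, h4⟩ := h p hp
  exact ⟨h1, h2, by linarith, h4⟩

theorem DomR.ok (h : DomR D) : DomOK D := h.late.ok

theorem DomR.dn (h : DomR D) : DomN D := fun p hp => by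
  obtain ⟨_, _, h3, _⟩ := h p hp
  linarith

theorem DomR.subset (h : DomR D) (hs : D' ⊆ D) : DomR D' := fun p hp => h p (hs hp)

theorem DomTR.dr (h : DomTR D) : DomR D := fun p hp => by
  obtain ⟨h1, h2, h3, h4⟩ := h p hp
  exact ⟨h1, h2, by linarith, h4⟩

theorem DomTR.ok (h : DomTR D) : DomOK D := h.dr.ok

theorem DomTR.dn (h : DomTR D) : DomN D := h.dr.dn

theorem DomTR.subset (h : DomTR D) (hs : D' ⊆ D) : DomTR D' := fun p hp => h p (hs hp)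

theorem DomTR.box (h : DomTR D) : D ⊆ RBox (-1 / 500) (19 / 20) 1 := fun p hp => by
  obtain ⟨h1, h2, h3, h4⟩ := h p hp
  exact ⟨⟨by linarith, h2⟩, ⟨h3, h4⟩⟩

theorem DomTR.strip (h : DomTR D) : D ⊆ Strip (19 / 20) 1 := fun p hp => by
  obtain ⟨_, h2, h3, h4⟩ := h p hp
  exact ⟨h2, ⟨h3, h4⟩⟩

theorem domL_Dm : DomL (Dm (1 / 1000) (Icc (-1 : ℝ) 1)) := fun p hp => by
  obtain ⟨h1, h2⟩ := hp
  exact ⟨by linarith [h1.1], h1.2, h2.1, h2.2⟩

theorem domTR_Dm : DomTR (Dm (1 / 1000) (Icc (19 / 20 : ℝ) 1)) := fun p hp => by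
  obtain ⟨h1, h2⟩ := hp
  exact ⟨by linarith [h1.1], h1.2, h2.1, h2.2⟩

end

end Claimed.Agent.R324.Core
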