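/-
Row 324 (S0582), PDE core, module AP, sub-module AP-R (sub-architect helper390), file RCtm:  the functions  ctm κ s φ = Λ^(-s) φ(S),  S = X/Λ^κ:  smoothness and derivatives.      SORRY-FREE.
        ∂_y ctm κ s φ = -2y ctm κ (s+κ) φ',          ∂_t ctm κ s φ = ctm κ (s+1) (s φ + κ x φ'(x)).
Same proofs as for the atoms (AtmA.lean; atm q s F = ctm (2γ) s F).
-/
import Claimed.Agent.R324.Core.AP.RDefs

set_option autoImplicit false

namespace Claimed.Agent.R324.Core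

open Set Filter Topology
open scoped ContDiff

noncomputable section

variable {κ s t y : ℝ} {φ : ℝ → ℝ}

theorem sm_ctm_arg (κ : ℝ) : Sm (fun p => Xf p.2 / (-p.1) ^ κ) :=
  Sm.div sm_Xf (sm_Lam_rpow _) (fun t ht y => (Real.rpow_pos_of_pos (by linarith : 0 < -t) _).ne')

theorem sm_ctm (κ s : ℝ) (hφ : ContDiff ℝ ∞ φ) : Sm (ctm κ s φ) := by
  unfold ctm
  exact (sm_Lam_rpow (-s)).mul (Sm.comp hφ (sm_ctm_arg κ))

theorem ctm_zero (κ : ℝ) (φ : ℝ → ℝ) (p : ℝ × ℝ) : ctm κ 0 φ p = φ (Xf p.2 / (-p.1) ^ κ) := by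
  simp [ctm]

theorem dY_ctm (κ s : ℝ) (hφ : ContDiff ℝ ∞ φ) (ht : t < 0) (y : ℝ) :
    dY (ctm κ s φ) (t, y) = -2 * y * ctm κ (s + κ) (deriv φ) (t, y) := by
  apply dY_of_hasDerivAt
  have hl : 0 < -t := by linarith
  have hF1 : HasDerivAt φ (deriv φ (Xf y / (-t) ^ κ)) (Xf y / (-t) ^ κ) :=
    ((hφ.differentiable (by simp)) _).hasDerivAt
  have hX : HasDerivAt (fun z => Xf z / (-t) ^ κ) (-2 * y / (-t) ^ κ) y :=
    (hasDerivAt_Xf y).div_const _
  have h1 := (hF1.comp y hX).const_mul ((-t) ^ (-s))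
  refine h1.congr_deriv ?_
  unfold ctm
  have e1 : (-t) ^ (-(s + κ)) = (-t) ^ (-s) / (-t) ^ κ := by
    rw [neg_add, Real.rpow_add hl, Real.rpow_neg hl.le κ]
    rfl
  simp only []
  rw [e1]
  ring

theorem dT_ctm (κ s : ℝ) (hφ : ContDiff ℝ ∞ φ) (ht : t < 0) (y : ℝ) :
    dT (ctm κ s φ) (t, y) = ctm κ (s + 1) (fun x => s * φ x + κ * (x * deriv φ x)) (t, y) := by
  apply dT_of_hasDerivAt
  have hl : 0 < -t := by linarith
  have hF1 : HasDerivAt φ (deriv φ (Xf y / (-t) ^ κ)) (Xf y / (-t) ^ κ) :=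
    ((hφ.differentiable (by simp)) _).hasDerivAt
  have hpow : ∀ a : ℝ, HasDerivAt (fun r : ℝ => (-r) ^ a) (-(a * (-t) ^ (a - 1))) t := by
    intro a
    have h0 : HasDerivAt (fun r : ℝ => -r) (-1) t := (hasDerivAt_id t).neg
    have h1 := h0.rpow_const (p := a) (Or.inl hl.ne')
    refine h1.congr_deriv ?_
    ring
  have hX : HasDerivAt (fun r => Xf y / (-r) ^ κ) (Xf y * (κ * (-t) ^ (-κ - 1))) t := by
    have h2 := (hpow (-κ)).const_mul (Xf y)
    have e : (fun r => Xf y / (-r) ^ κ) =ᶠ[𝓝 t] fun r => Xf y * (-r) ^ (-κ) := by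
      filter_upwards [Iio_mem_nhds ht] with r hr
      have hr' : 0 ≤ -r := by
        have : r < 0 := hr
        linarith
      rw [Real.rpow_neg hr']
      rfl
    refine (h2.congr_of_eventuallyEq e).congr_deriv ?_
    ring
  have h1 := (hpow (-s)).mul (hF1.comp t hX)
  refine h1.congr_deriv ?_
  unfold ctm
  have e1 : (-t) ^ (-s - 1) = (-t) ^ (-(s + 1)) := by congr 1; ring
  have e2 : (-t) ^ (-κ - 1) = (-t) ^ (-κ) * (-t) ^ (-1 : ℝ) := by
    rw [sub_eq_add_neg, Real.rpow_add hl]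
  have e3 : (-t) ^ (-(s + 1)) = (-t) ^ (-s) * (-t) ^ (-1 : ℝ) := by
    rw [neg_add, Real.rpow_add hl]
  have e4 : Xf y / (-t) ^ κ = Xf y * (-t) ^ (-κ) := by
    rw [Real.rpow_neg hl.le]
    rfl
  simp only [Function.comp_apply]
  rw [e1, e2, e3]
  generalize deriv φ (Xf y / (-t) ^ κ) = dF
  generalize φ (Xf y / (-t) ^ κ) = F0
  rw [e4]
  ring

/-- `chiA`, `chiB` as `ctm`. -/
theorem chiA_eq_ctm (ht : t < 0) (y : ℝ) :
    chiA (t, y) = ctm (3 / 2) 0 (fun x => Real.smoothTransition (x - 1)) (t, y) := by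
  have hl : 0 < -t := by linarith
  have e : (-t) * Real.sqrt (-t) = (-t) ^ (3 / 2 : ℝ) := by
    rw [Real.sqrt_eq_rpow, show (3 / 2 : ℝ) = 1 + 1 / 2 by norm_num, Real.rpow_add hl, Real.rpow_one]
  rw [ctm_zero]
  unfold chiA
  simp only []
  rw [e]

theorem chiB_eq_ctm (t y : ℝ) :
    chiB (t, y) = ctm (1 / 2) 0 (fun x => Real.smoothTransition (2 - x)) (t, y) := by
  rw [ctm_zero]
  unfold chiB
  simp only []
  rw [Real.sqrt_eq_rpow]

theorem sm_chiA : Sm chiA :=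
  (sm_ctm (3 / 2) 0 (φ := fun x => Real.smoothTransition (x - 1))
    (Real.smoothTransition.contDiff.comp (contDiff_id.sub contDiff_const))).congr
    (fun _ ht y => chiA_eq_ctm ht y)

theorem sm_chiB : Sm chiB :=
  (sm_ctm (1 / 2) 0 (φ := fun x => Real.smoothTransition (2 - x))
    (Real.smoothTransition.contDiff.comp (contDiff_const.sub contDiff_id))).congr
    (fun t _ y => chiB_eq_ctm t y)

end

end Claimed.Agent.R324.Core
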