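/-
Row 324 (S0582), PDE core, module AP, sub-module AP-R (sub-architect helper390), file RCtmTS:  SYMBOL BOUNDS of  ctm κ s φ = Λ^(-s) φ(S),  S = X/Λ^κ,   on a domain D which lies in a ZONE  |S| ≤ M  where
        (hR)  Λ^(-κ) ≤ K/r̂²            (a y-derivative costs 1/r̂²),
        (hT)  Λ^(-1) ≤ K/Θ^(e+1)        (a t-derivative costs 1/Θ^(e+1);  e = 0 in the inner zone X ~ Λ^(3/2),  e = 1 in the outer zone X ~ Λ^(1/2)).
φ is ANY smooth function (S stays in the compact [-M,M]).      Derivatives: `dY_ctm`, `dT_ctm`, `sm_ctm` (RCtm.lean).     MODEL: `atm_TY0` (AtmC.lean), `atm_TS` (AtmD.lean): same inductions.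

* `ctm_TY0`:  induction on n GENERALISING s, φ.
      Bd:  φ is continuous, so |φ| ≤ B on the compact Icc (-M) M (`isCompact_Icc.exists_bound_of_continuousOn`);  |Λ^(-s) φ(S)| ≤ B Λ^(-s)  (replace B by max B 0 or |B|;  Λ^(-s) ≥ 0: `Real.rpow_nonneg`).
      n+1 (`TY_zero_succ_iff`):  dY (ctm κ s φ) = (-2y) * ctm κ (s+κ) φ' on t < 0 (`dY_ctm`; `TY.congr`);  φ' = deriv φ is smooth (`contDiff_infty_iff_deriv`);   induction hypothesis: ctm κ (s+κ) φ' ∈ TY 0 n (Λ^(-(s+κ)));   -2y ∈ TY 0 n 1 (`TY.yfun`);  `TY.mul`;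
            weight 1 * Λ^(-(s+κ)) = Λ^(-s) Λ^(-κ) ≤ K Λ^(-s)/R  (`Real.rpow_add`, hR): `TY.mono_wt`.
* `ctm_wt_le`:  Λ^(-k) = (Λ^(-1))^k ≤ K^k/Θ^((e+1)k)  (`Real.rpow_natCast`, `Real.rpow_mul`/`Real.rpow_neg`, `pow_le_pow_left₀`, hT),   1 ≤ 2^(em)/Θ^(em)  (0 < Θ ≤ 2: `Th_pos_dom`, `Th_le_dom`);   wt q 0 (-N) 0 = 1/Θ^N  (unfold wt; `zpow_neg`, `zpow_natCast`, pow_zero, zpow_zero);   C = K^k 2^(em).
* `ctm_TS`:  Sm: `sm_ctm`.   Induction on m GENERALISING k, φ.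
      m = 0:  `ctm_TY0` + `TY.mono_wt` with `ctm_wt_le`.
      m+1 (`TY_succ_iff`):  first part as for m = 0 (with `ctm_wt_le` for m+1);    dT (ctm κ k φ) = ctm κ (k+1) ψ on t < 0,  ψ x = k φ x + κ (x φ'(x)) smooth (`dT_ctm`; `TY.congr`);   (k:ℝ) + 1 = ((k+1 : ℕ) : ℝ) (push_cast);
            induction hypothesis for (k+1, ψ):   weight wt 0 (-((e+1)(k+1) + e m)) 0 = (wt 0 (-((e+1)k + e(m+1))) 0)/Θ on D  (`wt_div_Th`; the exponents agree: push_cast; ring): `TY.congr_wt`.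
-/
import Claimed.Agent.R324.Core.AP.RCtm

set_option autoImplicit false

namespace Claimed.Agent.R324.Core

open Set Filter Topology
open scoped ContDiff

noncomputable section

variable {q : ℝ} {D : Set (ℝ × ℝ)} {φ : ℝ → ℝ}

theorem ctm_TY0 (hq : 100 ≤ q) (hD : DomOK D) {κ M K : ℝ} (hK : 0 ≤ K)
    (hS : ∀ p ∈ D, |Xf p.2 / (-p.1) ^ κ| ≤ M)
    (hR : ∀ p ∈ D, (-p.1) ^ (-κ) ≤ K / rh2 q p.1 p.2)
    (n : ℕ) (s : ℝ) (hφ : ContDiff ℝ ∞ φ) :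
    TY q D 0 n (fun p => (-p.1) ^ (-s)) (ctm κ s φ) := by
  have hbd : ∀ (s : ℝ) (φ : ℝ → ℝ), ContDiff ℝ ∞ φ → Bd D (fun p => (-p.1) ^ (-s)) (ctm κ s φ) := by
    intro s φ hφ
    obtain ⟨B, hB⟩ := isCompact_Icc.exists_bound_of_continuousOn (s := Icc (-M) M)
      hφ.continuous.continuousOn
    refine ⟨|B|, abs_nonneg _, fun p hp => ?_⟩
    have hmem : Xf p.2 / (-p.1) ^ κ ∈ Icc (-M) M := abs_le.1 (hS p hp)
    have h1 : |φ (Xf p.2 / (-p.1) ^ κ)| ≤ B := by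
      have := hB _ hmem
      rwa [Real.norm_eq_abs] at this
    have hL : 0 ≤ (-p.1) ^ (-s) := Real.rpow_nonneg (by have := (hD p hp).2.1; linarith) _
    show |(-p.1) ^ (-s) * φ (Xf p.2 / (-p.1) ^ κ)| ≤ |B| * (-p.1) ^ (-s)
    rw [abs_mul, abs_of_nonneg hL, mul_comm]
    exact mul_le_mul_of_nonneg_right (h1.trans (le_abs_self B)) hL
  induction n generalizing s φ with
  | zero => exact TY_zero_zero_iff.2 (hbd s φ hφ)
  | succ n ih =>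
    refine TY_zero_succ_iff.2 ⟨hbd s φ hφ, ?_⟩
    have hφ' : ContDiff ℝ ∞ (deriv φ) := (contDiff_infty_iff_deriv.1 hφ).2
    have i1 := ih (s + κ) hφ'
    have hy : ContDiff ℝ ∞ (fun y : ℝ => -2 * y) := contDiff_const.mul contDiff_id
    have i2 : TY q D 0 n (fun _ => 1) (fun p => (fun y : ℝ => -2 * y) p.2) := TY.yfun hq hD hy
    have i3 := TY.mul hD (sm_of_y hy) (sm_ctm κ (s + κ) hφ') i2 i1
    refine TY.congr (g := fun p => (fun y : ℝ => -2 * y) p.2 * ctm κ (s + κ) (deriv φ) p) hD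
      (fun t ht y => dY_ctm κ s hφ ht y) ?_
    refine TY.mono_wt (by linarith) hD (K := K) hK (fun p hp => ?_) i3
    have hΛ : 0 < -p.1 := by have := (hD p hp).2.1; linarith
    have hL : 0 ≤ (-p.1) ^ (-s) := Real.rpow_nonneg hΛ.le _
    have e1 : (-p.1) ^ (-(s + κ)) = (-p.1) ^ (-s) * (-p.1) ^ (-κ) := by
      rw [← Real.rpow_add hΛ]; congr 1; ring
    show 1 * (-p.1) ^ (-(s + κ)) ≤ K * ((-p.1) ^ (-s) / rh2 q p.1 p.2)
    calc 1 * (-p.1) ^ (-(s + κ)) = (-p.1) ^ (-s) * (-p.1) ^ (-κ) := by rw [e1]; ring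
      _ ≤ (-p.1) ^ (-s) * (K / rh2 q p.1 p.2) := mul_le_mul_of_nonneg_left (hR p hp) hL
      _ = K * ((-p.1) ^ (-s) / rh2 q p.1 p.2) := by ring

theorem ctm_wt_le (hD : DomOK D) {K : ℝ} (e : ℕ) (hK : 0 ≤ K)
    (hT : ∀ p ∈ D, (-p.1) ^ (-1 : ℝ) ≤ K / (Th p.1 p.2) ^ (e + 1)) (k m : ℕ) :
    ∃ C : ℝ, 0 ≤ C ∧ ∀ p ∈ D,
      (-p.1) ^ (-(k : ℝ)) ≤ C * wt q 0 (-(((e + 1) * k + e * m : ℕ) : ℤ)) 0 p := by
  refine ⟨K ^ k * 2 ^ (e * m), by positivity, fun p hp => ?_⟩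
  have hΛ : 0 < -p.1 := by have := (hD p hp).2.1; linarith
  have hΘ : 0 < Th p.1 p.2 := Th_pos_dom hD hp
  have hΘ2 : Th p.1 p.2 ≤ 2 := Th_le_dom hD hp
  have e1 : (-p.1) ^ (-(k : ℝ)) = ((-p.1) ^ (-1 : ℝ)) ^ k := by
    rw [← Real.rpow_natCast, ← Real.rpow_mul hΛ.le]
    congr 1; ring
  have e2 : wt q 0 (-(((e + 1) * k + e * m : ℕ) : ℤ)) 0 p = 1 / (Th p.1 p.2) ^ ((e + 1) * k + e * m) := by
    unfold wt
    rw [pow_zero, zpow_zero, zpow_neg, zpow_natCast]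
    ring
  have h0 : 0 ≤ (-p.1) ^ (-1 : ℝ) := Real.rpow_nonneg hΛ.le _
  have h1 : ((-p.1) ^ (-1 : ℝ)) ^ k ≤ (K / (Th p.1 p.2) ^ (e + 1)) ^ k :=
    pow_le_pow_left₀ h0 (hT p hp) k
  have h2 : (Th p.1 p.2) ^ (e * m) ≤ 2 ^ (e * m) := pow_le_pow_left₀ hΘ.le hΘ2 _
  rw [e1, e2]
  refine h1.trans ?_
  rw [div_pow, ← pow_mul, pow_add, mul_one_div, div_le_div_iff₀ (by positivity) (by positivity)]
  have hKk : 0 ≤ K ^ k := pow_nonneg hK k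
  have hA : 0 ≤ (Th p.1 p.2) ^ ((e + 1) * k) := by positivity
  calc K ^ k * ((Th p.1 p.2) ^ ((e + 1) * k) * (Th p.1 p.2) ^ (e * m))
      = (K ^ k * (Th p.1 p.2) ^ ((e + 1) * k)) * (Th p.1 p.2) ^ (e * m) := by ring
    _ ≤ (K ^ k * (Th p.1 p.2) ^ ((e + 1) * k)) * 2 ^ (e * m) :=
        mul_le_mul_of_nonneg_left h2 (mul_nonneg hKk hA)
    _ = K ^ k * 2 ^ (e * m) * (Th p.1 p.2) ^ ((e + 1) * k) := by ring

theorem ctm_TS (hq : 100 ≤ q) (hD : DomOK D) {κ M K : ℝ} (e : ℕ) (hK : 0 ≤ K)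
    (hS : ∀ p ∈ D, |Xf p.2 / (-p.1) ^ κ| ≤ M)
    (hR : ∀ p ∈ D, (-p.1) ^ (-κ) ≤ K / rh2 q p.1 p.2)
    (hT : ∀ p ∈ D, (-p.1) ^ (-1 : ℝ) ≤ K / (Th p.1 p.2) ^ (e + 1))
    (k m n : ℕ) (hφ : ContDiff ℝ ∞ φ) :
    TS q D m n (wt q 0 (-(((e + 1) * k + e * m : ℕ) : ℤ)) 0) (ctm κ k φ) := by
  refine ⟨sm_ctm κ k hφ, ?_⟩
  have hbase : ∀ (k m : ℕ) (φ : ℝ → ℝ), ContDiff ℝ ∞ φ →
      TY q D 0 n (wt q 0 (-(((e + 1) * k + e * m : ℕ) : ℤ)) 0) (ctm κ k φ) := by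
    intro k m φ hφ
    obtain ⟨C, hC, hle⟩ := ctm_wt_le (q := q) hD e hK hT k m
    exact TY.mono_wt (by linarith) hD hC hle (ctm_TY0 hq hD hK hS hR n k hφ)
  induction m generalizing k φ with
  | zero => exact hbase k 0 φ hφ
  | succ m ih =>
    rw [TY_succ_iff]
    refine ⟨hbase k (m + 1) φ hφ, ?_⟩
    have hφ' : ContDiff ℝ ∞ (deriv φ) := (contDiff_infty_iff_deriv.1 hφ).2
    have hψ : ContDiff ℝ ∞ (fun x => (k : ℝ) * φ x + κ * (x * deriv φ x)) :=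
      (contDiff_const.mul hφ).add (contDiff_const.mul (contDiff_id.mul hφ'))
    have h1 := ih (k + 1) hψ
    have hs : (((k + 1 : ℕ) : ℝ)) = (k : ℝ) + 1 := by push_cast; ring
    rw [hs] at h1
    refine TY.congr hD (fun t ht y => dT_ctm κ _ hφ ht y) ?_
    refine TY.congr_wt (fun p hp => ?_) h1
    rw [wt_div_Th hq hD hp]
    congr 1
    push_cast; ring

end

end Claimed.Agent.R324.Core
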