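/-
Row 324 (S0582), PDE core, module AP, sub-module AP-R (sub-architect helper390), file RZone:  ELEMENTARY INEQUALITIES of the zones (no calculus).
     Λ = -t ∈ (0,1],  y ∈ [1/2,1]  (so X̃ = Xt y = Xf y = X: `Xt_eq`),   R = rh2 q t y = ell2 q t + Xt y,  ell2 q t = (q-1)/100 * lam2 q t,  lam2 q t = Λ^(2γ),  γ = gaF q = 8/bAl q,  2 < bAl q < 3 (`bAl_bounds`),  Θ = Th t y = Λ + Xt y.

* `r_gaF_ge`:  γ = 8/α > 8/3 (α < 3, α > 0; `div_le_div_of_nonneg_left` or `le_div_iff₀`).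
* `r_lam2_le`:  Λ^(2γ) ≤ Λ^κ for κ ≤ 2γ, Λ ≤ 1  (`Real.rpow_le_rpow_of_exponent_ge`).
* `zoneA_R`:  R = c Λ^(2γ) + X ≤ c Λ^(3/2) + 2 Λ^(3/2),  c = (q-1)/100;   Λ^(-3/2) = 1/Λ^(3/2) (`Real.rpow_neg`);   `le_div_iff₀` (R > 0), `inv_mul_le_iff₀`…
* `zoneA_T`:  Θ = Λ + X ≤ Λ + 2 Λ^(3/2) ≤ 3Λ  (Λ^(3/2) ≤ Λ^1);     Λ^(-1) = 1/Λ (`Real.rpow_neg_one`).
* `zoneB_R`:  R ≤ c Λ^(1/2) + 2 Λ^(1/2).            `zoneB_T`:  Θ ≤ Λ + 2 Λ^(1/2) ≤ 3 Λ^(1/2),  Θ² ≤ 9 Λ  ((Λ^(1/2))² = Λ: `Real.rpow_natCast`, `Real.rpow_mul`, or `Real.sqrt_eq_rpow`, `Real.sq_sqrt`).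
* `far_wt`:  on √Λ ≤ X:   Λ ≤ X² ≤ X, so Θ = Λ + X ≤ 2X ≤ 2R  (R ≥ X since ell2 ≥ 0);    R^(-α/2) ≤ (Θ/2)^(-α/2)  (`Real.rpow_le_rpow_of_nonpos`),   Θ² (Θ/2)^(-α/2) = 4 (Θ/2)^(2-α/2) ≤ 4   (Θ/2 ≤ 1, 2 - α/2 ≥ 0: `Real.rpow_le_one`; `Real.rpow_add`, `Real.rpow_natCast`);
        wt q (a+1) b c = R^(-α/2) * Θ² * wt q a (b-2) c   (unfold wt; `pow_succ`, `zpow_sub₀`, Θ ≠ 0),  wt ≥ 0.       K = 4.
* `chiC_supp`:  contrapositives of `chiC_eq_zero_of_y`, `chiC_eq_zero_of_X_le`, `chiC_eq_zero_of_le_X` (PR/SmR.lean) give 3/4 < y, Λ√Λ < X, X < 2√Λ;    Λ < 1/500 ⟹ √Λ < 39/800 (`Real.sqrt_lt' `, (39/800)² = 0.00237…), so 1 - y² = X < 39/400, y² > 361/400, y > 19/20 (nlinarith, y > 0);   X > 0 ⟹ y < 1.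
* `XiF_ge_one`:  Ξ = X/Λ^(2γ),  Λ^(2γ) ≤ Λ^(3/2) = Λ√Λ ≤ X  (`one_le_div`, `lam2_pos`;  Λ√Λ = Λ^(3/2) as in `chiA_eq_ctm`).
-/
import Claimed.Agent.R324.Core.AP.RCtm

set_option autoImplicit false

namespace Claimed.Agent.R324.Core

open Set Filter Topology
open scoped ContDiff

noncomputable section

variable {q t y : ℝ}

theorem r_gaF_ge (hq : 100 ≤ q) : 8 / 3 ≤ gaF q := by
  obtain ⟨h2, h3⟩ := bAl_bounds hq
  unfold gaF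
  exact div_le_div_of_nonneg_left (by norm_num) (by linarith) h3.le

theorem r_lam2_le (hq : 100 ≤ q) (ht : t < 0) (ht1 : -1 ≤ t) {κ : ℝ} (hκ : κ ≤ 5) : lam2 q t ≤ (-t) ^ κ := by
  have hg := r_gaF_ge hq
  unfold lam2
  exact Real.rpow_le_rpow_of_exponent_ge (by linarith) (by linarith) (by linarith)

theorem apr_Xf_nonneg (hy : 1 / 2 ≤ y) (hy1 : y ≤ 1) : 0 ≤ Xf y := by
  unfold Xf
  nlinarith

theorem apr_zone_R (hq : 100 ≤ q) (ht : t < 0) (ht1 : -1 ≤ t) (hy : 1 / 2 ≤ y) (hy1 : y ≤ 1) {κ : ℝ} (hκ : κ ≤ 5)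
    (h2 : Xf y ≤ 2 * (-t) ^ κ) :
    (-t) ^ (-κ) ≤ ((q - 1) / 100 + 2) / rh2 q t y := by
  have hl : 0 < -t := by linarith
  have hP : 0 < (-t) ^ κ := Real.rpow_pos_of_pos hl _
  have hlam := r_lam2_le hq ht ht1 hκ
  have hlp := lam2_pos q ht
  have hX := apr_Xf_nonneg hy hy1
  have hc : 0 < (q - 1) / 100 := by linarith
  have hR : rh2 q t y = (q - 1) / 100 * lam2 q t + Xf y := by
    unfold rh2 ell2
    rw [Xt_eq hy]
  have hRpos : 0 < rh2 q t y := by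
    rw [hR]
    have := mul_pos hc hlp
    linarith
  rw [Real.rpow_neg hl.le, le_div_iff₀ hRpos, inv_mul_le_iff₀ hP, hR]
  have := mul_le_mul_of_nonneg_left hlam hc.le
  nlinarith

theorem zoneA_R (hq : 100 ≤ q) (ht : t < 0) (ht1 : -1 ≤ t) (hy : 1 / 2 ≤ y) (hy1 : y ≤ 1)
    (h2 : Xf y ≤ 2 * (-t) ^ (3 / 2 : ℝ)) :
    (-t) ^ (-(3 / 2 : ℝ)) ≤ ((q - 1) / 100 + 2) / rh2 q t y :=
  apr_zone_R hq ht ht1 hy hy1 (by norm_num) h2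

theorem zoneA_T (ht : t < 0) (ht1 : -1 ≤ t) (hy : 1 / 2 ≤ y) (hy1 : y ≤ 1)
    (h2 : Xf y ≤ 2 * (-t) ^ (3 / 2 : ℝ)) :
    (-t) ^ (-1 : ℝ) ≤ 3 / (Th t y) ^ (0 + 1) := by
  have hl : 0 < -t := by linarith
  have hX := apr_Xf_nonneg hy hy1
  have hT : Th t y = -t + Xf y := by
    unfold Th
    rw [Xt_eq hy]
  have hTpos : 0 < Th t y := by rw [hT]; linarith
  have h1 : (-t) ^ (3 / 2 : ℝ) ≤ (-t) ^ (1 : ℝ) :=
    Real.rpow_le_rpow_of_exponent_ge hl (by linarith) (by norm_num)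
  rw [Real.rpow_one] at h1
  rw [Real.rpow_neg_one, zero_add, pow_one, le_div_iff₀ hTpos, inv_mul_le_iff₀ hl, hT]
  linarith

theorem zoneB_R (hq : 100 ≤ q) (ht : t < 0) (ht1 : -1 ≤ t) (hy : 1 / 2 ≤ y) (hy1 : y ≤ 1)
    (h2 : Xf y ≤ 2 * (-t) ^ (1 / 2 : ℝ)) :
    (-t) ^ (-(1 / 2 : ℝ)) ≤ ((q - 1) / 100 + 2) / rh2 q t y :=
  apr_zone_R hq ht ht1 hy hy1 (by norm_num) h2

theorem zoneB_T (ht : t < 0) (ht1 : -1 ≤ t) (hy : 1 / 2 ≤ y) (hy1 : y ≤ 1)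
    (h2 : Xf y ≤ 2 * (-t) ^ (1 / 2 : ℝ)) :
    (-t) ^ (-1 : ℝ) ≤ 9 / (Th t y) ^ (1 + 1) := by
  have hl : 0 < -t := by linarith
  have hX := apr_Xf_nonneg hy hy1
  have hT : Th t y = -t + Xf y := by
    unfold Th
    rw [Xt_eq hy]
  have hTpos : 0 < Th t y := by rw [hT]; linarith
  rw [← Real.sqrt_eq_rpow] at h2
  have hs0 : 0 ≤ Real.sqrt (-t) := Real.sqrt_nonneg _
  have hs2 : Real.sqrt (-t) ^ 2 = -t := Real.sq_sqrt hl.le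
  have hs1 : Real.sqrt (-t) ≤ 1 := by
    rw [Real.sqrt_le_left (by norm_num)]
    norm_num
    linarith
  have hle : Th t y ≤ 3 * Real.sqrt (-t) := by
    rw [hT]
    nlinarith
  have hsq : (Th t y) ^ 2 ≤ 9 * (-t) := by
    have : (Th t y) ^ 2 ≤ (3 * Real.sqrt (-t)) ^ 2 := pow_le_pow_left₀ hTpos.le hle 2
    nlinarith
  rw [Real.rpow_neg_one, le_div_iff₀ (pow_pos hTpos _), inv_mul_le_iff₀ hl]
  norm_num
  linarith

theorem far_wt (hq : 100 ≤ q) (a : ℕ) (b c : ℤ) (ht : t < 0) (ht1 : -1 ≤ t) (hy : 1 / 2 ≤ y) (hy1 : y ≤ 1)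
    (h : Real.sqrt (-t) ≤ Xf y) :
    wt q (a + 1) b c (t, y) ≤ 4 * wt q a (b - 2) c (t, y) := by
  have hl : 0 < -t := by linarith
  obtain ⟨hα2, hα3⟩ := bAl_bounds hq
  have hX := apr_Xf_nonneg hy hy1
  have hX1 : Xf y ≤ 1 := by unfold Xf; nlinarith
  have hT : Th t y = -t + Xf y := by
    unfold Th
    rw [Xt_eq hy]
  have hTpos : 0 < Th t y := by rw [hT]; linarith
  have hlp := lam2_pos q ht
  have hc : 0 < (q - 1) / 100 := by linarith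
  have hR : rh2 q t y = (q - 1) / 100 * lam2 q t + Xf y := by
    unfold rh2 ell2
    rw [Xt_eq hy]
  have hRX : Xf y ≤ rh2 q t y := by
    rw [hR]
    have := mul_pos hc hlp
    linarith
  have hs0 : 0 ≤ Real.sqrt (-t) := Real.sqrt_nonneg _
  have hs2 : Real.sqrt (-t) ^ 2 = -t := Real.sq_sqrt hl.le
  have hΛX : -t ≤ Xf y := by nlinarith
  have hTX : Th t y / 2 ≤ Xf y := by rw [hT]; linarith
  have hT2 : 0 < Th t y / 2 := by linarith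
  have hRpos : 0 < rh2 q t y := by linarith
  have k1 : (rh2 q t y) ^ (-(alF q) / 2) ≤ (Th t y / 2) ^ (-(alF q) / 2) :=
    Real.rpow_le_rpow_of_nonpos hT2 (hTX.trans hRX) (by unfold alF; linarith)
  have k2 : (Th t y / 2) ^ (-(alF q) / 2) * (Th t y / 2) ^ (2 : ℕ) ≤ 1 := by
    rw [← Real.rpow_natCast, ← Real.rpow_add hT2]
    exact Real.rpow_le_one hT2.le (hTX.trans hX1) (by unfold alF; push_cast; linarith)
  have k3 : (rh2 q t y) ^ (-(alF q) / 2) * (Th t y) ^ (2 : ℕ) ≤ 4 := by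
    have e : (Th t y) ^ (2 : ℕ) = 4 * (Th t y / 2) ^ (2 : ℕ) := by ring
    rw [e]
    have := mul_le_mul_of_nonneg_right k1 (pow_nonneg hT2.le 2)
    nlinarith
  have e1 : (Th t y) ^ b = (Th t y) ^ (b - 2) * (Th t y) ^ (2 : ℕ) := by
    rw [← zpow_natCast, ← zpow_add₀ hTpos.ne']
    congr 1
    push_cast
    ring
  have hw : 0 ≤ wt q a (b - 2) c (t, y) := by
    unfold wt
    exact mul_nonneg (mul_nonneg (pow_nonneg (Real.rpow_nonneg hRpos.le _) _) (zpow_nonneg hTpos.le _))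
      (zpow_nonneg hRpos.le _)
  have e2 : wt q (a + 1) b c (t, y)
      = ((rh2 q t y) ^ (-(alF q) / 2) * (Th t y) ^ (2 : ℕ)) * wt q a (b - 2) c (t, y) := by
    unfold wt
    simp only []
    rw [e1, pow_succ]
    ring
  rw [e2]
  exact mul_le_mul_of_nonneg_right k3 hw

theorem chiC_supp (ht : t < 0) (ht' : -1 / 500 < t) (h : chiC (t, y) ≠ 0) :
    19 / 20 < y ∧ y < 1 ∧ (-t) * Real.sqrt (-t) < Xf y ∧ Xf y < 2 * Real.sqrt (-t) := by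
  have hl : 0 < -t := by linarith
  have h1 : 3 / 4 < y := by
    by_contra hc
    exact h (chiC_eq_zero_of_y t (not_lt.1 hc))
  have h2 : (-t) * Real.sqrt (-t) < Xf y := by
    by_contra hc
    exact h (chiC_eq_zero_of_X_le ht (not_lt.1 hc))
  have h3 : Xf y < 2 * Real.sqrt (-t) := by
    by_contra hc
    exact h (chiC_eq_zero_of_le_X ht (not_lt.1 hc))
  have hs : Real.sqrt (-t) < 39 / 800 := by
    rw [Real.sqrt_lt' (by norm_num)]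
    norm_num
    linarith
  have hs0 : 0 < Real.sqrt (-t) := Real.sqrt_pos.2 hl
  have hXpos : 0 < Xf y := lt_trans (mul_pos hl hs0) h2
  have hX2 : Xf y < 39 / 400 := by linarith
  unfold Xf at hXpos hX2
  refine ⟨?_, ?_, h2, h3⟩
  · by_contra hc
    have hc' : y ≤ 19 / 20 := not_lt.1 hc
    nlinarith
  · by_contra hc
    have hc' : 1 ≤ y := not_lt.1 hc
    nlinarith

theorem XiF_ge_one (hq : 100 ≤ q) (ht : t < 0) (ht1 : -1 ≤ t) (h : (-t) * Real.sqrt (-t) ≤ Xf y) :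
    1 ≤ XiF q (t, y) := by
  have hl : 0 < -t := by linarith
  have e : (-t) * Real.sqrt (-t) = (-t) ^ (3 / 2 : ℝ) := by
    rw [Real.sqrt_eq_rpow, show (3 / 2 : ℝ) = 1 + 1 / 2 by norm_num, Real.rpow_add hl, Real.rpow_one]
  have h1 : lam2 q t ≤ (-t) ^ (3 / 2 : ℝ) := r_lam2_le hq ht ht1 (by norm_num)
  unfold XiF
  simp only []
  rw [one_le_div (lam2_pos q ht)]
  linarith

end

end Claimed.Agent.R324.Core
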