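/-
Row 324 (S0582), PDE core, module AP, sub-module AP-R (sub-architect helper390), file RChiA:  the inner cut-off  chiA = sT(X/(Λ√Λ) - 1)  is a symbol of order 0 with ALL derivatives on late northern domains (`DomR D`: -1/1000 ≤ t < 0, 1/2 ≤ y ≤ 1).
Tools: `chiA_eq_ctm`, `sm_chiA` (RCtm.lean), `ctm_TS` (RCtmTS.lean), `zoneA_R`, `zoneA_T` (RZone.lean), `TY.union`, `TY.subset`, `TY.congr_ev`, `TY.congr`, `TY.const`, `TY.of_ev_zero` (Cal/ClsB, ClsC, AlgB), `TS.one_wt`, `ap_ts_cast` (TipG).     sT = Real.smoothTransition (`zero_of_nonpos`, `one_of_one_le`).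

* `chiA_ev_zero`:  U = {x | x.1 < 0 ∧ Xf x.2 < (-x.1) * √(-x.1)} is open (`isOpen_lt`, continuity: `pr_continuous_Xf.comp continuous_snd`, `continuous_fst.neg.mul (Real.continuous_sqrt.comp continuous_fst.neg)`) and contains p;   on U:  X/(Λ√Λ) - 1 ≤ 0 (`div_le_one`, Λ√Λ > 0), sT = 0.
* `chiA_ev_one`:   U = {x | x.1 < 0 ∧ 2 * ((-x.1) * √(-x.1)) < Xf x.2};   on U:  1 ≤ X/(Λ√Λ) - 1 (`le_div_iff₀`), sT = 1.
* `ts_chiA`:   D = D₀ ∪ D₁ ∪ D₂,   D₀ = D ∩ {X < Λ√Λ},  D₁ = D ∩ {Λ√Λ ≤ X ≤ 2Λ√Λ},  D₂ = D ∩ {2Λ√Λ < X}   (prove TY on the union with `TY.union` twice (weight wt 0 0 0 = 1 ≥ 0: `wt_zero`), then `TY.subset`).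
      D₀: `TY.of_ev_zero`.      D₂: `TY.congr_ev` to the constant 1, `TY.const` (weight fun _ => 1; `TY.congr_wt` with `wt_zero`).
      D₁: `TY.congr` with `chiA_eq_ctm`, then `ctm_TS` with κ = 3/2, e = 0, k = 0, M = 2, K = (q-1)/100 + 3 (≥ both constants of `zoneA_R`, `zoneA_T`: enlarge with `div_le_div_of_nonneg_right`, R, Θ > 0),  φ x = sT (x - 1);   Λ√Λ = Λ^(3/2) (see the proof of `chiA_eq_ctm`);
          (ctm κ ((0:ℕ):ℝ) φ: `Nat.cast_zero`);   the weight wt 0 (-(((0+1)*0 + 0*m : ℕ):ℤ)) 0 = wt 0 0 0 (`ap_ts_cast rfl (by simp) rfl`).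
-/
import Claimed.Agent.R324.Core.AP.RCtmTS
import Claimed.Agent.R324.Core.AP.RZone

set_option autoImplicit false

namespace Claimed.Agent.R324.Core

open Set Filter Topology
open scoped ContDiff

noncomputable section

variable {q : ℝ} {D : Set (ℝ × ℝ)} {m n : ℕ} {p : ℝ × ℝ}

theorem apr_cont_LsL : Continuous (fun x : ℝ × ℝ => (-x.1) * Real.sqrt (-x.1)) :=
  continuous_fst.neg.mul (Real.continuous_sqrt.comp continuous_fst.neg)

theorem apr_LsL_pos {t : ℝ} (ht : t < 0) : 0 < (-t) * Real.sqrt (-t) :=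
  mul_pos (by linarith) (Real.sqrt_pos.2 (by linarith))

theorem apr_LsL_eq {t : ℝ} (ht : t < 0) : (-t) * Real.sqrt (-t) = (-t) ^ (3 / 2 : ℝ) := by
  have hl : 0 < -t := by linarith
  rw [Real.sqrt_eq_rpow, show (3 / 2 : ℝ) = 1 + 1 / 2 by norm_num, Real.rpow_add hl, Real.rpow_one]

theorem chiA_ev_zero (h1 : p.1 < 0) (h2 : Xf p.2 < (-p.1) * Real.sqrt (-p.1)) : chiA =ᶠ[𝓝 p] fun _ => 0 := by
  have ho : IsOpen {x : ℝ × ℝ | x.1 < 0 ∧ Xf x.2 < (-x.1) * Real.sqrt (-x.1)} :=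
    (isOpen_lt continuous_fst continuous_const).inter
      (isOpen_lt (pr_continuous_Xf.comp continuous_snd) apr_cont_LsL)
  filter_upwards [ho.mem_nhds ⟨h1, h2⟩] with x hx
  obtain ⟨hx1, hx2⟩ := hx
  show Real.smoothTransition (Xf x.2 / ((-x.1) * Real.sqrt (-x.1)) - 1) = 0
  apply Real.smoothTransition.zero_of_nonpos
  have := (div_le_one (apr_LsL_pos hx1)).2 hx2.le
  linarith

theorem chiA_ev_one (h1 : p.1 < 0) (h2 : 2 * ((-p.1) * Real.sqrt (-p.1)) < Xf p.2) : chiA =ᶠ[𝓝 p] fun _ => 1 := by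
  have ho : IsOpen {x : ℝ × ℝ | x.1 < 0 ∧ 2 * ((-x.1) * Real.sqrt (-x.1)) < Xf x.2} :=
    (isOpen_lt continuous_fst continuous_const).inter
      (isOpen_lt (continuous_const.mul apr_cont_LsL) (pr_continuous_Xf.comp continuous_snd))
  filter_upwards [ho.mem_nhds ⟨h1, h2⟩] with x hx
  obtain ⟨hx1, hx2⟩ := hx
  show Real.smoothTransition (Xf x.2 / ((-x.1) * Real.sqrt (-x.1)) - 1) = 1
  apply Real.smoothTransition.one_of_one_le
  have := (le_div_iff₀ (apr_LsL_pos hx1)).2 hx2.le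
  linarith

theorem ts_chiA (hq : 100 ≤ q) (hD : DomR D) : TS q D m n (wt q 0 0 0) chiA := by
  have hq1 : 1 < q := by linarith
  refine ⟨sm_chiA, ?_⟩
  set D₀ : Set (ℝ × ℝ) := D ∩ {x | Xf x.2 < (-x.1) * Real.sqrt (-x.1)} with hD₀
  set D₁ : Set (ℝ × ℝ) := D ∩ {x | (-x.1) * Real.sqrt (-x.1) ≤ Xf x.2 ∧ Xf x.2 ≤ 2 * ((-x.1) * Real.sqrt (-x.1))} with hD₁
  set D₂ : Set (ℝ × ℝ) := D ∩ {x | 2 * ((-x.1) * Real.sqrt (-x.1)) < Xf x.2} with hD₂
  have s0 : D₀ ⊆ D := inter_subset_left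
  have s1 : D₁ ⊆ D := inter_subset_left
  have s2 : D₂ ⊆ D := inter_subset_left
  have t0 : TY q D₀ m n (wt q 0 0 0) chiA :=
    TY.of_ev_zero (fun p hp => chiA_ev_zero (hD p hp.1).2.1 hp.2)
  have t2 : TY q D₂ m n (wt q 0 0 0) chiA := by
    refine TY.congr_ev (g := fun _ => 1) (fun p hp => chiA_ev_one (hD p hp.1).2.1 hp.2) ?_
    exact (TY.const 1).congr_wt (fun p _ => (wt_zero p).symm)
  have t1 : TY q D₁ m n (wt q 0 0 0) chiA := by
    have hD1 : DomR D₁ := hD.subset s1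
    have hK : (0 : ℝ) ≤ (q - 1) / 100 + 3 := by linarith
    have hφ : ContDiff ℝ ∞ (fun x : ℝ => Real.smoothTransition (x - 1)) :=
      Real.smoothTransition.contDiff.comp (contDiff_id.sub contDiff_const)
    have key := ctm_TS (q := q) (D := D₁) (φ := fun x : ℝ => Real.smoothTransition (x - 1)) hq hD1.ok
      (κ := 3 / 2) (M := 2) (K := (q - 1) / 100 + 3) 0 hK
      (by
        intro p hp
        obtain ⟨h1, h2, h3, h4⟩ := hD p hp.1
        have hpos := apr_LsL_pos h2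
        rw [← apr_LsL_eq h2]
        have hX0 : 0 ≤ Xf p.2 := hpos.le.trans hp.2.1
        rw [abs_of_nonneg (div_nonneg hX0 hpos.le), div_le_iff₀ hpos]
        exact hp.2.2)
      (by
        intro p hp
        obtain ⟨h1, h2, h3, h4⟩ := hD p hp.1
        have hz := zoneA_R (q := q) (t := p.1) (y := p.2) hq h2 (by linarith) h3 h4
          (by rw [← apr_LsL_eq h2]; exact hp.2.2)
        refine hz.trans ?_
        exact div_le_div_of_nonneg_right (by linarith) (rh2_pos_dom hq1 hD1.ok hp).le)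
      (by
        intro p hp
        obtain ⟨h1, h2, h3, h4⟩ := hD p hp.1
        have hz := zoneA_T (t := p.1) (y := p.2) h2 (by linarith) h3 h4
          (by rw [← apr_LsL_eq h2]; exact hp.2.2)
        refine hz.trans ?_
        exact div_le_div_of_nonneg_right (by linarith) (pow_pos (Th_pos_dom hD1.ok hp) _).le)
      0 m n hφ
    have key2 : TS q D₁ m n (wt q 0 0 0) (ctm (3 / 2) ((0 : ℕ) : ℝ) (fun x : ℝ => Real.smoothTransition (x - 1))) :=
      ap_ts_cast rfl (by simp) rfl key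
    rw [Nat.cast_zero] at key2
    exact TY.congr hD1.ok (fun t ht y => chiA_eq_ctm ht y) key2.bd
  have hU1 : DomR (D₀ ∪ D₁) := hD.subset (union_subset s0 s1)
  have hU2 : DomR ((D₀ ∪ D₁) ∪ D₂) := hD.subset (union_subset (union_subset s0 s1) s2)
  have u1 : TY q (D₀ ∪ D₁) m n (wt q 0 0 0) chiA :=
    TY.union hq1 hU1.ok (fun p _ => by rw [wt_zero]; exact zero_le_one) t0 t1
  have u2 : TY q ((D₀ ∪ D₁) ∪ D₂) m n (wt q 0 0 0) chiA :=
    TY.union hq1 hU2.ok (fun p _ => by rw [wt_zero]; exact zero_le_one) u1 t2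
  refine u2.subset ?_
  intro p hp
  by_cases c0 : Xf p.2 < (-p.1) * Real.sqrt (-p.1)
  · exact Or.inl (Or.inl ⟨hp, c0⟩)
  · by_cases c2 : 2 * ((-p.1) * Real.sqrt (-p.1)) < Xf p.2
    · exact Or.inr ⟨hp, c2⟩
    · exact Or.inl (Or.inr ⟨hp, not_lt.1 c0, not_lt.1 c2⟩)

end

end Claimed.Agent.R324.Core
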