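/-
Row 324 (S0582), PDE core, module AP, sub-module AP-R (sub-architect helper390), file RChiB:  the outer cut-off  chiB = sT(2 - X/√Λ)  on late northern domains (`DomR D`: -1/1000 ≤ t < 0, 1/2 ≤ y ≤ 1).
In the transition zone X ~ √Λ one has Θ ~ √Λ, so a t-derivative costs 1/Λ ~ 1/Θ² (NOT 1/Θ):    chiB ∈ TS m n (wt 0 (-m) 0).
Tools: `chiB_eq_ctm`, `sm_chiB` (RCtm.lean), `ctm_TS` (RCtmTS.lean), `zoneB_R`, `zoneB_T` (RZone.lean), `TY.union`, `TY.subset`, `TY.congr_ev`, `TY.congr`, `TY.const`, `TY.of_ev_zero`, `TY.mono_wt` (Cal/ClsB, ClsC, AlgB), `wt_le` (Cal/WtB), `ap_ts_cast` (TipG).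

* `chiB_ev_one`:   U = {x | x.1 < 0 ∧ Xf x.2 < √(-x.1)} is open and contains p;  on U:  1 ≤ 2 - X/√Λ (`div_le_one`, √Λ > 0), sT = 1.
* `chiB_ev_zero`:  U = {x | x.1 < 0 ∧ 2 * √(-x.1) < Xf x.2};   on U:  2 - X/√Λ ≤ 0.
* `ts_chiB`:   D = D₀ ∪ D₁ ∪ D₂,   D₀ = D ∩ {X < √Λ},  D₁ = D ∩ {√Λ ≤ X ≤ 2√Λ},  D₂ = D ∩ {2√Λ < X}   (`TY.union` twice (weights ≥ 0: `wt_pos`), `TY.subset`).
      D₂: `TY.of_ev_zero`.      D₀: `TY.congr_ev` to the constant 1, `TY.const` (weight 1 = wt 0 0 0), then `TY.mono_wt` with `wt_le` (a = a' = 0, c = c' = 0, b = -m ≤ b' = 0):  wt 0 0 0 ≤ K wt 0 (-m) 0.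
      D₁: `TY.congr` with `chiB_eq_ctm`, `ctm_TS` with κ = 1/2, e = 1, k = 0, M = 2, K = (q-1)/100 + 9,  φ x = sT (2 - x);   √Λ = Λ^(1/2) (`Real.sqrt_eq_rpow`);    the weight wt 0 (-(((1+1)*0 + 1*m : ℕ):ℤ)) 0 = wt 0 (-m) 0 (`ap_ts_cast rfl (by simp) rfl`).
-/
import Claimed.Agent.R324.Core.AP.RCtmTS
import Claimed.Agent.R324.Core.AP.RZone

set_option autoImplicit false

namespace Claimed.Agent.R324.Core

open Set Filter Topology
open scoped ContDiff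

noncomputable section

variable {q : ℝ} {D : Set (ℝ × ℝ)} {m n : ℕ} {p : ℝ × ℝ}

theorem apr_chiB_cont_Xf : Continuous fun x : ℝ × ℝ => Xf x.2 := by
  show Continuous fun x : ℝ × ℝ => 1 - x.2 ^ 2
  fun_prop

theorem apr_chiB_cont_sqrt : Continuous fun x : ℝ × ℝ => Real.sqrt (-x.1) := by
  fun_prop

theorem chiB_ev_one (h1 : p.1 < 0) (h2 : Xf p.2 < Real.sqrt (-p.1)) : chiB =ᶠ[𝓝 p] fun _ => 1 := by
  have e1 : ∀ᶠ x : ℝ × ℝ in 𝓝 p, x.1 < 0 :=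
    continuous_fst.continuousAt.eventually_lt continuousAt_const h1
  have e2 : ∀ᶠ x : ℝ × ℝ in 𝓝 p, Xf x.2 < Real.sqrt (-x.1) :=
    apr_chiB_cont_Xf.continuousAt.eventually_lt apr_chiB_cont_sqrt.continuousAt h2
  filter_upwards [e1, e2] with x hx1 hx2
  show Real.smoothTransition (2 - Xf x.2 / Real.sqrt (-x.1)) = 1
  apply Real.smoothTransition.one_of_one_le
  have hs : 0 < Real.sqrt (-x.1) := Real.sqrt_pos.2 (by linarith)
  have := (div_le_one hs).2 hx2.le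
  linarith

theorem chiB_ev_zero (h1 : p.1 < 0) (h2 : 2 * Real.sqrt (-p.1) < Xf p.2) : chiB =ᶠ[𝓝 p] fun _ => 0 := by
  have e1 : ∀ᶠ x : ℝ × ℝ in 𝓝 p, x.1 < 0 :=
    continuous_fst.continuousAt.eventually_lt continuousAt_const h1
  have e2 : ∀ᶠ x : ℝ × ℝ in 𝓝 p, 2 * Real.sqrt (-x.1) < Xf x.2 :=
    (continuous_const.mul apr_chiB_cont_sqrt).continuousAt.eventually_lt apr_chiB_cont_Xf.continuousAt h2
  filter_upwards [e1, e2] with x hx1 hx2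
  show Real.smoothTransition (2 - Xf x.2 / Real.sqrt (-x.1)) = 0
  apply Real.smoothTransition.zero_of_nonpos
  have hs : 0 < Real.sqrt (-x.1) := Real.sqrt_pos.2 (by linarith)
  have := (le_div_iff₀ hs).2 hx2.le
  linarith

theorem ts_chiB (hq : 100 ≤ q) (hD : DomR D) : TS q D m n (wt q 0 (-(m : ℤ)) 0) chiB := by
  have hOK : DomOK D := hD.ok
  have hq1 : 1 < q := by linarith
  set D₀ : Set (ℝ × ℝ) := D ∩ {p | Xf p.2 < Real.sqrt (-p.1)} with hD₀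
  set D₁ : Set (ℝ × ℝ) := D ∩ {p | Real.sqrt (-p.1) ≤ Xf p.2 ∧ Xf p.2 ≤ 2 * Real.sqrt (-p.1)} with hD₁
  set D₂ : Set (ℝ × ℝ) := D ∩ {p | 2 * Real.sqrt (-p.1) < Xf p.2} with hD₂
  have s0 : D₀ ⊆ D := inter_subset_left
  have s1 : D₁ ⊆ D := inter_subset_left
  have s2 : D₂ ⊆ D := inter_subset_left
  have ok0 : DomOK D₀ := hOK.subset s0
  have ok1 : DomOK D₁ := hOK.subset s1
  -- the three pieces
  have t0 : TY q D₀ m n (wt q 0 (-(m : ℤ)) 0) chiB := by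
    have a1 : TS q D₀ m n (fun _ => 1) chiB :=
      ⟨sm_chiB, TY.congr_ev (g := fun _ => 1) (fun p hp => chiB_ev_one (hD p hp.1).2.1 hp.2) (TY.const 1)⟩
    have a2 : TS q D₀ m n (wt q 0 0 0) chiB := TS.one_wt.1 a1
    exact (TS.le_wt hq ok0 (a := 0) (a' := 0) (b := -(m : ℤ)) (b' := 0) (c := 0) (c' := 0) le_rfl le_rfl
      (by simp) a2).bd
  have t2 : TY q D₂ m n (wt q 0 (-(m : ℤ)) 0) chiB :=
    TY.of_ev_zero (fun p hp => chiB_ev_zero (hD p hp.1).2.1 hp.2)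
  have t1 : TY q D₁ m n (wt q 0 (-(m : ℤ)) 0) chiB := by
    have hφ : ContDiff ℝ ∞ (fun x : ℝ => Real.smoothTransition (2 - x)) :=
      Real.smoothTransition.contDiff.comp (contDiff_const.sub contDiff_id)
    have hK : (0 : ℝ) ≤ (q - 1) / 100 + 9 := by
      have : 0 ≤ (q - 1) / 100 := div_nonneg (by linarith) (by norm_num)
      linarith
    have hS : ∀ p ∈ D₁, |Xf p.2 / (-p.1) ^ (1 / 2 : ℝ)| ≤ 2 := by
      intro p hp
      have hΛ : 0 < -p.1 := by have := (hD p hp.1).2.1; linarith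
      rw [← Real.sqrt_eq_rpow]
      have hs : 0 < Real.sqrt (-p.1) := Real.sqrt_pos.2 hΛ
      have hX : 0 ≤ Xf p.2 := hs.le.trans hp.2.1
      rw [abs_of_nonneg (div_nonneg hX hs.le), div_le_iff₀ hs]
      exact hp.2.2
    have hR : ∀ p ∈ D₁, (-p.1) ^ (-(1 / 2 : ℝ)) ≤ ((q - 1) / 100 + 9) / rh2 q p.1 p.2 := by
      intro p hp
      obtain ⟨h1, h2, h3, h4⟩ := hD p hp.1
      have hz := zoneB_R hq h2 (by linarith) h3 h4 (by rw [← Real.sqrt_eq_rpow]; exact hp.2.2)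
      have hr : 0 < rh2 q p.1 p.2 := rh2_pos_dom hq1 ok1 hp
      refine hz.trans (div_le_div_of_nonneg_right (by linarith) hr.le)
    have hT : ∀ p ∈ D₁, (-p.1) ^ (-1 : ℝ) ≤ ((q - 1) / 100 + 9) / (Th p.1 p.2) ^ (1 + 1) := by
      intro p hp
      obtain ⟨h1, h2, h3, h4⟩ := hD p hp.1
      have hz := zoneB_T h2 (by linarith) h3 h4 (by rw [← Real.sqrt_eq_rpow]; exact hp.2.2)
      have hr : 0 < Th p.1 p.2 := Th_pos_dom ok1 hp
      have : 0 ≤ (q - 1) / 100 := div_nonneg (by linarith) (by norm_num)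
      refine hz.trans (div_le_div_of_nonneg_right (by linarith) (pow_pos hr _).le)
    have h := ctm_TS hq ok1 (κ := 1 / 2) (M := 2) (K := (q - 1) / 100 + 9) 1 hK hS hR hT 0 m n hφ
    rw [Nat.cast_zero] at h
    have h' : TS q D₁ m n (wt q 0 (-(m : ℤ)) 0) (ctm (1 / 2) 0 (fun x : ℝ => Real.smoothTransition (2 - x))) :=
      ap_ts_cast rfl (by simp) rfl h
    exact TY.congr ok1 (fun t _ y => chiB_eq_ctm t y) h'.bd
  have sub01 : D₀ ∪ D₁ ⊆ D := union_subset s0 s1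
  have sub012 : D₀ ∪ D₁ ∪ D₂ ⊆ D := union_subset sub01 s2
  have u01 : TY q (D₀ ∪ D₁) m n (wt q 0 (-(m : ℤ)) 0) chiB :=
    TY.union hq1 (hOK.subset sub01) (fun p hp => (wt_pos hq hOK (sub01 hp)).le) t0 t1
  have u012 : TY q (D₀ ∪ D₁ ∪ D₂) m n (wt q 0 (-(m : ℤ)) 0) chiB :=
    TY.union hq1 (hOK.subset sub012) (fun p hp => (wt_pos hq hOK (sub012 hp)).le) u01 t2
  refine ⟨sm_chiB, TY.subset ?_ u012⟩
  intro p hp
  rcases lt_or_ge (Xf p.2) (Real.sqrt (-p.1)) with h | h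
  · exact Or.inl (Or.inl ⟨hp, h⟩)
  · rcases le_or_gt (Xf p.2) (2 * Real.sqrt (-p.1)) with h' | h'
    · exact Or.inl (Or.inr ⟨hp, h, h'⟩)
    · exact Or.inr ⟨hp, h'⟩

end

end Claimed.Agent.R324.Core
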