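/-
Row 324 (S0582), PDE core, module AP, sub-module AP-R (sub-architect helper390), file RChi:  MULTIPLICATION BY THE CUT-OFF  χ = chiC = ψ₁(y) chiA chiB   (`chiC_eq_mul`, rfl).
    DomR D: -1/1000 ≤ t < 0, 1/2 ≤ y ≤ 1 (`DomR.ok : DomOK D`);     DomL D: -1/1000 ≤ t < 0, |y| ≤ 1  (`DomL.ok`, `DomL.north : DomR (D ∩ {p | 1/2 ≤ p.2})`).
Tools: `ts_chiA` (RChiA), `ts_chiB`, `chiB_ev_one` (RChiB), `far_wt` (RZone), `TS.yfun` + `psi1_contDiff`, `TS.one_wt`, `TS.mul_wt`, `TS.le_wt`, `TS.mono_wt`, `TY.union`, `TY.subset`, `TY.congr_ev`, `sm_chiC`, `chiC_eq_zero_of_y` (PR/SmR), `TS.of_north` (BgA0), `wt_pos`.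

* `ts_psiA`:    ψ₁(y) ∈ TS 1 = wt 0 0 0 (`TS.yfun`, `TS.one_wt`) × `ts_chiA`  (`TS.mul_wt`, exponents 0+0).
* `ts_chiC0`:   `ts_psiA` × `ts_chiB` with m = 0  (wt 0 (-(0:ℕ)) 0 = wt 0 0 0: `ap_ts_cast`).
* `TS.chi_mul0`: `TS.mul_wt` with `ts_chiC0`  (0 + a = a etc.: `ap_ts_cast (by simp) (by simp) (by simp)`).
* `TS.chi_mul`:  Sm: `sm_chiC.mul h.sm`.    D = D₁ ∪ D₂,  D₁ = D ∩ {p | Xf p.2 < √(-p.1)},  D₂ = D ∩ {p | √(-p.1) ≤ Xf p.2}  (`lt_or_ge`);  `TY.union` (weights ≥ 0), `TY.subset`.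
      D₁:  near every point of D₁  chiB = 1 (`chiB_ev_one`), so χ f =ᶠ (ψ₁ chiA) f  (`Filter.EventuallyEq.mul`…, or `filter_upwards`): `TY.congr_ev`;    (ψ₁ chiA) f ∈ wt 1 b c (`ts_psiA`, `TS.mul_wt`) ≤ K wt 0 (b-8) c  (`TS.le_wt`: a = 0, a' = 1, 8 ≤ b - (b-8)).
      D₂:  f ∈ TS (wt 1 b c) ⟹ TS (wt 0 (b-2) c)  (`TS.mono_wt` with K = 4, `far_wt` with a = 0);    χ = (ψ₁ chiA) chiB ∈ wt 0 (-m) 0;     product ∈ wt 0 (-m + (b-2)) c ≤ K wt 0 (b-8) c  (`TS.le_wt`: a = a' = 0, c = c',  0 ≤ (-m + (b-2)) - (b-8) = 6 - m).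
* `TS.gchi_mul0`, `TS.gchi_mul`  (GLOBAL versions):  `TS.of_north` (Sm: `sm_chiC.mul hf`;  χ f = 0 for y < 3/4: `chiC_eq_zero_of_y`;  weights ≥ 0: `wt_pos`) + the northern versions on D ∩ {1/2 ≤ y} (`hD.north`).
-/
import Claimed.Agent.R324.Core.AP.RChiA
import Claimed.Agent.R324.Core.AP.RChiB

set_option autoImplicit false

namespace Claimed.Agent.R324.Core

open Set Filter Topology
open scoped ContDiff

noncomputable section

variable {q : ℝ} {D : Set (ℝ × ℝ)} {m n : ℕ} {f : Fn} {a : ℕ} {b c : ℤ}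

theorem ts_psiA (hq : 100 ≤ q) (hD : DomR D) : TS q D m n (wt q 0 0 0) (fun p => psi1 p.2 * chiA p) :=
  ap_ts_cast (by simp) (by simp) (by simp)
    (TS.mul_wt hq hD.ok (TS.one_wt.1 (TS.yfun hq hD.ok psi1_contDiff)) (ts_chiA hq hD))

theorem apr_ts_chiC (hq : 100 ≤ q) (hD : DomR D) : TS q D m n (wt q 0 (-(m : ℤ)) 0) chiC := by
  have h : TS q D m n (wt q 0 (-(m : ℤ)) 0) (fun p => psi1 p.2 * chiA p * chiB p) :=
    ap_ts_cast (by simp) (by simp) (by simp) (TS.mul_wt hq hD.ok (ts_psiA hq hD) (ts_chiB hq hD))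
  exact h

theorem ts_chiC0 (hq : 100 ≤ q) (hD : DomR D) : TS q D 0 n (wt q 0 0 0) chiC :=
  ap_ts_cast rfl (by simp) rfl (apr_ts_chiC (m := 0) hq hD)

theorem TS.chi_mul0 (hq : 100 ≤ q) (hD : DomR D) (h : TS q D 0 n (wt q a b c) f) :
    TS q D 0 n (wt q a b c) (fun p => chiC p * f p) :=
  ap_ts_cast (by simp) (by simp) (by simp) (TS.mul_wt hq hD.ok (ts_chiC0 hq hD) h)

theorem TS.chi_mul (hq : 100 ≤ q) (hD : DomR D) (hm : m ≤ 6) (h : TS q D m n (wt q 1 b c) f) :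
    TS q D m n (wt q 0 (b - 8) c) (fun p => chiC p * f p) := by
  have hOK : DomOK D := hD.ok
  have hq1 : 1 < q := by linarith
  set D₁ : Set (ℝ × ℝ) := D ∩ {p | Xf p.2 < Real.sqrt (-p.1)} with hD₁
  set D₂ : Set (ℝ × ℝ) := D ∩ {p | Real.sqrt (-p.1) ≤ Xf p.2} with hD₂
  have s1 : D₁ ⊆ D := inter_subset_left
  have s2 : D₂ ⊆ D := inter_subset_left
  have r1 : DomR D₁ := hD.subset s1
  have r2 : DomR D₂ := hD.subset s2
  have t1 : TY q D₁ m n (wt q 0 (b - 8) c) (fun p => chiC p * f p) := by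
    have a1 : TS q D₁ m n (wt q 1 b c) (fun p => psi1 p.2 * chiA p * f p) :=
      ap_ts_cast (by simp) (by simp) (by simp) (TS.mul_wt hq r1.ok (ts_psiA hq r1) (h.subset s1))
    have a2 : TS q D₁ m n (wt q 0 (b - 8) c) (fun p => psi1 p.2 * chiA p * f p) :=
      TS.le_wt hq r1.ok (a := 0) (a' := 1) (b := b - 8) (b' := b) (c := c) (c' := c) (by norm_num) le_rfl
        (by push_cast; omega) a1
    refine TY.congr_ev (g := fun p => psi1 p.2 * chiA p * f p) (fun p hp => ?_) a2.bd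
    filter_upwards [chiB_ev_one (hD p hp.1).2.1 hp.2] with x hx
    have hx' : chiB x = 1 := hx
    show psi1 x.2 * chiA x * chiB x * f x = psi1 x.2 * chiA x * f x
    rw [hx', mul_one]
  have t2 : TY q D₂ m n (wt q 0 (b - 8) c) (fun p => chiC p * f p) := by
    have a1 : TS q D₂ m n (wt q 0 (b - 2) c) f := by
      refine TS.mono_wt hq1 r2.ok (K := 4) (by norm_num) (fun p hp => ?_) (h.subset s2)
      obtain ⟨h1, h2, h3, h4⟩ := hD p hp.1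
      exact far_wt hq 0 b c h2 (by linarith) h3 h4 hp.2
    have a2 : TS q D₂ m n (wt q 0 (-(m : ℤ) + (b - 2)) c) (fun p => chiC p * f p) :=
      ap_ts_cast (by simp) rfl (by simp) (TS.mul_wt hq r2.ok (apr_ts_chiC hq r2) a1)
    have hm' : (m : ℤ) ≤ 6 := by exact_mod_cast hm
    exact (TS.le_wt hq r2.ok (a := 0) (a' := 0) (b := b - 8) (b' := -(m : ℤ) + (b - 2)) (c := c) (c' := c) le_rfl
      le_rfl (by push_cast; omega) a2).bd
  have sub : D₁ ∪ D₂ ⊆ D := union_subset s1 s2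
  have u : TY q (D₁ ∪ D₂) m n (wt q 0 (b - 8) c) (fun p => chiC p * f p) :=
    TY.union hq1 (hOK.subset sub) (fun p hp => (wt_pos hq hOK (sub hp)).le) t1 t2
  refine ⟨sm_chiC.mul h.sm, TY.subset ?_ u⟩
  intro p hp
  rcases lt_or_ge (Xf p.2) (Real.sqrt (-p.1)) with h' | h'
  · exact Or.inl ⟨hp, h'⟩
  · exact Or.inr ⟨hp, h'⟩

theorem TS.gchi_mul0 (hq : 100 ≤ q) (hD : DomL D) (h : TS q (D ∩ {p | 1 / 2 ≤ p.2}) 0 n (wt q a b c) f) :
    TS q D 0 n (wt q a b c) (fun p => chiC p * f p) :=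
  TS.of_north hq hD.ok (fun _ hp => (wt_pos hq hD.ok hp).le) (sm_chiC.mul h.sm)
    (fun t _ y hy => by
      show chiC (t, y) * f (t, y) = 0
      rw [chiC_eq_zero_of_y t hy.le, zero_mul])
    (TS.chi_mul0 hq hD.north h).bd

theorem TS.gchi_mul (hq : 100 ≤ q) (hD : DomL D) (hm : m ≤ 6)
    (h : TS q (D ∩ {p | 1 / 2 ≤ p.2}) m n (wt q 1 b c) f) :
    TS q D m n (wt q 0 (b - 8) c) (fun p => chiC p * f p) :=
  TS.of_north hq hD.ok (fun _ hp => (wt_pos hq hD.ok hp).le) (sm_chiC.mul h.sm)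
    (fun t _ y hy => by
      show chiC (t, y) * f (t, y) = 0
      rw [chiC_eq_zero_of_y t hy.le, zero_mul])
    (TS.chi_mul hq hD.north hm h).bd

end

end Claimed.Agent.R324.Core
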