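/-
Row 324 (S0582), PDE core, module AP, sub-module AP-R (sub-architect helper390), file RReg:  REGULARISED CONE FUNCTIONS (functions of one variable).      Definitions: RDefs.lean.
     rgE f a s = sT(2s/a - 1) * f s,    sT = Real.smoothTransition;        rF0 q w Ξ = log(q-1) - rgE log (P 1) (P Ξ),   P = bP w = Ξ e^{-w}.

* `rgE_contDiff`:  `contDiff_iff_contDiffAt`;   at s₀ > 0: product of smooth functions (`hf.contDiffAt (Ioi_mem_nhds ..)`, sT∘affine is ContDiff);    at s₀ < a/2:  on the neighbourhood Iio (a/2):  2s/a - 1 < 0, sT = 0, so rgE f a is eventually 0 (`ContDiffAt.congr_of_eventuallyEq`, `contDiffAt_const`).     Every s₀ satisfies one of the two (a > 0).      MODEL: `ap_psi1_div_contDiff` (TipF.lean).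
* `rgE_eq`:  a ≤ s ⟹ 1 ≤ 2s/a - 1 (`le_div_iff₀`), sT = 1.
* `rgE_log_contDiff`, `rgE_inv_contDiff`:  log and s ↦ s⁻¹ are smooth on Ioi 0 (`Real.contDiffOn_log.mono`/`contDiffOn_id.log`, `contDiffOn_id.inv`/`contDiffOn_inv`).
* `BP.P1_pos`, `BP.P1_le`:  `IsBohm.crude_pos h.hq h.bohm (Ξ := 1) one_pos`.
* `BP.symb_rF0`:  `IsBohm.symb_of_G1 h.hq h.bohm` (Bohm/SymbG.lean) with  G p = log(q-1) - rgE log (P 1) p.1:   smooth on ℝ² (`rgE_log_contDiff.comp contDiff_fst`), hence `ContDiffOn` on bU q;    G (bC q) = log(q-1) - rgE log (P 1) (q-1) = 0  (bC q = (q-1, 2);  `rgE_eq`, P 1 ≤ q-1);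
        f = rF0 q w is smooth (`rgE_log_contDiff.comp h.bohm.contDiff_bP_sc1`);    f Ξ = G (bPQ w Ξ) by rfl  (bPQ w Ξ = (bP w Ξ, th w Ξ)).
* `BP.rF0_eq`:  Ξ ≥ 1 ⟹ P Ξ ≥ P 1 (`BP.P_lower one_pos`, TipG.lean), `rgE_eq`;    log(q-1) - log P = -log(P/(q-1))  (`Real.log_div`, P ≠ 0, q-1 ≠ 0).
* `BP.rgE_inv_P`:  the same with s⁻¹.
-/
import Claimed.Agent.R324.Core.AP.RDefs

set_option autoImplicit false

namespace Claimed.Agent.R324.Core

open Set Filter Topology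
open scoped ContDiff

noncomputable section

variable {q : ℕ} {w z f : ℝ → ℝ} {a s : ℝ}

theorem rgE_contDiff (ha : 0 < a) (hf : ContDiffOn ℝ ∞ f (Ioi 0)) : ContDiff ℝ ∞ (rgE f a) := by
  rw [contDiff_iff_contDiffAt]
  intro s₀
  have hT : ContDiff ℝ ∞ (fun s : ℝ => Real.smoothTransition (2 * s / a - 1)) :=
    Real.smoothTransition.contDiff.comp (((contDiff_const.mul contDiff_id).div_const a).sub contDiff_const)
  rcases lt_or_ge 0 s₀ with hs | hs
  · exact hT.contDiffAt.mul (hf.contDiffAt (Ioi_mem_nhds hs))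
  · have hev : rgE f a =ᶠ[𝓝 s₀] fun _ => (0 : ℝ) := by
      have hmem : Iio (a / 2) ∈ 𝓝 s₀ := Iio_mem_nhds (by linarith)
      filter_upwards [hmem] with s hs'
      have hs'' : s < a / 2 := hs'
      unfold rgE
      rw [Real.smoothTransition.zero_of_nonpos, zero_mul]
      have : 2 * s / a < 1 := by
        rw [div_lt_one ha]
        linarith
      linarith
    exact contDiffAt_const.congr_of_eventuallyEq hev

theorem rgE_eq (f : ℝ → ℝ) (ha : 0 < a) (hs : a ≤ s) : rgE f a s = f s := by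
  unfold rgE
  rw [Real.smoothTransition.one_of_one_le, one_mul]
  have : 2 ≤ 2 * s / a := by
    rw [le_div_iff₀ ha]
    linarith
  linarith

theorem rgE_log_contDiff (ha : 0 < a) : ContDiff ℝ ∞ (rgE Real.log a) := by
  refine rgE_contDiff ha (Real.contDiffOn_log.mono ?_)
  intro s hs
  exact (ne_of_gt hs : s ≠ 0)

theorem rgE_inv_contDiff (ha : 0 < a) : ContDiff ℝ ∞ (rgE (fun s => s⁻¹) a) := by
  refine rgE_contDiff ha (contDiffOn_id.inv ?_)
  intro s hs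
  exact (ne_of_gt hs : s ≠ 0)

theorem BP.P1_pos (h : BP q w z) : 0 < bP w 1 := by
  exact (IsBohm.crude_pos h.hq h.bohm (Ξ := 1) one_pos).1

theorem BP.P1_le (h : BP q w z) : bP w 1 ≤ (q : ℝ) - 1 := by
  exact (IsBohm.crude_pos h.hq h.bohm (Ξ := 1) one_pos).2.2.1.le

theorem BP.symb_rF0 (h : BP q w z) : IsSymb (bJ w) (rF0 q w) := by
  have hc := rgE_log_contDiff h.P1_pos
  refine IsBohm.symb_of_G1 h.hq h.bohm (G := fun p => Real.log ((q : ℝ) - 1) - rgE Real.log (bP w 1) p.1)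
    ?_ ?_ ?_ (fun _ _ => rfl)
  · exact (contDiff_const.sub (hc.comp contDiff_fst)).contDiffOn
  · show Real.log ((q : ℝ) - 1) - rgE Real.log (bP w 1) ((q : ℝ) - 1) = 0
    rw [rgE_eq _ h.P1_pos h.P1_le, sub_self]
  · exact contDiff_const.sub (hc.comp h.bohm.contDiff_bP_sc1)

theorem BP.rF0_eq (h : BP q w z) {Ξ : ℝ} (hΞ : 1 ≤ Ξ) : rF0 q w Ξ = -Real.log (bP w Ξ / ((q : ℝ) - 1)) := by
  have h1 : bP w 1 ≤ bP w Ξ := h.P_lower one_pos Ξ hΞ
  have hP : 0 < bP w Ξ := h.P1_pos.trans_le h1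
  have hq : (0 : ℝ) < (q : ℝ) - 1 := by linarith [h.hqR]
  unfold rF0
  rw [rgE_eq _ h.P1_pos h1, Real.log_div hP.ne' hq.ne']
  ring

theorem BP.rgE_inv_P (h : BP q w z) {Ξ : ℝ} (hΞ : 1 ≤ Ξ) :
    rgE (fun s => s⁻¹) (bP w 1) (bP w Ξ) = (bP w Ξ)⁻¹ := by
  exact rgE_eq _ h.P1_pos (h.P_lower one_pos Ξ hΞ)

end

end Claimed.Agent.R324.Core
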