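/-
Row 324 (S0582), PDE core, module AP, sub-module AP-R (sub-architect helper390), file RTs:  SYMBOL BOUNDS of  ω = rOm,  η = rEta,  rInvX (= 1/X),  rDB (= B_tip - B_cone).      Definitions: RDefs.lean.     D admissible and northern (`DomOK D`, `DomN D`), n arbitrary, m ≤ 7.
Tools: `BP.ts_cmp1`, `BP.ts_P` (TipC2), `BP.ts_ew` (TipC), `BP.ts_uWF`, `BP.ts_uZF` (TipD), `BP.symb_rF0`, `rgE_inv_contDiff`, `BP.P1_pos` (RReg), `IsBohm.symb_logz1`, `IsBohm.bl_spec`, `TS.comp`, `TS.yfun`, `TS.one_wt`, `TS.mul_wt`, `TS.le_wt`, `TS.add`, `TS.neg`, `TS.congr`, `ph1_contDiff`.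

* `X_atm`:   X * atm q (2γ) F (t,y) = Ξ F(Ξ):    atm = Λ^(-2γ) F(Ξ),  Ξ = X/Λ^(2γ)  (unfold atm XiF lam2; `Real.rpow_neg`; field_simp/ring).
* `BP.zeF_eq`:   ζ = X (atm (2γ) l + uZ1) = Ξ l(Ξ) + X uZ1 = log z(Ξ) + uZF   (`X_atm`, `h.bohm.bl_spec h.pos`; unfold zeF ze1 uZF).
* `BP.ts_rOm`:   rF0(Ξ) ∈ wt 1 8 0 (`ts_cmp1` with `symb_rF0`),  uWF ∈ wt 1 8 0 (`ts_uWF`);  `TS.add`.
* `BP.ts_rEta`:  η = (log z - log z₀)(Ξ) + uZF on t < 0 (`zeF_eq`; z0F q = (q-1)/(q+1) by definition);   `ts_cmp1` with `h.bohm.symb_logz1 h.hq h.pos`, `ts_uZF`;  `TS.add`, `TS.congr`.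
* `BP.ts_rEta0`: wt 1 8 0 ≤ K wt 0 0 0 (`TS.le_wt`), `TS.one_wt`.
* `BP.ts_rInvX`: `ts_ew` (wt 0 0 (-1)) × (rgE inv (P 1))(P(Ξ)) ∈ TS 1  (`TS.comp` with `rgE_inv_contDiff h.P1_pos` applied to `TS.one_wt.2 ts_P`).
* `BP.ts_etaPh`: η Φ₁(η):   wt 1 8 0 × TS 1 (`TS.comp ph1_contDiff` applied to `ts_rEta0`).
* `BP.ts_rDB`:   -(y²/z₀) ∈ TS 1 (`TS.yfun` with φ y = -(y²/z₀)) × `ts_etaPh` × `ts_rInvX`:   wt (0+1+0) (0+8+0) (0+0+(-1)).
-/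
import Claimed.Agent.R324.Core.AP.RReg

set_option autoImplicit false

namespace Claimed.Agent.R324.Core

open Set Filter Topology
open scoped ContDiff

noncomputable section

variable {D : Set (ℝ × ℝ)} {m n : ℕ} {q : ℕ} {w z : ℝ → ℝ} {t : ℝ}

theorem X_atm (q : ℝ) (F : ℝ → ℝ) (ht : t < 0) (y : ℝ) :
    Xf y * atm q (2 * gaF q) F (t, y) = XiF q (t, y) * F (XiF q (t, y)) := by
  have hL : 0 < -t := by linarith
  have hp : 0 < (-t) ^ (2 * gaF q) := Real.rpow_pos_of_pos hL _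
  unfold atm
  generalize F (XiF q (t, y)) = c
  unfold XiF lam2
  simp only
  rw [Real.rpow_neg hL.le]
  field_simp

theorem BP.zeF_eq (h : BP q w z) (ht : t < 0) (y : ℝ) :
    zeF q z (t, y) = Real.log (z (XiF q (t, y))) + uZF q z (t, y) := by
  rw [h.bohm.bl_spec h.pos, ← X_atm (q : ℝ) (bl z) ht y]
  unfold zeF ze1 uZF
  simp only
  ring

theorem BP.ts_rOm (h : BP q w z) (hD : DomOK D) (hN : DomN D) (hm : m ≤ 7) :
    TS q D m n (wt q 1 8 0) (rOm q w) := by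
  exact TS.add hD (h.ts_cmp1 hD hN hm h.symb_rF0) (h.ts_uWF hD hN hm)

theorem BP.ts_rEta (h : BP q w z) (hD : DomOK D) (hN : DomN D) (hm : m ≤ 7) :
    TS q D m n (wt q 1 8 0) (rEta q z) := by
  refine TS.congr hD (fun t ht y => ?_)
    (TS.add hD (h.ts_cmp1 hD hN hm (h.bohm.symb_logz1 h.hq h.pos)) (h.ts_uZF hD hN hm))
  unfold rEta
  rw [h.zeF_eq ht y]
  unfold z0F
  ring

theorem BP.ts_rEta0 (h : BP q w z) (hD : DomOK D) (hN : DomN D) (hm : m ≤ 7) :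
    TS q D m n (fun _ => 1) (rEta q z) := by
  exact TS.one_wt.2 (TS.le_wt h.hqR hD (Nat.zero_le 1) le_rfl (by norm_num) (h.ts_rEta hD hN hm))

theorem BP.ts_rInvX (h : BP q w z) (hD : DomOK D) (hN : DomN D) (hm : m ≤ 7) :
    TS q D m n (wt q 0 0 (-1)) (rInvX q w) := by
  have h1 := h.ts_ew (m := m) (n := n) hD hN hm
  have h2 : TS q D m n (wt q 0 0 0) (fun p => rgE (fun s => s⁻¹) (bP w 1) (bP w (XiF q p))) :=
    TS.one_wt.1 (TS.comp hD (rgE_inv_contDiff h.P1_pos) (TS.one_wt.2 (h.ts_P hD hN hm)))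
  exact ap_ts_cast (by norm_num) (by norm_num) (by norm_num) (TS.mul_wt h.hqR hD h1 h2)

theorem BP.ts_etaPh (h : BP q w z) (hD : DomOK D) (hN : DomN D) (hm : m ≤ 7) :
    TS q D m n (wt q 1 8 0) (fun p => rEta q z p * Ph1 (rEta q z p)) := by
  have h2 : TS q D m n (wt q 0 0 0) (fun p => Ph1 (rEta q z p)) :=
    TS.one_wt.1 (TS.comp hD ph1_contDiff (h.ts_rEta0 hD hN hm))
  exact ap_ts_cast (by norm_num) (by norm_num) (by norm_num) (TS.mul_wt h.hqR hD (h.ts_rEta hD hN hm) h2)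

theorem BP.ts_rDB (h : BP q w z) (hD : DomOK D) (hN : DomN D) (hm : m ≤ 7) :
    TS q D m n (wt q 1 8 (-1)) (rDB q w z) := by
  have h1 : TS q D m n (wt q 0 0 0) (fun p => -(p.2 ^ 2 / z0F q)) :=
    TS.one_wt.1 (TS.yfun (φ := fun y => -(y ^ 2 / z0F q)) h.hqR hD ((contDiff_id.pow 2).div_const _).neg)
  exact ap_ts_cast (by norm_num) (by norm_num) (by norm_num)
    (TS.mul_wt h.hqR hD (TS.mul_wt h.hqR hD h1 (h.ts_etaPh hD hN hm)) (h.ts_rInvX hD hN hm))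

end

end Claimed.Agent.R324.Core
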