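/-
Row 324 (S0582), PDE core, module AP, sub-module AP-R (sub-architect helper390), file RGl:  GLOBAL SYMBOL BOUNDS of the differences  g - gt  (g = bgA q w z,  gt = bgR q g)  on late domains (`DomL D`: -1/1000 ≤ t < 0, |y| ≤ 1).       SORRY-FREE (everything is a direct application of RChi, RTs).
      dw = χ ω,   dB = χ rDB,   dW = χ g.W          (RRep:  gt.w = g.w - dw,  gt.B = g.B - dB,  gt.W = g.W - dW  for -1/500 < t < 0).
      without time derivatives the differences are O(𝔍), O(𝔍/r̂²), O(𝔍/Θ);     with time derivatives (m ≤ 6) they are only symbols of order 1, 1/r̂², 1/Θ  (the outer cut-off costs Θ^(-2) per t-derivative).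
-/
import Claimed.Agent.R324.Core.AP.RChi
import Claimed.Agent.R324.Core.AP.RTs

set_option autoImplicit false

namespace Claimed.Agent.R324.Core

open Set Filter Topology
open scoped ContDiff

noncomputable section

variable {D : Set (ℝ × ℝ)} {m n : ℕ} {q : ℕ} {w z : ℝ → ℝ}

theorem BP.sm_R (h : BP q w z) : BgSm (bgR q (bgA q w z)) :=
  bgR_sm (by have := h.hqR; linarith) h.bgA_sm

theorem BP.gts_dw0 (h : BP q w z) (hD : DomL D) :
    TS q D 0 n (wt q 1 8 0) (fun p => chiC p * rOm q w p) :=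
  TS.gchi_mul0 h.hqR hD (h.ts_rOm hD.north.ok hD.north.dn (by norm_num))

theorem BP.gts_dw (h : BP q w z) (hD : DomL D) (hm : m ≤ 6) :
    TS q D m n (wt q 0 0 0) (fun p => chiC p * rOm q w p) :=
  TS.gchi_mul (b := 8) h.hqR hD hm (h.ts_rOm hD.north.ok hD.north.dn (by omega))

theorem BP.gts_dB0 (h : BP q w z) (hD : DomL D) :
    TS q D 0 n (wt q 1 8 (-1)) (fun p => chiC p * rDB q w z p) :=
  TS.gchi_mul0 h.hqR hD (h.ts_rDB hD.north.ok hD.north.dn (by norm_num))

theorem BP.gts_dB (h : BP q w z) (hD : DomL D) (hm : m ≤ 6) :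
    TS q D m n (wt q 0 0 (-1)) (fun p => chiC p * rDB q w z p) :=
  TS.gchi_mul (b := 8) h.hqR hD hm (h.ts_rDB hD.north.ok hD.north.dn (by omega))

theorem BP.gts_dW0 (h : BP q w z) (hD : DomL D) :
    TS q D 0 n (wt q 1 7 0) (fun p => chiC p * (bgA q w z).W p) :=
  TS.gchi_mul0 h.hqR hD (h.gts_W hD.north.ok (by norm_num))

theorem BP.gts_dW (h : BP q w z) (hD : DomL D) (hm : m ≤ 6) :
    TS q D m n (wt q 0 (-1) 0) (fun p => chiC p * (bgA q w z).W p) :=
  TS.gchi_mul (b := 7) h.hqR hD hm (h.gts_W hD.north.ok (by omega))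

end

end Claimed.Agent.R324.Core
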