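/-
Row 324 (S0582), PDE core, module AP, sub-module AP-R (sub-architect helper390), file RId:  POINTWISE IDENTITIES at a point (t,y) with t < 0 and Ξ = XiF q (t,y) ≥ 1 (so X > 0): the regularised functions are the differences tip - cone.      Definitions: RDefs.lean, Core/AP/Defs.lean, `bgCone` (Core/Defs.lean).      No calculus.
Tools: `X_atm`, `BP.zeF_eq` (RTs), `BP.rF0_eq`, `BP.rgE_inv_P` (RReg), `X_Btip` (TipE), `ph1_mul : s * Ph1 s = 1 - exp (-s)` (PR/Ph), `lam2_pos`, `z0F_pos` (PR/Cone), `IsBohm.crude_pos`.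

* `Xf_pos_of_Xi`:   X = Ξ λ², λ² > 0  (XiF q (t,y) = Xf y / lam2 q t).
* `BP.rInvX_eq`:    atm (2γ) e^{-w} = Λ^(-2γ) e^{-w(Ξ)},  P(Ξ) = Ξ e^{-w(Ξ)}  (unfold bP),   so  rInvX = Λ^(-2γ) e^{-w(Ξ)} /(Ξ e^{-w(Ξ)}) = Λ^(-2γ)/Ξ = 1/X.       EASIEST:  X * rInvX = (X atm) * P⁻¹ = (Ξ e^{-w(Ξ)}) * P⁻¹ = 1 (`X_atm`), then divide by X ≠ 0.
* `BP.rOm_eq`:      w_tip = 2γ log Λ + w(Ξ) + u;    log X = log Ξ + 2γ log Λ   (X = Ξ Λ^(2γ): `Real.log_mul`, `Real.log_rpow`);     log P(Ξ) = log Ξ - w(Ξ)  (`Real.log_mul`, `Real.log_exp`);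
                    -log(P/(q-1)) = -log Ξ + w(Ξ) + log(q-1),      log(X/(q-1)) = log X - log(q-1).       (bgCone q).w (t,y) = Real.log (Xf y / (q - 1)) by rfl.
* `exp_neg_rEta`:   e^{-η} = e^{-ζ + log z₀} = z₀ e^{-ζ}   (`Real.exp_add`, `Real.exp_log`, z₀ > 0).
* `BP.rDB_eq`:      X B_tip = y² e^{-ζ} - 1 (`X_Btip`),   X B_cone = y²/z₀ - 1,    η Φ₁(η) = 1 - e^{-η} = 1 - z₀ e^{-ζ},   rInvX = 1/X:      rDB = -(y²/z₀)(1 - z₀ e^{-ζ})/X = (y² e^{-ζ} - y²/z₀)/X.       (field_simp; multiply out;  (bgCone q).B (t,y) = (y^2 / z0F q - 1) / Xf y by rfl.)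
-/
import Claimed.Agent.R324.Core.AP.RTs

set_option autoImplicit false

namespace Claimed.Agent.R324.Core

open Set Filter Topology
open scoped ContDiff

noncomputable section

variable {q : ℕ} {w z : ℝ → ℝ} {t y : ℝ}

theorem Xf_pos_of_Xi {q : ℝ} (ht : t < 0) (hΞ : 1 ≤ XiF q (t, y)) : 0 < Xf y := by
  have hl := lam2_pos q ht
  have h1 : XiF q (t, y) = Xf y / lam2 q t := rfl
  rw [h1, le_div_iff₀ hl] at hΞ
  linarith

theorem BP.rInvX_eq (h : BP q w z) (ht : t < 0) (hΞ : 1 ≤ XiF q (t, y)) : rInvX q w (t, y) = 1 / Xf y := by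
  have hX := Xf_pos_of_Xi ht hΞ
  have h1 := X_atm (q : ℝ) (fun x => Real.exp (-w x)) ht y
  have hP : 0 < bP w (XiF q (t, y)) := h.P1_pos.trans_le (h.P_lower one_pos _ hΞ)
  have h2 : XiF q (t, y) * Real.exp (-w (XiF q (t, y))) = bP w (XiF q (t, y)) := rfl
  rw [eq_div_iff hX.ne']
  unfold rInvX
  rw [h.rgE_inv_P hΞ]
  rw [h2] at h1
  calc _ = (Xf y * atm q (2 * gaF q) (fun x => Real.exp (-w x)) (t, y)) * (bP w (XiF q (t, y)))⁻¹ := by ring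
    _ = 1 := by rw [h1, mul_inv_cancel₀ hP.ne']

theorem BP.rOm_eq (h : BP q w z) (ht : t < 0) (hΞ : 1 ≤ XiF q (t, y)) :
    wtip q w (t, y) - (bgCone q).w (t, y) = rOm q w (t, y) := by
  have hX := Xf_pos_of_Xi ht hΞ
  have hl := lam2_pos (q : ℝ) ht
  have hL : 0 < -t := by linarith
  have hΞ0 : 0 < XiF q (t, y) := by linarith
  have hq : (0 : ℝ) < (q : ℝ) - 1 := by linarith [h.hqR]
  have hXe : Xf y = XiF q (t, y) * lam2 q t := by
    have h1 : XiF q (t, y) = Xf y / lam2 q t := rfl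
    rw [h1]
    field_simp
  have hlog : Real.log (lam2 q t) = 2 * gaF q * Real.log (-t) := by
    unfold lam2
    exact Real.log_rpow hL _
  have hc : (bgCone q).w (t, y) = Real.log (Xf y / ((q : ℝ) - 1)) := rfl
  have hP : bP w (XiF q (t, y)) = XiF q (t, y) * Real.exp (-w (XiF q (t, y))) := rfl
  unfold rOm wtip
  rw [hc, h.rF0_eq hΞ, hP, Real.log_div hX.ne' hq.ne', Real.log_div (by positivity) hq.ne',
    Real.log_mul hΞ0.ne' (Real.exp_pos _).ne', Real.log_exp, hXe, Real.log_mul hΞ0.ne' hl.ne', hlog]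
  simp only
  ring

theorem exp_neg_rEta {q : ℝ} (hq : 1 < q) (z : ℝ → ℝ) (p : ℝ × ℝ) :
    Real.exp (-rEta q z p) = z0F q * Real.exp (-zeF q z p) := by
  unfold rEta
  rw [show -(zeF q z p - Real.log (z0F q)) = Real.log (z0F q) + -zeF q z p by ring, Real.exp_add,
    Real.exp_log (z0F_pos hq)]

theorem BP.rDB_eq (h : BP q w z) (ht : t < 0) (hΞ : 1 ≤ XiF q (t, y)) :
    Btip q z (t, y) - (bgCone q).B (t, y) = rDB q w z (t, y) := by
  have hX := Xf_pos_of_Xi ht hΞ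
  have hq1 : (1 : ℝ) < (q : ℝ) := by linarith [h.hqR]
  have hz0 := z0F_pos hq1
  have h1 := X_Btip (q : ℝ) z (t, y)
  have h2 := ph1_mul (rEta q z (t, y))
  rw [exp_neg_rEta hq1] at h2
  have hc : (bgCone q).B (t, y) = (y ^ 2 / z0F q - 1) / Xf y := rfl
  unfold rDB
  rw [hc, h.rInvX_eq ht hΞ, h2]
  simp only at h1 ⊢
  have h3 : Btip q z (t, y) = (y ^ 2 * Real.exp (-zeF q z (t, y)) - 1) / Xf y := by
    rw [eq_div_iff hX.ne', ← h1]
    ring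
  rw [h3]
  field_simp
  ring

end

end Claimed.Agent.R324.Core
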