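/-
Row 324 (S0582), PDE core, module AP, sub-module AP-R (sub-architect helper390), file RRep:  REPRESENTATION of the reference background  gt = bgR q g,  g = bgA q w z,  for -1/500 < t < 0 and ALL y (pointwise identities, no calculus).
     (bgR q g).B p = (1 - χ) g.B p + χ (bgCone q).B p,   (bgR q g).w p = (1 - χ) g.w p + χ (bgCone q).w p,   (bgR q g).W p = (1 - χ) g.W p      (rfl;  χ = chiC p),       g.B p = ψ₁(y) B_tip,  g.w p = ψ₁(y) w_tip   (rfl).
Tools: `chiC_supp`, `XiF_ge_one` (RZone), `BP.rOm_eq`, `BP.rDB_eq`, `Xf_pos_of_Xi`, `exp_neg_rEta` (RId), `psi1_eq_one` (PR/SmR), `X_Btip` (TipE), `ph1_mul`.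

PATTERN:  by_cases hχ : chiC (t,y) = 0.    If χ = 0: both sides are 0 (simp [hχ] / rw, ring).      If χ ≠ 0:  `chiC_supp` gives 19/20 < y, Λ√Λ < X;   ψ₁(y) = 1;   Ξ ≥ 1 (`XiF_ge_one h.hqR ht (by linarith) ..le`);   then the identities of RId;   finish by `linear_combination (chiC (t,y)) * (identity)`.
* `BP.rep_w`, `BP.rep_B`: as above.        `rep_W`: ring (any background).
* `BP.rep_den`  (19/20 ≤ y, so ψ₁ = 1):   1 + X gt.B = (1-χ)(1 + X B_tip) + χ (1 + X B_cone),    1 + X B_tip = y² e^{-ζ} = (y²/z₀) e^{-η}  (`X_Btip`, `exp_neg_rEta`),     χ (1 + X B_cone) = χ y²/z₀  (χ = 0, or X > 0 and `mul_div_cancel₀`),     e^{-η} = 1 - η Φ₁(η) (`ph1_mul`):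
          1 + X gt.B = y²/z₀ - (y²/z₀)(1-χ) η Φ₁(η).
* `BP.rep_den_conv`  (all y):    1 + X gt.B = (1-χ)(1 + X g.B) + χ y²/z₀.
-/
import Claimed.Agent.R324.Core.AP.RId
import Claimed.Agent.R324.Core.AP.RZone

set_option autoImplicit false

namespace Claimed.Agent.R324.Core

open Set Filter Topology
open scoped ContDiff

noncomputable section

variable {q : ℕ} {w z : ℝ → ℝ} {t : ℝ}

theorem BP.rep_w (h : BP q w z) (ht : t < 0) (ht' : -1 / 500 < t) (y : ℝ) :
    (bgR q (bgA q w z)).w (t, y) = (bgA q w z).w (t, y) - chiC (t, y) * rOm q w (t, y) := by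
  have e1 : (bgR q (bgA q w z)).w (t, y)
      = (1 - chiC (t, y)) * (bgA q w z).w (t, y) + chiC (t, y) * (bgCone q).w (t, y) := rfl
  have e2 : (bgA q w z).w (t, y) = psi1 y * wtip q w (t, y) := rfl
  rw [e1]
  by_cases hχ : chiC (t, y) = 0
  · rw [hχ]
    ring
  · obtain ⟨h1, h2, h3, h4⟩ := chiC_supp ht ht' hχ
    have hΞ : 1 ≤ XiF q (t, y) := XiF_ge_one h.hqR ht (by linarith) h3.le
    have hid := h.rOm_eq ht hΞ
    rw [e2, psi1_eq_one h1.le]
    linear_combination (-chiC (t, y)) * hid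

theorem BP.rep_B (h : BP q w z) (ht : t < 0) (ht' : -1 / 500 < t) (y : ℝ) :
    (bgR q (bgA q w z)).B (t, y) = (bgA q w z).B (t, y) - chiC (t, y) * rDB q w z (t, y) := by
  have e1 : (bgR q (bgA q w z)).B (t, y)
      = (1 - chiC (t, y)) * (bgA q w z).B (t, y) + chiC (t, y) * (bgCone q).B (t, y) := rfl
  have e2 : (bgA q w z).B (t, y) = psi1 y * Btip q z (t, y) := rfl
  rw [e1]
  by_cases hχ : chiC (t, y) = 0
  · rw [hχ]
    ring
  · obtain ⟨h1, h2, h3, h4⟩ := chiC_supp ht ht' hχ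
    have hΞ : 1 ≤ XiF q (t, y) := XiF_ge_one h.hqR ht (by linarith) h3.le
    have hid := h.rDB_eq (w := w) ht hΞ
    rw [e2, psi1_eq_one h1.le]
    linear_combination (-chiC (t, y)) * hid

theorem rep_W (q : ℝ) (g : Bg) (p : ℝ × ℝ) : (bgR q g).W p = g.W p - chiC p * g.W p := by
  show (1 - chiC p) * g.W p = _
  ring

theorem BP.rep_den_conv (h : BP q w z) (ht : t < 0) (ht' : -1 / 500 < t) (y : ℝ) :
    1 + Xf y * (bgR q (bgA q w z)).B (t, y)
      = (1 - chiC (t, y)) * (1 + Xf y * (bgA q w z).B (t, y)) + chiC (t, y) * (y ^ 2 / z0F q) := by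
  have e1 : (bgR q (bgA q w z)).B (t, y)
      = (1 - chiC (t, y)) * (bgA q w z).B (t, y) + chiC (t, y) * (bgCone q).B (t, y) := rfl
  have hc : (bgCone q).B (t, y) = (y ^ 2 / z0F q - 1) / Xf y := rfl
  rw [e1]
  by_cases hχ : chiC (t, y) = 0
  · rw [hχ]
    ring
  · obtain ⟨h1, h2, h3, h4⟩ := chiC_supp ht ht' hχ
    have hX : 0 < Xf y := lt_of_le_of_lt (by
      have : 0 ≤ Real.sqrt (-t) := Real.sqrt_nonneg _
      have : 0 ≤ -t := by linarith
      positivity) h3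
    have h5 : Xf y * (bgCone q).B (t, y) = y ^ 2 / z0F q - 1 := by
      rw [hc, mul_div_cancel₀ _ hX.ne']
    linear_combination (chiC (t, y)) * h5

theorem BP.rep_den (h : BP q w z) (ht : t < 0) (ht' : -1 / 500 < t) {y : ℝ} (hy : 19 / 20 ≤ y) :
    1 + Xf y * (bgR q (bgA q w z)).B (t, y)
      = y ^ 2 / z0F q + -(y ^ 2 / z0F q) * (1 - chiC (t, y)) * (rEta q z (t, y) * Ph1 (rEta q z (t, y))) := by
  have hq1 : (1 : ℝ) < (q : ℝ) := by linarith [h.hqR]
  have hz0 := z0F_pos hq1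
  have hc := h.rep_den_conv ht ht' y
  have e2 : (bgA q w z).B (t, y) = psi1 y * Btip q z (t, y) := rfl
  have h1 := X_Btip (q : ℝ) z (t, y)
  have h2 := ph1_mul (rEta q z (t, y))
  rw [exp_neg_rEta hq1] at h2
  simp only at h1
  rw [hc, e2, psi1_eq_one hy, one_mul, h1, h2]
  field_simp
  ring

end

end Claimed.Agent.R324.Core
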