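/-
Row 324 (S0582), PDE core, module AP (architect helper263), file Good:   ASSEMBLY of `BgGood q (bgA q w z)` from the parts.
   own parts:        BgA1 (sm, out, tip), BgA4 (sym, symT, symJ), Res/Main (res);
   A5 (helper232):   Coer/Main.lean, Coer/CoefBd.lean  (coerL_of, coerH_of, coerS_of, coefBd_of);
   AP-R (helper390): symR, symTR, close, dev          (hypotheses of `bgA_good_of`);
   AP-T:             TipBox q (bgR q g), BgCL q g      (hypotheses of `bgA_good_of`).
-/
import Claimed.Agent.R324.Core.AP.BgA4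
import Claimed.Agent.R324.Core.AP.Res.Main
import Claimed.Agent.R324.Core.AP.Coer.Main
import Claimed.Agent.R324.Core.AP.Coer.CoefBd
import Claimed.Agent.R324.Core.PR.SmR

set_option autoImplicit false

namespace Claimed.Agent.R324.Core

open Set Filter Topology
open scoped ContDiff

noncomputable section

variable {q : ℕ} {w z : ℝ → ℝ}

theorem outS_bgR (q : ℝ) {g : Bg}
    (ho : ∀ t < 0, ∀ y ≤ (3 / 4 : ℝ), g.B (t, y) = 0 ∧ g.w (t, y) = 0 ∧ g.W (t, y) = 0) :
    OutS (bgR q g) := by
  intro t ht y hy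
  obtain ⟨h1, h2, h3⟩ := ho t ht y hy
  have hc := chiC_eq_zero_of_y t hy
  simp only [bgR]
  rw [hc, h1, h2, h3]
  simp

theorem BP.bgA_good_of (h : BP q w z) (hq6 : 10 ^ 6 ≤ q)
    (hR : BgSym q (bgR q (bgA q w z))) (hTR : BgSymT q (bgR q (bgA q w z)))
    (hcl : BgClose q (bgA q w z)) (hdev : BgDev q (bgR q (bgA q w z)))
    (hbox : TipBox q (bgR q (bgA q w z))) (hCL : BgCL q (bgA q w z)) :
    BgGood q (bgA q w z) := by
  have hq : (10 : ℝ) ^ 6 ≤ (q : ℝ) := by exact_mod_cast hq6
  have hq1 : (1 : ℝ) < (q : ℝ) := by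
    have := h.hqR
    linarith
  have hsm := h.bgA_sm
  have hsmR : BgSm (bgR q (bgA q w z)) := bgR_sm hq1 hsm
  have hout := bgA_out (q : ℝ) w z
  have hoR : OutS (bgR q (bgA q w z)) := outS_bgR q hout
  have hbd : CoefBd q (bgR q (bgA q w z)) := coefBd_of q hq _ hsmR hR hTR
  exact
    { sm := hsm
      out := hout
      sym := h.bgA_sym
      symR := hR
      symT := h.bgA_symT
      symTR := hTR
      symJ := h.bgA_symJ
      coerL0 := coerL_of q hq _ hsmR hbox hbd hoR 2 30 20 le_rfl (by norm_num) le_rfl (by norm_num)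
      coerL1 := coerL_of q hq _ hsmR hbox hbd hoR 4 30 22 (by norm_num) le_rfl le_rfl (by norm_num)
      coerL0' := coerL_of q hq _ hsmR hbox hbd hoR 2 28 22 le_rfl (by norm_num) (by norm_num) (by norm_num)
      coerL1' := coerL_of q hq _ hsmR hbox hbd hoR 4 28 24 (by norm_num) le_rfl (by norm_num) (by norm_num)
      coerHA := coerH_of q hq _ hsmR hbox hbd hoR 2 34 le_rfl (by norm_num) (by norm_num) (61 / 2) (by norm_num)
      coerHB := coerH_of q hq _ hsmR hbox hbd hoR 3 52 (by norm_num) (by norm_num) le_rfl (95 / 2) (by norm_num)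
      coerS := coerS_of q hq _ hsmR hbox
      close := hcl
      dev := hdev
      res := h.bgA_res
      tip := h.bgA_tip
      cl := hCL }

end

end Claimed.Agent.R324.Core
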