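/-
Row 324 (S0582), PDE core, module AP (architect helper263), file AP/Main:   FINAL ASSEMBLY of the module:   the approximate solution  g = bgA q w z  built from Bohm's profile (w, z) is a good background.
      Bohm profile: R324/Bohm (`bohm_exists_pos`);     fields of `BgGood`:  Core/AP/Good.lean (`BP.bgA_good_of`),  AP-R (RFin.lean: symR, symTR, close),  Dev/Rep.lean (dev),  AP-T (T/Main.lean: TipBox;  T/CL.lean: BgCL).
-/
import Claimed.Agent.R324.Core.AP.Good
import Claimed.Agent.R324.Core.AP.RFin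
import Claimed.Agent.R324.Core.AP.Dev.Rep
import Claimed.Agent.R324.Core.AP.T.Main

set_option autoImplicit false

namespace Claimed.Agent.R324.Core

noncomputable section

theorem BP.bgA_good {q : ℕ} {w z : ℝ → ℝ} (h : BP q w z) (hq6 : 10 ^ 6 ≤ q) : BgGood q (bgA q w z) :=
  h.bgA_good_of hq6 h.bgA_symR h.bgA_symTR h.bgA_close h.bgA_dev (h.bgA_tipBox h.bgA_close) h.bgA_cl

theorem ap_exists_bgGood (q : ℕ) (hq6 : 10 ^ 6 ≤ q) : ∃ g : Bg, BgGood q g := by
  have hq : 100 ≤ q := le_trans (by norm_num) hq6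
  obtain ⟨w, z, hb, hp⟩ := bohm_exists_pos hq
  exact ⟨bgA q w z, BP.bgA_good ⟨hq, hb, hp⟩ hq6⟩

end

end Claimed.Agent.R324.Core
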