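/-
Row 324 (S0582), PDE core, module AP, sub-module AP-R (sub-architect helper390), file RBox: congruence on boxes  RBox a c d = (a,0) × [c,d]   (open in t, closed in y).      SORRY-FREE.
Purpose: the representation formulas of the reference background hold only for -1/500 < t < 0, some of them only for 19/20 ≤ y ≤ 1.   Two `Sm` functions which agree on a box have the same derivatives of all orders there.
Same proofs as Cal/Strip.lean.
-/
import Claimed.Agent.R324.Core.AP.RDefs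

set_option autoImplicit false

namespace Claimed.Agent.R324.Core

open Set Filter Topology
open scoped ContDiff

noncomputable section

variable {q a c d : ℝ} {D : Set (ℝ × ℝ)} {m n : ℕ} {ϱ f g : Fn}

theorem box_dY (hcd : c < d) (hf : Sm f) (hg : Sm g) (h : ∀ p ∈ RBox a c d, f p = g p) :
    ∀ p ∈ RBox a c d, dY f p = dY g p := by
  rintro ⟨t, y⟩ ⟨ht, hy⟩
  have ht' : t < 0 := ht.2
  have hy' : y ∈ Icc c d := hy
  have hu : UniqueDiffWithinAt ℝ (Icc c d) y := uniqueDiffOn_Icc hcd y hy'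
  have h1 := ((hf.hasDerivAt_y ht' y).hasDerivWithinAt (s := Icc c d)).derivWithin hu
  have h2 := ((hg.hasDerivAt_y ht' y).hasDerivWithinAt (s := Icc c d)).derivWithin hu
  have h3 : derivWithin (fun z => f (t, z)) (Icc c d) y = derivWithin (fun z => g (t, z)) (Icc c d) y :=
    derivWithin_congr (fun z hz => h (t, z) ⟨ht, hz⟩) (h (t, y) ⟨ht, hy⟩)
  rw [← h1, ← h2, h3]

theorem box_dT (h : ∀ p ∈ RBox a c d, f p = g p) : ∀ p ∈ RBox a c d, dT f p = dT g p := by
  rintro ⟨t, y⟩ ⟨ht, hy⟩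
  have e : (fun s => f (s, y)) =ᶠ[𝓝 t] fun s => g (s, y) := by
    filter_upwards [Ioo_mem_nhds ht.1 ht.2] with s hs
    exact h (s, y) ⟨hs, hy⟩
  exact e.deriv_eq

theorem box_iter (hcd : c < d) (hf : Sm f) (hg : Sm g) (h : ∀ p ∈ RBox a c d, f p = g p) (i j : ℕ) :
    ∀ p ∈ RBox a c d, dY^[j] (dT^[i] f) p = dY^[j] (dT^[i] g) p := by
  have h1 : ∀ i : ℕ, ∀ p ∈ RBox a c d, dT^[i] f p = dT^[i] g p := by
    intro i
    induction i with
    | zero => exact h
    | succ i ih =>
      rw [Function.iterate_succ_apply', Function.iterate_succ_apply']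
      exact box_dT ih
  induction j with
  | zero => exact h1 i
  | succ j ih =>
    rw [Function.iterate_succ_apply', Function.iterate_succ_apply']
    exact box_dY hcd ((hf.dT_iter i).dY_iter j) ((hg.dT_iter i).dY_iter j) ih

theorem TY.congr_box (hcd : c < d) (hDs : D ⊆ RBox a c d) (hf : Sm f) (hg : Sm g)
    (h : ∀ p ∈ RBox a c d, f p = g p) (hgy : TY q D m n ϱ g) : TY q D m n ϱ f := by
  intro i hi j hj
  exact Bd.congr (fun p hp => box_iter hcd hf hg h i j p (hDs hp)) (hgy i hi j hj)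

theorem TS.congr_box (hcd : c < d) (hDs : D ⊆ RBox a c d) (hf : Sm f)
    (h : ∀ p ∈ RBox a c d, f p = g p) (hg : TS q D m n ϱ g) : TS q D m n ϱ f :=
  ⟨hf, hg.bd.congr_box hcd hDs hf hg.sm h⟩

/-- a smaller box. -/
theorem RBox.mono {a' c' d' : ℝ} (ha : a ≤ a') (hc : c ≤ c') (hd : d' ≤ d) : RBox a' c' d' ⊆ RBox a c d := by
  rintro ⟨t, y⟩ ⟨ht, hy⟩
  exact ⟨⟨lt_of_le_of_lt ha ht.1, ht.2⟩, ⟨hc.trans hy.1, hy.2.trans hd⟩⟩

end

end Claimed.Agent.R324.Core
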