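/-
Row 324 (S0582), PDE core, module AP, sub-module AP-R (sub-architect helper390), file RCoef (B, W, lower bound, differences; the coefficient w is in RCoefW.lean):  GLOBAL SYMBOL BOUNDS of the coefficients of  gt = bgR q g,  g = bgA q w z,  on late domains (`DomL D`: -1/1000 ≤ t < 0, |y| ≤ 1;  `hD.ok : DomOK D`,  `hD.box : D ⊆ RBox (-1/500) (-1) 1`).
Tools:  representation `BP.rep_w, rep_B, rep_W, rep_den_conv` (RRep; valid on the box),  `TS.congr_box`, `box_dY`, `box_dT` (RBox),   differences `BP.gts_dw0, gts_dw, gts_dB0, gts_dB, gts_dW0, gts_dW`, smoothness `BP.sm_R` (RGl),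
        g itself: `BP.gts_B, gts_W, g_den_lower` (BgA1), `BP.ts_bgA_wp, ts_bgA_ew, ts_bgA_dTw, ap_sm_gw` (BgA2), `BP.bgA_sm`;     `TS.sub`, `TS.le_wt`, `TS.dY_wt`, `TS.dT_wt`, `TS.mul_wt`, `TS.comp`, `TS.one_wt`, `dY_sub`, `dT_sub`.
A point p of the box: hp.1.1 : -1/500 < p.1,  hp.1.2 : p.1 < 0.      (-1 : ℝ) < 1 by norm_num.

* `ts_R_B`:    `TS.congr_box` (Sm: `h.sm_R.smB`) with `rep_B`;    g.B ∈ wt 0 0 (-1) (`gts_B`, m ≤ 7), dB ∈ wt 0 0 (-1) (`gts_dB`);  `TS.sub`.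
* `ts_R_W`:    `rep_W` (holds everywhere: `TS.congr`);    g.W ∈ wt 1 7 0 ≤ K wt 0 (-1) 0 (`gts_W`, `TS.le_wt`: a = 0, a' = 1, 8 ≤ 7 - (-1)),  dW ∈ wt 0 (-1) 0 (`gts_dW`).
* `ts_R_wp`:   on the box  dY gt.w = dY (g.w - dw) (`box_dY` with `rep_w`; Sm gt.w: `h.sm_R.smw`, Sm (g.w - dw): `h.ap_sm_gw.sub (gts_dw0 ..).sm`) = dY g.w - dY dw (`dY_sub`);    dY g.w ∈ wt 0 0 (-1) (`ts_bgA_wp`),   dY dw ∈ wt 1 8 (0-1) (`TS.dY_wt` applied to `gts_dw0` of order n+1) ≤ K wt 0 0 (-1).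
* `ts_R_ew`:   on the box  e^{-gt.w} = e^{-g.w} e^{dw}  (`rep_w`, `Real.exp_add`);    e^{-g.w} ∈ wt 0 0 (-1) (`ts_bgA_ew`);   dw ∈ wt 1 8 0 ≤ K wt 0 0 0, so e^{dw} ∈ TS 1 (`TS.one_wt`, `TS.comp` with Real.exp).
* `ts_R_dTw`:  on the box  dT gt.w = dT g.w - dT dw (`box_dT`, `dT_sub`);    dT g.w ∈ wt 1 7 0 ≤ K wt 0 (-1) 0 (`ts_bgA_dTw`, m ≤ 6);    dT dw ∈ wt 0 (0-1) 0 (`TS.dT_wt` applied to `gts_dw` of order m+1 ≤ 6).
* `R_den_lower`:   `rep_den_conv`:  1 + X gt.B = (1-χ)(1 + X g.B) + χ y²/z₀,   0 ≤ χ ≤ 1 (`chiC_nonneg`, `chiC_le_one`);   1 + X g.B ≥ c₁ (`g_den_lower`);    if χ ≠ 0 then y > 19/20 (`chiC_supp`) and z₀ < 1, so y²/z₀ ≥ y² ≥ 1/2;    c = min c₁ (1/2)  (convex combination; if χ = 0 the second term vanishes).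
* `ts_close_B, ts_close_w, ts_close_W`:   on the box  g.B - gt.B = dB etc. (`rep_B`, …; ring);   `TS.congr_box` with `gts_dB0`, `gts_dw0`, `gts_dW0`.
-/
import Claimed.Agent.R324.Core.AP.RGl
import Claimed.Agent.R324.Core.AP.RRep
import Claimed.Agent.R324.Core.AP.RBox

set_option autoImplicit false

namespace Claimed.Agent.R324.Core

open Set Filter Topology
open scoped ContDiff

noncomputable section

variable {D : Set (ℝ × ℝ)} {m n : ℕ} {q : ℕ} {w z : ℝ → ℝ}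

theorem BP.ts_R_B (h : BP q w z) (hD : DomL D) (hm : m ≤ 6) :
    TS q D m n (wt q 0 0 (-1)) (bgR q (bgA q w z)).B := by
  refine TS.congr_box (a := -1 / 500) (c := -1) (d := 1) (by norm_num) hD.box h.sm_R.smB
    (g := fun p => (bgA q w z).B p - chiC p * rDB q w z p) ?_
    (TS.sub hD.ok (h.gts_B hD.ok (by omega)) (h.gts_dB hD hm))
  rintro ⟨t, y⟩ hp
  exact h.rep_B hp.1.2 hp.1.1 y

theorem BP.ts_R_W (h : BP q w z) (hD : DomL D) (hm : m ≤ 6) :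
    TS q D m n (wt q 0 (-1) 0) (bgR q (bgA q w z)).W := by
  refine TS.congr hD.ok (g := fun p => (bgA q w z).W p - chiC p * (bgA q w z).W p)
    (fun t _ y => rep_W q (bgA q w z) (t, y)) ?_
  exact TS.sub hD.ok
    (TS.le_wt h.hqR hD.ok (Nat.zero_le 1) le_rfl (by norm_num) (h.gts_W hD.ok (by omega)))
    (h.gts_dW hD hm)

theorem BP.R_den_lower (h : BP q w z) (hD : DomL D) :
    ∃ c : ℝ, 0 < c ∧ ∀ p ∈ D, c ≤ 1 + Xf p.2 * (bgR q (bgA q w z)).B p := by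
  obtain ⟨c₁, hc₁, hc⟩ := h.g_den_lower hD.ok
  refine ⟨min c₁ (1 / 2), lt_min hc₁ (by norm_num), ?_⟩
  rintro ⟨t, y⟩ hp
  have hb := hD.box hp
  have ht : t < 0 := hb.1.2
  have ht' : -1 / 500 < t := hb.1.1
  have h1 := hc (t, y) hp
  have hχ0 := chiC_nonneg (t, y)
  have hχ1 := chiC_le_one (t, y)
  have hm1 : min c₁ (1 / 2) ≤ c₁ := min_le_left _ _
  have hm2 : min c₁ (1 / 2) ≤ 1 / 2 := min_le_right _ _
  show min c₁ (1 / 2) ≤ 1 + Xf y * (bgR q (bgA q w z)).B (t, y)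
  rw [h.rep_den_conv ht ht' y]
  simp only at h1
  by_cases hχ : chiC (t, y) = 0
  · rw [hχ]
    linarith
  · obtain ⟨hy, hy1, -, -⟩ := chiC_supp ht ht' hχ
    have hq := h.hqR
    have hz0 : 0 < z0F (q : ℝ) := z0F_pos (by linarith)
    have hz1 : z0F (q : ℝ) ≤ 1 := by
      unfold z0F
      rw [div_le_one (by linarith)]
      linarith
    have hy2 : (1 : ℝ) / 2 ≤ y ^ 2 := by nlinarith
    have h2 : (1 : ℝ) / 2 ≤ y ^ 2 / z0F (q : ℝ) := by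
      rw [le_div_iff₀ hz0]
      nlinarith
    have e1 : (1 - chiC (t, y)) * min c₁ (1 / 2)
        ≤ (1 - chiC (t, y)) * (1 + Xf y * (bgA q w z).B (t, y)) :=
      mul_le_mul_of_nonneg_left (hm1.trans h1) (by linarith)
    have e2 : chiC (t, y) * min c₁ (1 / 2) ≤ chiC (t, y) * (y ^ 2 / z0F (q : ℝ)) :=
      mul_le_mul_of_nonneg_left (hm2.trans h2) hχ0
    nlinarith

theorem BP.ts_close_B (h : BP q w z) (hD : DomL D) :
    TS q D 0 n (wt q 1 8 (-1)) (fun p => (bgA q w z).B p - (bgR q (bgA q w z)).B p) := by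
  refine TS.congr_box (a := -1 / 500) (c := -1) (d := 1) (by norm_num) hD.box
    (h.bgA_sm.smB.sub h.sm_R.smB) ?_ (h.gts_dB0 hD)
  rintro ⟨t, y⟩ hp
  show (bgA q w z).B (t, y) - (bgR q (bgA q w z)).B (t, y) = chiC (t, y) * rDB q w z (t, y)
  rw [h.rep_B hp.1.2 hp.1.1 y]
  ring

theorem BP.ts_close_w (h : BP q w z) (hD : DomL D) :
    TS q D 0 n (wt q 1 8 0) (fun p => (bgA q w z).w p - (bgR q (bgA q w z)).w p) := by
  refine TS.congr_box (a := -1 / 500) (c := -1) (d := 1) (by norm_num) hD.box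
    (h.bgA_sm.smw.sub h.sm_R.smw) ?_ (h.gts_dw0 hD)
  rintro ⟨t, y⟩ hp
  show (bgA q w z).w (t, y) - (bgR q (bgA q w z)).w (t, y) = chiC (t, y) * rOm q w (t, y)
  rw [h.rep_w hp.1.2 hp.1.1 y]
  ring

theorem BP.ts_close_W (h : BP q w z) (hD : DomL D) :
    TS q D 0 n (wt q 1 7 0) (fun p => (bgA q w z).W p - (bgR q (bgA q w z)).W p) := by
  refine TS.congr hD.ok (g := fun p => chiC p * (bgA q w z).W p) (fun t _ y => ?_) (h.gts_dW0 hD)
  show (bgA q w z).W (t, y) - (bgR q (bgA q w z)).W (t, y) = chiC (t, y) * (bgA q w z).W (t, y)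
  rw [rep_W q (bgA q w z) (t, y)]
  ring

end

end Claimed.Agent.R324.Core
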