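/-
Row 324 (S0582), PDE core, module AP, sub-module AP-R (sub-architect helper390), file RCoefW (the coefficient w: ts_R_wp, ts_R_ew, ts_R_dTw):  GLOBAL SYMBOL BOUNDS of the coefficients of  gt = bgR q g,  g = bgA q w z,  on late domains (`DomL D`: -1/1000 ≤ t < 0, |y| ≤ 1;  `hD.ok : DomOK D`,  `hD.box : D ⊆ RBox (-1/500) (-1) 1`).
Tools:  representation `BP.rep_w, rep_B, rep_W, rep_den_conv` (RRep; valid on the box),  `TS.congr_box`, `box_dY`, `box_dT` (RBox),   differences `BP.gts_dw0, gts_dw, gts_dB0, gts_dB, gts_dW0, gts_dW`, smoothness `BP.sm_R` (RGl),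
        g itself: `BP.gts_B, gts_W, g_den_lower` (BgA1), `BP.ts_bgA_wp, ts_bgA_ew, ts_bgA_dTw, ap_sm_gw` (BgA2), `BP.bgA_sm`;     `TS.sub`, `TS.le_wt`, `TS.dY_wt`, `TS.dT_wt`, `TS.mul_wt`, `TS.comp`, `TS.one_wt`, `dY_sub`, `dT_sub`.
A point p of the box: hp.1.1 : -1/500 < p.1,  hp.1.2 : p.1 < 0.      (-1 : ℝ) < 1 by norm_num.

* `ts_R_B`:    `TS.congr_box` (Sm: `h.sm_R.smB`) with `rep_B`;    g.B ∈ wt 0 0 (-1) (`gts_B`, m ≤ 7), dB ∈ wt 0 0 (-1) (`gts_dB`);  `TS.sub`.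
* `ts_R_W`:    `rep_W` (holds everywhere: `TS.congr`);    g.W ∈ wt 1 7 0 ≤ K wt 0 (-1) 0 (`gts_W`, `TS.le_wt`: a = 0, a' = 1, 8 ≤ 7 - (-1)),  dW ∈ wt 0 (-1) 0 (`gts_dW`).
* `ts_R_wp`:   on the box  dY gt.w = dY (g.w - dw) (`box_dY` with `rep_w`; Sm gt.w: `h.sm_R.smw`, Sm (g.w - dw): `h.ap_sm_gw.sub (gts_dw0 ..).sm`) = dY g.w - dY dw (`dY_sub`);    dY g.w ∈ wt 0 0 (-1) (`ts_bgA_wp`),   dY dw ∈ wt 1 8 (0-1) (`TS.dY_wt` applied to `gts_dw0` of order n+1) ≤ K wt 0 0 (-1).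
* `ts_R_ew`:   on the box  e^{-gt.w} = e^{-g.w} e^{dw}  (`rep_w`, `Real.exp_add`);    e^{-g.w} ∈ wt 0 0 (-1) (`ts_bgA_ew`);   dw ∈ wt 1 8 0 ≤ K wt 0 0 0, so e^{dw} ∈ TS 1 (`TS.one_wt`, `TS.comp` with Real.exp).
* `ts_R_dTw`:  on the box  dT gt.w = dT g.w - dT dw (`box_dT`, `dT_sub`);    dT g.w ∈ wt 1 7 0 ≤ K wt 0 (-1) 0 (`ts_bgA_dTw`, m ≤ 6);    dT dw ∈ wt 0 (0-1) 0 (`TS.dT_wt` applied to `gts_dw` of order m+1 ≤ 6).
* `R_den_lower`:   `rep_den_conv`:  1 + X gt.B = (1-χ)(1 + X g.B) + χ y²/z₀,   0 ≤ χ ≤ 1 (`chiC_nonneg`, `chiC_le_one`);   1 + X g.B ≥ c₁ (`g_den_lower`);    if χ ≠ 0 then y > 19/20 (`chiC_supp`) and z₀ < 1, so y²/z₀ ≥ y² ≥ 1/2;    c = min c₁ (1/2)  (convex combination; if χ = 0 the second term vanishes).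
* `ts_close_B, ts_close_w, ts_close_W`:   on the box  g.B - gt.B = dB etc. (`rep_B`, …; ring);   `TS.congr_box` with `gts_dB0`, `gts_dw0`, `gts_dW0`.
-/
import Claimed.Agent.R324.Core.AP.RGl
import Claimed.Agent.R324.Core.AP.RRep
import Claimed.Agent.R324.Core.AP.RBox

set_option autoImplicit false

namespace Claimed.Agent.R324.Core

open Set Filter Topology
open scoped ContDiff

noncomputable section

variable {D : Set (ℝ × ℝ)} {m n : ℕ} {q : ℕ} {w z : ℝ → ℝ}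

theorem BP.apr_rep_w_box (h : BP q w z) :
    ∀ p ∈ RBox (-1 / 500) (-1) 1,
      (bgR q (bgA q w z)).w p = (fun p => (bgA q w z).w p - chiC p * rOm q w p) p := by
  rintro ⟨t, y⟩ hp
  exact h.rep_w hp.1.2 hp.1.1 y

theorem BP.apr_sm_dw (h : BP q w z) : Sm (fun p => chiC p * rOm q w p) :=
  (h.gts_dw0 (n := 0) domL_Dm).sm

theorem BP.ts_R_wp (h : BP q w z) (hD : DomL D) :
    TS q D 0 n (wt q 0 0 (-1)) (dY (bgR q (bgA q w z)).w) := by
  have hdw : Sm (fun p => chiC p * rOm q w p) := h.apr_sm_dw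
  have h1 : TS q D 0 n (wt q 0 0 (-1)) (dY (bgA q w z).w) := h.ts_bgA_wp hD.ok (by norm_num)
  have h2 : TS q D 0 n (wt q 1 8 (0 - 1)) (dY (fun p => chiC p * rOm q w p)) :=
    TS.dY_wt h.hqR hD.ok (h.gts_dw0 (n := n + 1) hD)
  have h3 : TS q D 0 n (wt q 0 0 (-1)) (dY (fun p => chiC p * rOm q w p)) :=
    TS.le_wt h.hqR hD.ok (by norm_num) (by norm_num) (by norm_num) h2
  refine TS.congr_box (a := -1 / 500) (c := -1) (d := 1) (by norm_num) hD.box h.sm_R.smw.dY ?_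
    (h1.sub hD.ok h3)
  intro p hp
  have e1 := box_dY (a := -1 / 500) (c := -1) (d := 1) (by norm_num) h.sm_R.smw
    (h.ap_sm_gw.sub hdw) h.apr_rep_w_box p hp
  rw [e1]
  obtain ⟨t, y⟩ := p
  exact dY_sub h.ap_sm_gw hdw hp.1.2 y

theorem BP.ts_R_ew (h : BP q w z) (hD : DomL D) :
    TS q D 0 n (wt q 0 0 (-1)) (fun p => Real.exp (-(bgR q (bgA q w z)).w p)) := by
  have h1 : TS q D 0 n (wt q 0 0 (-1)) (fun p => Real.exp (-(bgA q w z).w p)) :=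
    h.ts_bgA_ew hD.ok (by norm_num)
  have h2 : TS q D 0 n (wt q 0 0 0) (fun p => chiC p * rOm q w p) :=
    TS.le_wt h.hqR hD.ok (by norm_num) (by norm_num) (by norm_num) (h.gts_dw0 (n := n) hD)
  have h3 : TS q D 0 n (wt q 0 0 0) (fun p => Real.exp (chiC p * rOm q w p)) :=
    TS.one_wt.1 (TS.comp hD.ok Real.contDiff_exp (TS.one_wt.2 h2))
  have h4 := TS.mul_wt h.hqR hD.ok h1 h3
  have h5 : TS q D 0 n (wt q 0 0 (-1))
      (fun p => Real.exp (-(bgA q w z).w p) * Real.exp (chiC p * rOm q w p)) :=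
    ap_ts_cast (by norm_num) (by norm_num) (by norm_num) h4
  refine TS.congr_box (a := -1 / 500) (c := -1) (d := 1) (by norm_num) hD.box h.sm_R.smw.neg.exp ?_ h5
  intro p hp
  have e := h.apr_rep_w_box p hp
  simp only at e
  rw [e, ← Real.exp_add]
  congr 1
  ring

theorem BP.ts_R_dTw (h : BP q w z) (hD : DomL D) (hm : m ≤ 5) :
    TS q D m n (wt q 0 (-1) 0) (dT (bgR q (bgA q w z)).w) := by
  have hdw : Sm (fun p => chiC p * rOm q w p) := h.apr_sm_dw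
  have h1 : TS q D m n (wt q 0 (-1) 0) (dT (bgA q w z).w) :=
    TS.le_wt h.hqR hD.ok (by norm_num) (by norm_num) (by norm_num)
      (h.ts_bgA_dTw (n := n) hD.ok (show m ≤ 6 by omega))
  have h2 : TS q D m n (wt q 0 (0 - 1) 0) (dT (fun p => chiC p * rOm q w p)) :=
    TS.dT_wt h.hqR hD.ok (h.gts_dw (m := m + 1) (n := n) hD (by omega))
  have h3 : TS q D m n (wt q 0 (-1) 0) (dT (fun p => chiC p * rOm q w p)) :=
    ap_ts_cast rfl (by norm_num) rfl h2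
  refine TS.congr_box (a := -1 / 500) (c := -1) (d := 1) (by norm_num) hD.box h.sm_R.smw.dT ?_
    (h1.sub hD.ok h3)
  intro p hp
  have e1 := box_dT (a := -1 / 500) (c := -1) (d := 1) h.apr_rep_w_box p hp
  rw [e1]
  obtain ⟨t, y⟩ := p
  exact dT_sub h.ap_sm_gw hdw hp.1.2 y

end

end Claimed.Agent.R324.Core
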