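/-
Row 324 (S0582), PDE core, module AP, sub-module AP-R (sub-architect helper390), file RFin:  ASSEMBLY of the fields  symR : BgSym q gt,   symTR : BgSymT q gt,   close : BgClose q g   of `BgGood` (Core/Bgd.lean)   for g = bgA q w z,  gt = bgR q g.        Λ₀ = 1/1000,   D = Dm (1/1000) (Icc (-1) 1)  (`domL_Dm`).
MODEL: Core/AP/BgA4.lean (`BP.bgA_sym`, `BP.bgA_symT`, `BP.bgA_symJ`): the same proofs with `symC_of_ts_L` instead of `symC_of_ts` and Λ₀ = 1/1000 instead of 1.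
Inputs: RCoef.lean, RCoefW.lean (`BP.ts_R_B, ts_R_W, ts_R_wp, ts_R_ew, ts_R_dTw, R_den_lower, ts_close_B, ts_close_w, ts_close_W`).       Conversion: `symC_of_ts_L` (below), `SymC.mono_C`, `SymC.mono_N` (Cal/Conv.lean).
Weights (BgA4.lean; stated for t ∈ Ico (-1) 0: use `r_Ico`):  `ap_wt_R : wt 0 0 (-1) = 1/R`,  `ap_wt_T : wt 0 (-1) 0 = 1/Θ`,  `ap_wt_J : wt 1 7 0 = 𝔍/Θ`,  `wt_JJ : wt 1 8 0 = 𝔍`,  `ap_pos3` (R, Θ, 𝔍 > 0);     wt 1 8 (-1) = 𝔍/R  (`wt_div_rh2` with c = 0 + `wt_JJ`).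

* `bgA_symR`:   B: `ts_R_B` (m = 0, n = 8);  dY w: `ts_R_wp`;  e^{-w}: `ts_R_ew`;  W: `ts_R_W` (m = 0), wt 0 (-1) 0 = 1/Θ;   lower bound: `R_den_lower` (1/C ≤ c ⟸ C ≥ 1/c).       Common constant C = C₁ + C₂ + C₃ + C₄ + 1/c (`SymC.mono_C`; the weights are ≥ 0).
* `bgA_symTR`:  i ∈ {1,2} (`interval_cases i`):    dT^[i] B from `ts_R_B` (m = 2, n = 6):  (1/R)/Θ^i = 1/(R Θ^i);     dT^[i] w = dT^[i-1] (dT w) (`Function.iterate_succ_apply`) from `ts_R_dTw` (m = 1):  (1/Θ)/Θ^(i-1) = 1/Θ^i;      dT^[i] W from `ts_R_W` (m = 2):  (1/Θ)/Θ^i = 1/Θ^(i+1).       C must not depend on i: sum of the six constants.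
* `bgA_close`:  `ts_close_B, ts_close_w, ts_close_W` with n = 6, i = 0 (dT^[0] f = f).
-/
import Claimed.Agent.R324.Core.AP.RCoef
import Claimed.Agent.R324.Core.AP.RCoefW

set_option autoImplicit false

namespace Claimed.Agent.R324.Core

open Set Filter Topology
open scoped ContDiff

noncomputable section

variable {q : ℕ} {w z : ℝ → ℝ}

theorem r_Ico {t : ℝ} (ht : t ∈ Ico (-(1 / 1000) : ℝ) 0) : t ∈ Ico (-1 : ℝ) 0 :=
  ⟨by linarith [ht.1], ht.2⟩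

theorem symC_of_ts_L {q : ℝ} (hq : 100 ≤ q) {m n : ℕ} {a : ℕ} {b c : ℤ} {f : Fn}
    (h : TS q (Dm (1 / 1000) (Icc (-1 : ℝ) 1)) m n (wt q a b c) f) {i : ℕ} (hi : i ≤ m) {σ : ℝ → ℝ → ℝ} {K : ℝ}
    (hK : 0 ≤ K)
    (hσ : ∀ t ∈ Ico (-(1 / 1000) : ℝ) 0, ∀ y ∈ Icc (-1 : ℝ) 1, wt q a b c (t, y) / (Th t y) ^ i ≤ K * σ t y) :
    ∃ C : ℝ, 0 ≤ C ∧ SymC q (1 / 1000) C n σ (dT^[i] f) := by
  have hD := domL_Dm.ok
  obtain ⟨C, hC, hS⟩ := TY.symC hq (by norm_num) (fun p hp => (wt_pos hq hD hp).le) h.bd hi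
  refine ⟨C * K, mul_nonneg hC hK, ?_⟩
  intro t ht y hy j hj
  refine (hS t ht y hy j hj).trans ?_
  have hR : 0 < rh2 q t y := rh2_pos_dom (by linarith) hD (p := (t, y)) ⟨ht, hy⟩
  refine div_le_div_of_nonneg_right ?_ (pow_pos hR j).le
  rw [mul_assoc]
  exact mul_le_mul_of_nonneg_left (hσ t ht y hy) hC

theorem apr_wt_JRh {q : ℝ} (hq : 100 ≤ q) {t y : ℝ} (ht : t ∈ Ico (-1 : ℝ) 0) (hy : y ∈ Icc (-1 : ℝ) 1) :
    wt q 1 8 (-1) (t, y) = JJ q t y / rh2 q t y := by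
  have hp : ((t, y) : ℝ × ℝ) ∈ Dm 1 (Icc (-1 : ℝ) 1) := ⟨ht, hy⟩
  have := wt_div_rh2 (a := 1) (b := 8) (c := 0) hq ap_D1 hp
  rw [wt_JJ] at this
  rw [this]
  norm_num

theorem BP.bgA_symR (h : BP q w z) : BgSym q (bgR q (bgA q w z)) := by
  have hq := h.hqR
  have hL : (1 / 1000 : ℝ) ≤ 1 := by norm_num
  obtain ⟨C1, hC1, hS1⟩ := symC_of_ts_L hq (h.ts_R_B (m := 0) (n := 8) domL_Dm (by norm_num)) (i := 0) le_rfl
    (σ := fun t y => 1 / rh2 q t y) (K := 1) zero_le_one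
    (fun t _ y _ => by rw [ap_wt_R, pow_zero, div_one, one_mul])
  obtain ⟨C2, hC2, hS2⟩ := symC_of_ts_L hq (h.ts_R_wp (n := 8) domL_Dm) (i := 0) le_rfl
    (σ := fun t y => 1 / rh2 q t y) (K := 1) zero_le_one
    (fun t _ y _ => by rw [ap_wt_R, pow_zero, div_one, one_mul])
  obtain ⟨C3, hC3, hS3⟩ := symC_of_ts_L hq (h.ts_R_ew (n := 8) domL_Dm) (i := 0) le_rfl
    (σ := fun t y => 1 / rh2 q t y) (K := 1) zero_le_one
    (fun t _ y _ => by rw [ap_wt_R, pow_zero, div_one, one_mul])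
  obtain ⟨C4, hC4, hS4⟩ := symC_of_ts_L hq (h.ts_R_W (m := 0) (n := 8) domL_Dm (by norm_num)) (i := 0) le_rfl
    (σ := fun t y => 1 / Th t y) (K := 1) zero_le_one
    (fun t _ y _ => by rw [ap_wt_T, pow_zero, div_one, one_mul])
  obtain ⟨c, hc, hlow⟩ := h.R_den_lower domL_Dm
  have hc' : 0 < 1 / c := by positivity
  have hR0 : ∀ t ∈ Ico (-(1 / 1000 : ℝ)) 0, ∀ y ∈ Icc (-1 : ℝ) 1, 0 ≤ 1 / rh2 (q : ℝ) t y :=
    fun t ht y hy => (one_div_pos.2 (ap_pos3 hq (r_Ico ht) hy).1).le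
  have hT0 : ∀ t ∈ Ico (-(1 / 1000 : ℝ)) 0, ∀ y ∈ Icc (-1 : ℝ) 1, 0 ≤ 1 / Th t y :=
    fun t ht y hy => (one_div_pos.2 (ap_pos3 hq (r_Ico ht) hy).2.1).le
  refine ⟨1 / 1000, C1 + C2 + C3 + C4 + 1 / c, by norm_num, ?_, ?_, ?_, ?_, ?_⟩
  · exact SymC.mono_C hq hL hR0 (by linarith) hS1
  · exact SymC.mono_C hq hL hR0 (by linarith) hS2
  · exact SymC.mono_C hq hL hR0 (by linarith) hS3
  · exact SymC.mono_C hq hL hT0 (by linarith) hS4
  · intro t ht y hy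
    refine le_trans ?_ (hlow (t, y) ⟨ht, hy⟩)
    have h1 : 1 / c ≤ C1 + C2 + C3 + C4 + 1 / c := by linarith
    have h2 := one_div_le_one_div_of_le hc' h1
    rwa [one_div_one_div] at h2

theorem BP.bgA_symTR (h : BP q w z) : BgSymT q (bgR q (bgA q w z)) := by
  have hq := h.hqR
  have hL : (1 / 1000 : ℝ) ≤ 1 := by norm_num
  have key : ∀ i : ℕ, 1 ≤ i → i ≤ 2 → ∃ C : ℝ, 0 ≤ C ∧
      SymC q (1 / 1000) C 6 (fun t y => 1 / (rh2 q t y * (Th t y) ^ i)) (dT^[i] (bgR q (bgA q w z)).B) ∧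
      SymC q (1 / 1000) C 6 (fun t y => 1 / (Th t y) ^ i) (dT^[i] (bgR q (bgA q w z)).w) ∧
      SymC q (1 / 1000) C 6 (fun t y => 1 / (Th t y) ^ (i + 1)) (dT^[i] (bgR q (bgA q w z)).W) := by
    intro i hi1 hi2
    obtain ⟨k, rfl⟩ : ∃ k, i = k + 1 := ⟨i - 1, by omega⟩
    obtain ⟨C1, hC1, hS1⟩ := symC_of_ts_L hq (h.ts_R_B (m := 2) (n := 6) domL_Dm (by norm_num)) (i := k + 1) hi2
      (σ := fun t y => 1 / (rh2 q t y * (Th t y) ^ (k + 1))) (K := 1) zero_le_one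
      (fun t _ y _ => by rw [ap_wt_R, div_div, one_mul])
    obtain ⟨C2, hC2, hS2⟩ := symC_of_ts_L hq (h.ts_R_dTw (m := 1) (n := 6) domL_Dm (by norm_num)) (i := k)
      (by omega) (σ := fun t y => 1 / (Th t y) ^ (k + 1)) (K := 1) zero_le_one
      (fun t ht y hy => by
        have hT := (ap_pos3 hq (r_Ico ht) hy).2.1
        refine le_of_eq ?_
        rw [ap_wt_T, pow_succ']
        field_simp)
    obtain ⟨C3, hC3, hS3⟩ := symC_of_ts_L hq (h.ts_R_W (m := 2) (n := 6) domL_Dm (by norm_num)) (i := k + 1) hi2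
      (σ := fun t y => 1 / (Th t y) ^ (k + 1 + 1)) (K := 1) zero_le_one
      (fun t ht y hy => by
        have hT := (ap_pos3 hq (r_Ico ht) hy).2.1
        refine le_of_eq ?_
        rw [ap_wt_T, pow_succ' _ (k + 1)]
        field_simp)
    rw [← Function.iterate_succ_apply] at hS2
    refine ⟨C1 + C2 + C3, by positivity, ?_, ?_, ?_⟩
    · exact SymC.mono_C hq hL (fun t ht y hy => by
        have := ap_pos3 hq (r_Ico ht) hy
        have h1 := this.1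
        have h2 := this.2.1
        positivity) (by linarith) hS1
    · exact SymC.mono_C hq hL (fun t ht y hy => by
        have h2 := (ap_pos3 hq (r_Ico ht) hy).2.1
        positivity) (by linarith) hS2
    · exact SymC.mono_C hq hL (fun t ht y hy => by
        have h2 := (ap_pos3 hq (r_Ico ht) hy).2.1
        positivity) (by linarith) hS3
  obtain ⟨Ca, hCa, a1, a2, a3⟩ := key 1 le_rfl (by norm_num)
  obtain ⟨Cb, hCb, b1, b2, b3⟩ := key 2 (by norm_num) le_rfl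
  refine ⟨1 / 1000, Ca + Cb, by norm_num, fun i hi1 hi2 => ?_⟩
  have hpos1 : ∀ i : ℕ, ∀ t ∈ Ico (-(1 / 1000 : ℝ)) 0, ∀ y ∈ Icc (-1 : ℝ) 1,
      0 ≤ 1 / (rh2 (q : ℝ) t y * (Th t y) ^ i) := fun i t ht y hy => by
    have := ap_pos3 hq (r_Ico ht) hy
    have h1 := this.1
    have h2 := this.2.1
    positivity
  have hpos2 : ∀ i : ℕ, ∀ t ∈ Ico (-(1 / 1000 : ℝ)) 0, ∀ y ∈ Icc (-1 : ℝ) 1, 0 ≤ 1 / (Th t y) ^ i :=
    fun i t ht y hy => by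
    have h2 := (ap_pos3 hq (r_Ico ht) hy).2.1
    positivity
  interval_cases i
  · exact ⟨SymC.mono_C hq hL (hpos1 1) (by linarith) a1, SymC.mono_C hq hL (hpos2 1) (by linarith) a2,
      SymC.mono_C hq hL (hpos2 (1 + 1)) (by linarith) a3⟩
  · exact ⟨SymC.mono_C hq hL (hpos1 2) (by linarith) b1, SymC.mono_C hq hL (hpos2 2) (by linarith) b2,
      SymC.mono_C hq hL (hpos2 (2 + 1)) (by linarith) b3⟩

theorem BP.bgA_close (h : BP q w z) : BgClose q (bgA q w z) := by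
  have hq := h.hqR
  have hL : (1 / 1000 : ℝ) ≤ 1 := by norm_num
  obtain ⟨C1, hC1, hS1⟩ := symC_of_ts_L hq (h.ts_close_B (n := 6) domL_Dm) (i := 0) le_rfl
    (σ := fun t y => JJ q t y / rh2 q t y) (K := 1) zero_le_one
    (fun t ht y hy => by rw [apr_wt_JRh hq (r_Ico ht) hy, pow_zero, div_one, one_mul])
  obtain ⟨C2, hC2, hS2⟩ := symC_of_ts_L hq (h.ts_close_w (n := 6) domL_Dm) (i := 0) le_rfl
    (σ := fun t y => JJ q t y) (K := 1) zero_le_one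
    (fun t ht y hy => by rw [wt_JJ, pow_zero, div_one, one_mul])
  obtain ⟨C3, hC3, hS3⟩ := symC_of_ts_L hq (h.ts_close_W (n := 6) domL_Dm) (i := 0) le_rfl
    (σ := fun t y => JJ q t y / Th t y) (K := 1) zero_le_one
    (fun t ht y hy => by rw [ap_wt_J hq (r_Ico ht) hy, pow_zero, div_one, one_mul])
  have hJ0 : ∀ t ∈ Ico (-(1 / 1000 : ℝ)) 0, ∀ y ∈ Icc (-1 : ℝ) 1, 0 ≤ JJ (q : ℝ) t y / rh2 (q : ℝ) t y :=
    fun t ht y hy => by
    have := ap_pos3 hq (r_Ico ht) hy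
    exact (div_pos this.2.2 this.1).le
  have hJ1 : ∀ t ∈ Ico (-(1 / 1000 : ℝ)) 0, ∀ y ∈ Icc (-1 : ℝ) 1, 0 ≤ JJ (q : ℝ) t y :=
    fun t ht y hy => (ap_pos3 hq (r_Ico ht) hy).2.2.le
  have hJ2 : ∀ t ∈ Ico (-(1 / 1000 : ℝ)) 0, ∀ y ∈ Icc (-1 : ℝ) 1, 0 ≤ JJ (q : ℝ) t y / Th t y :=
    fun t ht y hy => by
    have := ap_pos3 hq (r_Ico ht) hy
    exact (div_pos this.2.2 this.2.1).le
  refine ⟨1 / 1000, C1 + C2 + C3, by norm_num, ?_, ?_, ?_⟩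
  · exact SymC.mono_C hq hL hJ0 (by linarith) hS1
  · exact SymC.mono_C hq hL hJ1 (by linarith) hS2
  · exact SymC.mono_C hq hL hJ2 (by linarith) hS3

end

end Claimed.Agent.R324.Core
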